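import Mathlib

/-! Basic calculus on the plane for row 220. -/

set_option autoImplicit false
open scoped ContDiff
open MeasureTheory Set

namespace Crest.Agent.R220

abbrev P := ℝ × ℝ

section DD
variable {F : Type*} [NormedAddCommGroup F] [NormedSpace ℝ F]

/-- directional derivative -/
noncomputable def D (e : P) (f : P → F) (p : P) : F := fderiv ℝ f p e

scoped notation "dX" => D ((1, 0) : P)
scoped notation "dY" => D ((0, 1) : P)

/-- smoothness -/
abbrev Sm (f : P → F) : Prop := ContDiff ℝ ∞ f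

theorem Sm.diff {f : P → F} (h : Sm f) : Differentiable ℝ f := h.differentiable (by simp)
theorem Sm.c1 {f : P → F} (h : Sm f) : ContDiff ℝ 1 f := h.of_le (by simp)
theorem Sm.cont {f : P → F} (h : Sm f) : Continuous f := h.continuous

@[fun_prop]
theorem Sm.D {f : P → F} (h : ContDiff ℝ ∞ f) (e : P) : ContDiff ℝ ∞ (D e f) := by
  unfold R220.D
  have h1 : ContDiff ℝ ∞ (fderiv ℝ f) := h.fderiv_right (m := ∞) (by simp)
  exact h1.clm_apply contDiff_const

@[fun_prop]
theorem differentiableAt_D {f : P → F} (h : ContDiff ℝ ∞ f) (e p : P) :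
    DifferentiableAt ℝ (D e f) p := (Sm.D h e).differentiable (by simp) p

@[fun_prop]
theorem differentiable_D {f : P → F} (h : ContDiff ℝ ∞ f) (e : P) :
    Differentiable ℝ (D e f) := (Sm.D h e).differentiable (by simp)

@[fun_prop]
theorem continuous_D {f : P → F} (h : ContDiff ℝ ∞ f) (e : P) :
    Continuous (D e f) := (Sm.D h e).continuous

theorem continuous_D_c1 {f : P → F} (h : ContDiff ℝ 1 f) (e : P) :
    Continuous (D e f) := by
  unfold D
  exact (h.continuous_fderiv (by simp)).clm_apply continuous_const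

theorem D_comm {f : P → F} (h : Sm f) (e e' p : P) : D e (D e' f) p = D e' (D e f) p := by
  have h1 : ContDiff ℝ ∞ (fderiv ℝ f) := h.fderiv_right (m := ∞) (by simp)
  have hd : DifferentiableAt ℝ (fderiv ℝ f) p := h1.differentiable (by simp) p
  have key : ∀ a b : P, D a (D b f) p = fderiv ℝ (fderiv ℝ f) p a b := by
    intro a b
    unfold D
    rw [fderiv_clm_apply hd (differentiableAt_const b)]
    simp
  rw [key, key]
  exact (h.contDiffAt.isSymmSndFDerivAt (n := ∞) (by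
    rw [minSmoothness_of_isRCLikeNormedField]; exact WithTop.coe_le_coe.2 (le_top : (2 : ℕ∞) ≤ ⊤))) e e'

theorem D_comm' {f : P → F} (h : Sm f) (e e' : P) : D e (D e' f) = D e' (D e f) :=
  funext (D_comm h e e')

theorem D_congr {f g : P → F} {p : P} (h : f =ᶠ[nhds p] g) (e : P) : D e f p = D e g p := by
  unfold D; rw [h.fderiv_eq]

theorem D_congr_ev {f g : P → F} {p : P} (h : f =ᶠ[nhds p] g) (e : P) :
    D e f =ᶠ[nhds p] D e g := by
  filter_upwards [h.eventuallyEq_nhds] with q hq using D_congr hq e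

theorem D_const (c : F) (e p : P) : D e (fun _ => c) p = 0 := by simp [D]

theorem D_add {f g : P → F} {p : P} (e : P) (hf : DifferentiableAt ℝ f p)
    (hg : DifferentiableAt ℝ g p) : D e (fun q => f q + g q) p = D e f p + D e g p := by
  unfold D; rw [fderiv_fun_add hf hg]; rfl

theorem D_sub {f g : P → F} {p : P} (e : P) (hf : DifferentiableAt ℝ f p)
    (hg : DifferentiableAt ℝ g p) : D e (fun q => f q - g q) p = D e f p - D e g p := by
  unfold D; rw [fderiv_fun_sub hf hg]; rfl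

theorem D_neg {f : P → F} {p : P} (e : P) : D e (fun q => - f q) p = - D e f p := by
  unfold D; rw [fderiv_fun_neg]; rfl

theorem D_smul {c : P → ℝ} {f : P → F} {p : P} (e : P) (hc : DifferentiableAt ℝ c p)
    (hf : DifferentiableAt ℝ f p) :
    D e (fun q => c q • f q) p = D e c p • f p + c p • D e f p := by
  unfold D; rw [fderiv_fun_smul hc hf]; simp [add_comm]

theorem D_sum {ι : Type*} (s : Finset ι) {f : ι → P → F} {p : P} (e : P)
    (hf : ∀ i ∈ s, DifferentiableAt ℝ (f i) p) :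
    D e (fun q => ∑ i ∈ s, f i q) p = ∑ i ∈ s, D e (f i) p := by
  unfold D; rw [fderiv_fun_sum hf]; simp

theorem D_translate (f : P → F) (c e p : P) : D e (fun q => f (c + q)) p = D e f (c + p) := by
  unfold D; rw [fderiv_comp_add_left]

theorem D_translate_sub (f : P → F) (c e p : P) : D e (fun q => f (q - c)) p = D e f (p - c) := by
  unfold D; rw [fderiv_comp_sub]

theorem fderiv_eq_D (f : P → F) (p v : P) :
    fderiv ℝ f p v = v.1 • dX f p + v.2 • dY f p := by
  unfold D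
  rw [← map_smul, ← map_smul, ← map_add]
  congr 1
  ext <;> simp

end DD

theorem D_mul {f g : P → ℝ} {p : P} (e : P) (hf : DifferentiableAt ℝ f p)
    (hg : DifferentiableAt ℝ g p) :
    D e (fun q => f q * g q) p = D e f p * g p + f p * D e g p := by
  unfold D; rw [fderiv_fun_mul hf hg]; simp; ring

theorem D_const_mul {f : P → ℝ} {p : P} (e : P) (c : ℝ) (hf : DifferentiableAt ℝ f p) :
    D e (fun q => c * f q) p = c * D e f p := by
  rw [D_mul e (differentiableAt_const c) hf, D_const]; ring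

theorem D_div_const {f : P → ℝ} {p : P} (e : P) (c : ℝ) (hf : DifferentiableAt ℝ f p) :
    D e (fun q => f q / c) p = D e f p / c := by
  simp only [div_eq_mul_inv]
  rw [D_mul e hf (differentiableAt_const _), D_const]; ring

theorem D_comp {φ : ℝ → ℝ} {f : P → ℝ} {p : P} (e : P) (hφ : DifferentiableAt ℝ φ (f p))
    (hf : DifferentiableAt ℝ f p) : D e (fun q => φ (f q)) p = deriv φ (f p) * D e f p := by
  unfold D
  have := (hφ.hasDerivAt.comp_hasFDerivAt p hf.hasFDerivAt).fderiv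
  rw [show (fun q => φ (f q)) = φ ∘ f from rfl, this]
  simp

theorem D_pow {f : P → ℝ} {p : P} (e : P) (n : ℕ) (hf : DifferentiableAt ℝ f p) :
    D e (fun q => f q ^ n) p = n * f p ^ (n - 1) * D e f p := by
  rw [D_comp (φ := fun x => x ^ n) e (by fun_prop) hf]; simp

theorem D_sq {f : P → ℝ} {p : P} (e : P) (hf : DifferentiableAt ℝ f p) :
    D e (fun q => f q ^ 2) p = 2 * f p * D e f p := by
  rw [D_pow e 2 hf]; simp

theorem D_inv {f : P → ℝ} {p : P} (e : P) (hf : DifferentiableAt ℝ f p) (h0 : f p ≠ 0) :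
    D e (fun q => (f q)⁻¹) p = - ((f p)⁻¹ ^ 2 * D e f p) := by
  rw [D_comp (φ := fun x => x⁻¹) e (differentiableAt_inv h0) hf]; simp

theorem D_exp {f : P → ℝ} {p : P} (e : P) (hf : DifferentiableAt ℝ f p) :
    D e (fun q => Real.exp (f q)) p = Real.exp (f p) * D e f p := by
  rw [D_comp (φ := Real.exp) e (by fun_prop) hf]; simp

theorem D_fst (e p : P) : D e (fun q => q.1) p = e.1 := by
  unfold D; rw [fderiv_fst]; rfl

theorem D_snd (e p : P) : D e (fun q => q.2) p = e.2 := by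
  unfold D; rw [fderiv_snd]; rfl

theorem D_fst' (e p : P) : D e Prod.fst p = e.1 := D_fst e p
theorem D_snd' (e p : P) : D e Prod.snd p = e.2 := D_snd e p

/-- expand directional derivatives -/
macro "dexp" : tactic => `(tactic| simp (disch := first | assumption | fun_prop (disch := assumption)) only
  [D_add, D_sub, D_neg, D_const, D_const_mul, D_div_const, D_mul, D_sq, D_inv, D_exp,
   D_fst, D_snd, D_fst', D_snd'])

/-- prove smoothness -/
macro "smo" : tactic => `(tactic| (show ContDiff ℝ ∞ _; fun_prop (disch := assumption)))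

/-! ### Integration -/

theorem hasCompactSupport_D {F : Type*} [NormedAddCommGroup F] [NormedSpace ℝ F] {G : P → F}
    (hc : HasCompactSupport G) (e : P) : HasCompactSupport (D e G) := by
  unfold D
  exact (hc.fderiv ℝ).comp_left (g := fun L : P →L[ℝ] F => L e) (by simp)

theorem integrable_D {G : P → ℝ} (hG : ContDiff ℝ 1 G) (hc : HasCompactSupport G) (e : P) :
    Integrable (D e G) :=
  (continuous_D_c1 hG e).integrable_of_hasCompactSupport (hasCompactSupport_D hc e)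

theorem integral_D {G : P → ℝ} (hG : ContDiff ℝ 1 G) (hc : HasCompactSupport G) (e : P) :
    ∫ p, D e G p = 0 := by
  have h := integral_mul_fderiv_eq_neg_fderiv_mul_of_integrable (μ := (volume : Measure P))
    (f := fun _ : P => (1 : ℝ)) (g := G) (v := e) (by simp)
    (by simp only [one_mul]; exact integrable_D hG hc e)
    (by simpa using hG.continuous.integrable_of_hasCompactSupport hc)
    (fun _ _ => differentiableAt_const _) (fun x _ => hG.differentiable (by simp) x)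
  simpa [D] using h

theorem integrable_div {G1 G2 : P → ℝ} (h1 : ContDiff ℝ 1 G1) (h2 : ContDiff ℝ 1 G2)
    (c1 : HasCompactSupport G1) (c2 : HasCompactSupport G2) :
    Integrable (fun p => dX G1 p + dY G2 p) :=
  (integrable_D h1 c1 _).add (integrable_D h2 c2 _)

theorem integral_div {G1 G2 : P → ℝ} (h1 : ContDiff ℝ 1 G1) (h2 : ContDiff ℝ 1 G2)
    (c1 : HasCompactSupport G1) (c2 : HasCompactSupport G2) :
    ∫ p, (dX G1 p + dY G2 p) = 0 := by
  rw [integral_add (integrable_D h1 c1 _) (integrable_D h2 c2 _), integral_D h1 c1,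
    integral_D h2 c2, add_zero]

theorem integrable_indicator_compact {T : Set P} (hT : IsCompact T) {h : P → ℝ}
    (hh : Continuous h) : Integrable (T.indicator h) :=
  (integrable_indicator_iff hT.measurableSet).2 (hh.continuousOn.integrableOn_compact hT)

/-- comparison through a divergence -/
theorem div_compare {G1 G2 : P → ℝ} (h1 : ContDiff ℝ 1 G1) (h2 : ContDiff ℝ 1 G2)
    (c1 : HasCompactSupport G1) (c2 : HasCompactSupport G2) {T1 T2 T3 : Set P}
    (t1 : IsCompact T1) (t2 : IsCompact T2) (t3 : IsCompact T3) {g1 g2 g3 : P → ℝ}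
    (k1 : Continuous g1) (k2 : Continuous g2) (k3 : Continuous g3)
    (hpt : ∀ p, T1.indicator g1 p + (dX G1 p + dY G2 p) ≤ T2.indicator g2 p + T3.indicator g3 p) :
    ∫ p in T1, g1 p ≤ (∫ p in T2, g2 p) + ∫ p in T3, g3 p := by
  have := integral_mono (μ := (volume : Measure P))
    ((integrable_indicator_compact t1 k1).add (integrable_div h1 h2 c1 c2))
    ((integrable_indicator_compact t2 k2).add (integrable_indicator_compact t3 k3)) hpt
  simp only [Pi.add_apply] at this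
  rwa [integral_add (integrable_indicator_compact t1 k1) (integrable_div h1 h2 c1 c2),
    integral_add (integrable_indicator_compact t2 k2) (integrable_indicator_compact t3 k3),
    integral_div h1 h2 c1 c2, add_zero, integral_indicator t1.measurableSet,
    integral_indicator t2.measurableSet, integral_indicator t3.measurableSet] at this

/-- Cauchy–Schwarz against the constant function -/
theorem sq_integral_le {α : Type*} [MeasurableSpace α] (μ : Measure α) [IsFiniteMeasure μ]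
    {g : α → ℝ} (h1 : Integrable g μ) (h2 : Integrable (fun x => g x ^ 2) μ) :
    (∫ x, g x ∂μ) ^ 2 ≤ μ.real univ * ∫ x, g x ^ 2 ∂μ := by
  set m := μ.real univ with hm
  have hm0 : 0 ≤ m := measureReal_nonneg
  set I := ∫ x, g x ∂μ
  set J := ∫ x, g x ^ 2 ∂μ
  rcases hm0.eq_or_lt with h | h
  · have : μ = 0 := by
      have : μ univ = 0 := by
        rw [hm, Measure.real, eq_comm, ENNReal.toReal_eq_zero_iff] at h
        exact h.resolve_right (measure_ne_top _ _)
      exact Measure.measure_univ_eq_zero.1 this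
    simp [I, J, this]
  · have key : 0 ≤ ∫ x, (m * g x - I) ^ 2 ∂μ := integral_nonneg fun x => sq_nonneg _
    have e : ∫ x, (m * g x - I) ^ 2 ∂μ = m ^ 2 * J - 2 * m * I * I + m * I ^ 2 := by
      have : (fun x => (m * g x - I) ^ 2) =
          fun x => (m ^ 2 * g x ^ 2 - (2 * m * I) * g x) + I ^ 2 := by
        funext x; ring
      have i1 : Integrable (fun x => m ^ 2 * g x ^ 2 - (2 * m * I) * g x) μ :=
        (h2.const_mul _).sub (h1.const_mul _)
      rw [this, integral_add i1 (integrable_const _),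
        integral_sub (h2.const_mul _) (h1.const_mul _), integral_const_mul, integral_const_mul,
        integral_const]
      simp [I, J, hm]
    rw [e] at key
    have : 0 ≤ m * (m * J - I ^ 2) := by nlinarith
    have := (mul_nonneg_iff_of_pos_left h).1 this
    linarith

/-- product of a cutoff with a function that is C¹ near the support of the cutoff -/
theorem contDiff_cut {n : WithTop ℕ∞} {F : Type*} [NormedAddCommGroup F] [NormedSpace ℝ F]
    {χ : P → ℝ} {J : P → F} (hχ : ContDiff ℝ n χ) {K : Set P}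
    (hK : IsClosed K) (h0 : ∀ p ∉ K, χ p = 0) (hJ : ∀ p ∈ K, ContDiffAt ℝ n J p) :
    ContDiff ℝ n (fun p => χ p • J p) := by
  rw [contDiff_iff_contDiffAt]
  intro p
  by_cases hp : p ∈ K
  · exact hχ.contDiffAt.smul (hJ p hp)
  · have : (fun p => χ p • J p) =ᶠ[nhds p] fun _ => 0 := by
      filter_upwards [hK.isOpen_compl.mem_nhds hp] with q hq
      simp [h0 q hq]
    exact contDiffAt_const.congr_of_eventuallyEq this

theorem D_eq_zero_off {F : Type*} [NormedAddCommGroup F] [NormedSpace ℝ F] {G : P → F}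
    {K : Set P} (hK : IsClosed K) (h0 : ∀ p ∉ K, G p = 0) (e : P) :
    ∀ p ∉ K, D e G p = 0 := by
  intro p hp
  have : G =ᶠ[nhds p] fun _ => 0 := by
    filter_upwards [hK.isOpen_compl.mem_nhds hp] with q hq using h0 q hq
  rw [D_congr this, D_const]

/-- mean value inequality on a ball around the origin -/
theorem mvt_ball {f : P → ℝ} (hf : Differentiable ℝ f) {ρ c : ℝ}
    (hx : ∀ p, ‖p‖ ≤ ρ → |dX f p| ≤ c) (hy : ∀ p, ‖p‖ ≤ ρ → |dY f p| ≤ c)
    {p q : P} (hp : ‖p‖ ≤ ρ) (hq : ‖q‖ ≤ ρ) : |f p - f q| ≤ 2 * c * ‖p - q‖ := by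
  have hc : 0 ≤ c := (abs_nonneg _).trans (hx p hp)
  have := (convex_closedBall (0 : P) ρ).norm_image_sub_le_of_norm_fderiv_le (𝕜 := ℝ) (f := f)
    (C := 2 * c) (fun x _ => hf x) (fun x hx' => by
      have hx'' : ‖x‖ ≤ ρ := by simpa using hx'
      refine ContinuousLinearMap.opNorm_le_bound _ (by positivity) fun v => ?_
      rw [fderiv_eq_D]
      have a1 : |v.1| ≤ ‖v‖ := norm_fst_le v
      have a2 : |v.2| ≤ ‖v‖ := norm_snd_le v
      have b1 := hx x hx''
      have b2 := hy x hx''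
      calc ‖v.1 • dX f x + v.2 • dY f x‖ ≤ |v.1| * |dX f x| + |v.2| * |dY f x| := by
            simpa [abs_mul] using abs_add_le (v.1 * dX f x) (v.2 * dY f x)
        _ ≤ ‖v‖ * c + ‖v‖ * c := by gcongr
        _ = 2 * c * ‖v‖ := by ring) (x := q) (y := p) (by simpa using hq) (by simpa using hp)
  simpa using this

theorem abs_mul_le {x y a b : ℝ} (hx : |x| ≤ a) (hy : |y| ≤ b) : |x * y| ≤ a * b := by
  rw [abs_mul]; exact mul_le_mul hx hy (abs_nonneg _) ((abs_nonneg _).trans hx)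

theorem abs_add_le' {x y a b : ℝ} (hx : |x| ≤ a) (hy : |y| ≤ b) : |x + y| ≤ a + b :=
  (abs_add_le _ _).trans (add_le_add hx hy)

theorem abs_sub_le' {x y a b : ℝ} (hx : |x| ≤ a) (hy : |y| ≤ b) : |x - y| ≤ a + b :=
  (abs_sub _ _).trans (add_le_add hx hy)

theorem abs_fst_le {p : P} {r : ℝ} (h : ‖p‖ ≤ r) : |p.1| ≤ r := (norm_fst_le p).trans h
theorem abs_snd_le {p : P} {r : ℝ} (h : ‖p‖ ≤ r) : |p.2| ≤ r := (norm_snd_le p).trans h
theorem norm_le_of_abs {p : P} {r : ℝ} (h1 : |p.1| ≤ r) (h2 : |p.2| ≤ r) : ‖p‖ ≤ r :=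
  norm_prod_le_iff.2 ⟨h1, h2⟩
theorem le_norm_cases {p : P} {r : ℝ} (h : r ≤ ‖p‖) : r ≤ |p.1| ∨ r ≤ |p.2| := by
  rw [Prod.norm_def] at h
  simpa using h

/-! ### Plateau functions -/

theorem exists_bound_deriv_smoothTransition :
    ∃ B : ℝ, 1 ≤ B ∧ ∀ s, |deriv Real.smoothTransition s| ≤ B := by
  have hc : Continuous (deriv Real.smoothTransition) :=
    (Real.smoothTransition.contDiff (n := 1)).continuous_deriv (by simp)
  obtain ⟨B, hB⟩ := (isCompact_Icc (a := (0 : ℝ)) (b := 1)).exists_bound_of_continuousOn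
    hc.continuousOn
  refine ⟨max B 1, le_max_right _ _, fun s => ?_⟩
  by_cases h : s ∈ Icc (0 : ℝ) 1
  · exact (hB s h).trans (le_max_left _ _)
  · have : deriv Real.smoothTransition s = 0 := by
      rw [mem_Icc, not_and_or, not_le, not_le] at h
      rcases h with h | h
      · have : Real.smoothTransition =ᶠ[nhds s] fun _ => 0 := by
          filter_upwards [Iio_mem_nhds h] with t ht using Real.smoothTransition.zero_of_nonpos ht.le
        rw [this.deriv_eq]; simp
      · have : Real.smoothTransition =ᶠ[nhds s] fun _ => 1 := by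
          filter_upwards [Ioi_mem_nhds h] with t ht using Real.smoothTransition.one_of_one_le ht.le
        rw [this.deriv_eq]; simp
    rw [this]; simp

/-- plateau: one on `|s| ≤ ρ`, zero on `ρ + Δ ≤ |s|` -/
noncomputable def pl (ρ Δ s : ℝ) : ℝ :=
  Real.smoothTransition ((ρ + Δ - s) / Δ) * Real.smoothTransition ((ρ + Δ + s) / Δ)

@[fun_prop]
theorem pl_smooth (ρ Δ : ℝ) : ContDiff ℝ ∞ (pl ρ Δ) := by
  unfold pl
  have := Real.smoothTransition.contDiff (n := ⊤)
  exact (this.comp (by fun_prop)).mul (this.comp (by fun_prop))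

@[fun_prop]
theorem pl_differentiable (ρ Δ : ℝ) : Differentiable ℝ (pl ρ Δ) :=
  (pl_smooth ρ Δ).differentiable (by simp)

@[fun_prop]
theorem pl_differentiableAt (ρ Δ s : ℝ) : DifferentiableAt ℝ (pl ρ Δ) s :=
  pl_differentiable ρ Δ s

theorem pl_nonneg (ρ Δ s : ℝ) : 0 ≤ pl ρ Δ s :=
  mul_nonneg (Real.smoothTransition.nonneg _) (Real.smoothTransition.nonneg _)

theorem pl_le_one (ρ Δ s : ℝ) : pl ρ Δ s ≤ 1 :=
  mul_le_one₀ (Real.smoothTransition.le_one _) (Real.smoothTransition.nonneg _)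
    (Real.smoothTransition.le_one _)

theorem abs_pl_le (ρ Δ s : ℝ) : |pl ρ Δ s| ≤ 1 := by
  rw [abs_of_nonneg (pl_nonneg _ _ _)]; exact pl_le_one _ _ _

theorem pl_one {ρ Δ s : ℝ} (hΔ : 0 < Δ) (h : |s| ≤ ρ) : pl ρ Δ s = 1 := by
  unfold pl
  rw [abs_le] at h
  rw [Real.smoothTransition.one_of_one_le, Real.smoothTransition.one_of_one_le, mul_one]
  · rw [le_div_iff₀ hΔ]; linarith
  · rw [le_div_iff₀ hΔ]; linarith

theorem pl_zero {ρ Δ s : ℝ} (hΔ : 0 < Δ) (h : ρ + Δ ≤ |s|) : pl ρ Δ s = 0 := by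
  unfold pl
  rcases le_abs.1 h with h | h
  · rw [Real.smoothTransition.zero_of_nonpos (x := (ρ + Δ - s) / Δ), zero_mul]
    exact div_nonpos_of_nonpos_of_nonneg (by linarith) hΔ.le
  · rw [Real.smoothTransition.zero_of_nonpos (x := (ρ + Δ + s) / Δ), mul_zero]
    exact div_nonpos_of_nonpos_of_nonneg (by linarith) hΔ.le

theorem exists_B0 : ∃ B : ℝ, 1 ≤ B ∧ ∀ ρ Δ s : ℝ, 0 < Δ → |deriv (pl ρ Δ) s| ≤ B / Δ := by
  obtain ⟨B, hB1, hB⟩ := exists_bound_deriv_smoothTransition
  refine ⟨2 * B, by linarith, fun ρ Δ s hΔ => ?_⟩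
  have hd : ∀ x, HasDerivAt Real.smoothTransition (deriv Real.smoothTransition x) x := fun x =>
    ((Real.smoothTransition.contDiff (n := 1)).differentiable (by simp) x).hasDerivAt
  have h1 : HasDerivAt (fun s => (ρ + Δ - s) / Δ) (-1 / Δ) s := by
    simpa using ((hasDerivAt_id s).const_sub (ρ + Δ)).div_const Δ
  have h2 : HasDerivAt (fun s => (ρ + Δ + s) / Δ) (1 / Δ) s := by
    simpa using ((hasDerivAt_id s).const_add (ρ + Δ)).div_const Δ
  have h3 := ((hd _).comp s h1).mul ((hd _).comp s h2)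
  have h4 : deriv (pl ρ Δ) s = _ := h3.deriv
  rw [h4]
  have t : ∀ x, |Real.smoothTransition x| ≤ 1 := fun x => by
    rw [abs_of_nonneg (Real.smoothTransition.nonneg _)]; exact Real.smoothTransition.le_one _
  have a1 : |-1 / Δ| ≤ 1 / Δ := by rw [abs_div, abs_neg, abs_one, abs_of_pos hΔ]
  have a2 : |1 / Δ| ≤ 1 / Δ := by rw [abs_div, abs_one, abs_of_pos hΔ]
  refine (abs_add_le' (abs_mul_le (abs_mul_le (hB _) a1) (t _))
    (abs_mul_le (t _) (abs_mul_le (hB _) a2))).trans (le_of_eq ?_)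
  ring

noncomputable def B0 : ℝ := Classical.choose exists_B0
theorem one_le_B0 : 1 ≤ B0 := (Classical.choose_spec exists_B0).1
theorem B0_pos : 0 < B0 := one_pos.trans_le one_le_B0
theorem abs_deriv_pl {ρ Δ s : ℝ} (h : 0 < Δ) : |deriv (pl ρ Δ) s| ≤ B0 / Δ :=
  (Classical.choose_spec exists_B0).2 ρ Δ s h

theorem deriv_pl_zero {ρ Δ s : ℝ} (hΔ : 0 < Δ) (h : ρ + Δ < |s|) : deriv (pl ρ Δ) s = 0 := by
  have : pl ρ Δ =ᶠ[nhds s] fun _ => 0 := by
    have : ∀ᶠ t in nhds s, ρ + Δ < |t| := continuous_abs.continuousAt.eventually (lt_mem_nhds h)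
    filter_upwards [this] with t ht using pl_zero hΔ ht.le
  rw [this.deriv_eq]; simp

/-- box cutoff -/
noncomputable def cut (ρ Δ : ℝ) (p : P) : ℝ := pl ρ Δ p.1 * pl ρ Δ p.2

@[fun_prop]
theorem cut_smooth (ρ Δ : ℝ) : ContDiff ℝ ∞ (cut ρ Δ) := by
  unfold cut; fun_prop

@[fun_prop]
theorem cut_differentiable (ρ Δ : ℝ) : Differentiable ℝ (cut ρ Δ) :=
  (cut_smooth ρ Δ).differentiable (by simp)

@[fun_prop]
theorem cut_differentiableAt (ρ Δ : ℝ) (p : P) : DifferentiableAt ℝ (cut ρ Δ) p :=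
  cut_differentiable ρ Δ p

theorem cut_nonneg (ρ Δ : ℝ) (p : P) : 0 ≤ cut ρ Δ p := mul_nonneg (pl_nonneg _ _ _) (pl_nonneg _ _ _)
theorem cut_le_one (ρ Δ : ℝ) (p : P) : cut ρ Δ p ≤ 1 :=
  mul_le_one₀ (pl_le_one _ _ _) (pl_nonneg _ _ _) (pl_le_one _ _ _)
theorem abs_cut_le (ρ Δ : ℝ) (p : P) : |cut ρ Δ p| ≤ 1 := by
  rw [abs_of_nonneg (cut_nonneg _ _ _)]; exact cut_le_one _ _ _

theorem cut_one {ρ Δ : ℝ} {p : P} (hΔ : 0 < Δ) (h : ‖p‖ ≤ ρ) : cut ρ Δ p = 1 := by
  unfold cut; rw [pl_one hΔ (abs_fst_le h), pl_one hΔ (abs_snd_le h), mul_one]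

theorem cut_zero {ρ Δ : ℝ} {p : P} (hΔ : 0 < Δ) (h : ρ + Δ ≤ ‖p‖) : cut ρ Δ p = 0 := by
  unfold cut
  rcases le_norm_cases h with h | h
  · rw [pl_zero hΔ h, zero_mul]
  · rw [pl_zero hΔ h, mul_zero]

theorem dX_cut (ρ Δ : ℝ) (p : P) : dX (cut ρ Δ) p = deriv (pl ρ Δ) p.1 * pl ρ Δ p.2 := by
  unfold cut
  rw [D_mul _ (by fun_prop) (by fun_prop), D_comp _ (by fun_prop) (by fun_prop),
    D_comp _ (by fun_prop) (by fun_prop), D_fst', D_snd']
  simp

theorem dY_cut (ρ Δ : ℝ) (p : P) : dY (cut ρ Δ) p = pl ρ Δ p.1 * deriv (pl ρ Δ) p.2 := by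
  unfold cut
  rw [D_mul _ (by fun_prop) (by fun_prop), D_comp _ (by fun_prop) (by fun_prop),
    D_comp _ (by fun_prop) (by fun_prop), D_fst', D_snd']
  simp

theorem abs_dX_cut {ρ Δ : ℝ} (hΔ : 0 < Δ) (p : P) : |dX (cut ρ Δ) p| ≤ B0 / Δ := by
  rw [dX_cut]; simpa using abs_mul_le (abs_deriv_pl hΔ) (abs_pl_le ρ Δ p.2)

theorem abs_dY_cut {ρ Δ : ℝ} (hΔ : 0 < Δ) (p : P) : |dY (cut ρ Δ) p| ≤ B0 / Δ := by
  rw [dY_cut]; simpa using abs_mul_le (abs_pl_le ρ Δ p.1) (abs_deriv_pl hΔ)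

theorem D_cut_zero {ρ Δ : ℝ} (hΔ : 0 < Δ) (e : P) {p : P} (h : ¬ (ρ ≤ ‖p‖ ∧ ‖p‖ ≤ ρ + Δ)) :
    D e (cut ρ Δ) p = 0 := by
  rw [not_and_or, not_le, not_le] at h
  rcases h with h | h
  · have : cut ρ Δ =ᶠ[nhds p] fun _ => 1 := by
      have : ∀ᶠ t in nhds p, ‖t‖ < ρ := continuous_norm.continuousAt.eventually (gt_mem_nhds h)
      filter_upwards [this] with t ht using cut_one hΔ ht.le
    rw [D_congr this, D_const]
  · have : cut ρ Δ =ᶠ[nhds p] fun _ => 0 := by
      have : ∀ᶠ t in nhds p, ρ + Δ < ‖t‖ := continuous_norm.continuousAt.eventually (lt_mem_nhds h)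
      filter_upwards [this] with t ht using cut_zero hΔ ht.le
    rw [D_congr this, D_const]

theorem hasCompactSupport_of_ball {F : Type*} [Zero F] {G : P → F} (r : ℝ)
    (h : ∀ p, r < ‖p‖ → G p = 0) : HasCompactSupport G :=
  HasCompactSupport.intro (isCompact_closedBall (0 : P) r) fun p hp => h p (by simpa using hp)

/-! ### C¹ bounds on the box of radius two -/

/-- value and first partials are bounded by `c` on the box -/
def Bd (f : P → ℝ) (c : ℝ) : Prop :=
  ∀ p : P, ‖p‖ ≤ 2 → |f p| ≤ c ∧ |dX f p| ≤ c ∧ |dY f p| ≤ c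

theorem Bd.nonneg {f : P → ℝ} {c : ℝ} (h : Bd f c) : 0 ≤ c :=
  (abs_nonneg _).trans (h 0 (by simp)).1

theorem Bd.mono {f : P → ℝ} {c d : ℝ} (h : Bd f c) (hcd : c ≤ d) : Bd f d := fun p hp =>
  ⟨(h p hp).1.trans hcd, (h p hp).2.1.trans hcd, (h p hp).2.2.trans hcd⟩

theorem Bd.add {f g : P → ℝ} {a b : ℝ} (hf : Bd f a) (hg : Bd g b) (sf : Sm f) (sg : Sm g) :
    Bd (fun p => f p + g p) (a + b) := fun p hp => by
  rw [D_add _ (sf.diff p) (sg.diff p), D_add _ (sf.diff p) (sg.diff p)]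
  exact ⟨abs_add_le' (hf p hp).1 (hg p hp).1, abs_add_le' (hf p hp).2.1 (hg p hp).2.1,
    abs_add_le' (hf p hp).2.2 (hg p hp).2.2⟩

theorem Bd.sub {f g : P → ℝ} {a b : ℝ} (hf : Bd f a) (hg : Bd g b) (sf : Sm f) (sg : Sm g) :
    Bd (fun p => f p - g p) (a + b) := fun p hp => by
  rw [D_sub _ (sf.diff p) (sg.diff p), D_sub _ (sf.diff p) (sg.diff p)]
  exact ⟨abs_sub_le' (hf p hp).1 (hg p hp).1, abs_sub_le' (hf p hp).2.1 (hg p hp).2.1,
    abs_sub_le' (hf p hp).2.2 (hg p hp).2.2⟩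

theorem Bd.neg {f : P → ℝ} {a : ℝ} (hf : Bd f a) : Bd (fun p => - f p) a := fun p hp => by
  rw [D_neg, D_neg, abs_neg, abs_neg, abs_neg]
  exact hf p hp

theorem Bd.mul' {f g : P → ℝ} {a b a0 b0 : ℝ} (hf : Bd f a) (hg : Bd g b) (sf : Sm f) (sg : Sm g)
    (hf0 : ∀ p : P, ‖p‖ ≤ 2 → |f p| ≤ a0) (hg0 : ∀ p : P, ‖p‖ ≤ 2 → |g p| ≤ b0) :
    Bd (fun p => f p * g p) (a * b0 + a0 * b) := fun p hp => by
  rw [D_mul _ (sf.diff p) (sg.diff p), D_mul _ (sf.diff p) (sg.diff p)]
  refine ⟨(abs_mul_le (hf p hp).1 (hg0 p hp)).trans ?_,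
    abs_add_le' (abs_mul_le (hf p hp).2.1 (hg0 p hp)) (abs_mul_le (hf0 p hp) (hg p hp).2.1),
    abs_add_le' (abs_mul_le (hf p hp).2.2 (hg0 p hp)) (abs_mul_le (hf0 p hp) (hg p hp).2.2)⟩
  have := mul_nonneg ((abs_nonneg _).trans (hf0 p hp)) hg.nonneg
  linarith

theorem Bd.mul {f g : P → ℝ} {a b : ℝ} (hf : Bd f a) (hg : Bd g b) (sf : Sm f) (sg : Sm g) :
    Bd (fun p => f p * g p) (2 * a * b) :=
  (hf.mul' hg sf sg (fun p hp => (hf p hp).1) (fun p hp => (hg p hp).1)).mono (le_of_eq (by ring))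

theorem Bd.cmul {f : P → ℝ} {a : ℝ} (hf : Bd f a) (sf : Sm f) {c d : ℝ} (hc : |c| ≤ d) :
    Bd (fun p => c * f p) (d * a) := fun p hp => by
  rw [D_const_mul _ _ (sf.diff p), D_const_mul _ _ (sf.diff p)]
  exact ⟨abs_mul_le hc (hf p hp).1, abs_mul_le hc (hf p hp).2.1, abs_mul_le hc (hf p hp).2.2⟩

theorem Bd.congr {f g : P → ℝ} {a : ℝ} (hf : Bd f a) (h : ∀ p : P, ‖p‖ < 5 / 2 → g p = f p) :
    Bd g a := fun p hp => by
  have : g =ᶠ[nhds p] f := by
    have : ∀ᶠ t in nhds p, ‖t‖ < 5 / 2 :=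
      continuous_norm.continuousAt.eventually (gt_mem_nhds (by linarith))
    filter_upwards [this] with t ht using h t ht
  rw [D_congr this, D_congr this, h p (by linarith)]
  exact hf p hp

theorem Bd.lip {f : P → ℝ} {a : ℝ} (hf : Bd f a) (sf : Sm f) {p q : P} (hp : ‖p‖ ≤ 2)
    (hq : ‖q‖ ≤ 2) : |f p - f q| ≤ 2 * a * ‖p - q‖ :=
  mvt_ball sf.diff (fun p hp => (hf p hp).2.1) (fun p hp => (hf p hp).2.2) hp hq

theorem Bd.exp_sub_one {f : P → ℝ} {a : ℝ} (hf : Bd f a) (sf : Sm f) (ha : a ≤ 1) :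
    Bd (fun p => Real.exp (f p) - 1) (3 * a) := fun p hp => by
  have hd := sf.diff
  have h0 := hf.nonneg
  have h1 : |Real.exp (f p)| ≤ 3 := by
    rw [abs_of_pos (Real.exp_pos _)]
    have : f p ≤ 1 := (le_abs_self _).trans ((hf p hp).1.trans ha)
    exact (Real.exp_le_exp.2 this).trans (Real.exp_one_lt_d9.le.trans (by norm_num))
  dexp
  simp only [sub_zero]
  refine ⟨(Real.abs_exp_sub_one_le ((hf p hp).1.trans ha)).trans ?_,
    abs_mul_le h1 (hf p hp).2.1, abs_mul_le h1 (hf p hp).2.2⟩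
  have := (hf p hp).1
  linarith

end Crest.Agent.R220
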