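import Crest.Agent.R220.Nonlin

/-! Higher derivative bounds, the family of perturbed profiles. -/

set_option autoImplicit false
open scoped ContDiff
open MeasureTheory Set

namespace Crest.Agent.R220

section
variable {F : Type*} [NormedAddCommGroup F] [NormedSpace ℝ F]

/-- all derivatives up to order `n` are bounded by `c` -/
def Nb (f : P → F) (n : ℕ) (c : ℝ) : Prop := ∀ i ≤ n, ∀ p, ‖iteratedFDeriv ℝ i f p‖ ≤ c

theorem Nb.nonneg {f : P → F} {n : ℕ} {c : ℝ} (h : Nb f n c) : 0 ≤ c :=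
  (norm_nonneg _).trans (h 0 (Nat.zero_le _) 0)

theorem Nb.mono {f : P → F} {n m : ℕ} {c d : ℝ} (h : Nb f n c) (hm : m ≤ n) (hd : c ≤ d) :
    Nb f m d := fun i hi p => (h i (hi.trans hm) p).trans hd

theorem Nb.val {f : P → F} {n : ℕ} {c : ℝ} (h : Nb f n c) (p : P) : ‖f p‖ ≤ c := by
  simpa using h 0 (Nat.zero_le _) p

theorem norm_iteratedFDeriv_D {f : P → F} (hf : Sm f) {e : P} (he : ‖e‖ ≤ 1) (i : ℕ) (p : P) :
    ‖iteratedFDeriv ℝ i (D e f) p‖ ≤ ‖iteratedFDeriv ℝ (i + 1) f p‖ := by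
  have h1 : ContDiff ℝ ∞ (fderiv ℝ f) := hf.fderiv_right (m := ∞) (by simp)
  have := norm_iteratedFDeriv_clm_apply_const (c := e) (x := p) (n := i) h1.contDiffAt
    (by exact_mod_cast le_top)
  rw [norm_iteratedFDeriv_fderiv] at this
  exact this.trans (mul_le_of_le_one_left (norm_nonneg _) he)

theorem Nb.dx {f : P → F} {n : ℕ} {c : ℝ} (h : Nb f (n + 1) c) (hf : Sm f) : Nb (dX f) n c :=
  fun i hi p => (norm_iteratedFDeriv_D hf (by simp [Prod.norm_def]) i p).trans
    (h _ (by omega) p)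

theorem Nb.dy {f : P → F} {n : ℕ} {c : ℝ} (h : Nb f (n + 1) c) (hf : Sm f) : Nb (dY f) n c :=
  fun i hi p => (norm_iteratedFDeriv_D hf (by simp [Prod.norm_def]) i p).trans
    (h _ (by omega) p)

theorem exists_Nb {f : P → F} (hf : Sm f) (hc : HasCompactSupport f) (n : ℕ) :
    ∃ c, 1 ≤ c ∧ Nb f n c := by
  have : ∀ i : ℕ, ∃ c, ∀ p, ‖iteratedFDeriv ℝ i f p‖ ≤ c := fun i =>
    (hf.continuous_iteratedFDeriv (m := i) (by exact_mod_cast le_top)).bounded_above_of_compact_support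
      (hc.iteratedFDeriv i)
  choose c hc using this
  refine ⟨1 + ∑ i ∈ Finset.range (n + 1), |c i|, ?_, fun i hi p => ?_⟩
  · have : 0 ≤ ∑ i ∈ Finset.range (n + 1), |c i| := Finset.sum_nonneg fun _ _ => abs_nonneg _
    linarith
  · have := Finset.single_le_sum (f := fun i => |c i|) (s := Finset.range (n + 1))
      (fun _ _ => abs_nonneg _) (Finset.mem_range.2 (Nat.lt_succ_of_le hi))
    linarith [hc i p, le_abs_self (c i)]

theorem Nb.comp_clm {f : P → F} {n : ℕ} {c L : ℝ} (h : Nb f n c) (hf : Sm f) (g : P →L[ℝ] P)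
    (hg : ‖g‖ ≤ L) (hL : 1 ≤ L) : Nb (fun p => f (g p)) n (c * L ^ n) := by
  intro i hi p
  have := g.iteratedFDeriv_comp_right hf p (i := i) (by exact_mod_cast le_top)
  rw [show (fun p => f (g p)) = f ∘ g from rfl, this]
  refine (ContinuousMultilinearMap.norm_compContinuousLinearMap_le _ _).trans ?_
  simp only [Finset.prod_const, Finset.card_univ, Fintype.card_fin]
  have c0 := h.nonneg
  calc _ ≤ c * L ^ i := by gcongr; exact h i hi _
    _ ≤ c * L ^ n := by gcongr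

theorem Nb.sub_const {f : P → F} {n : ℕ} {c : ℝ} (h : Nb f n c) (a : P) :
    Nb (fun p => f (p - a)) n c := fun i hi p => by
  rw [iteratedFDeriv_comp_sub]; exact h i hi _

theorem Nb.add {f g : P → F} {n : ℕ} {c d : ℝ} (hf : Nb f n c) (hg : Nb g n d) (sf : Sm f)
    (sg : Sm g) : Nb (fun p => f p + g p) n (c + d) := fun i hi p => by
  have := iteratedFDeriv_add_apply (x := p) (i := i)
    (sf.contDiffAt.of_le (by exact_mod_cast le_top)) (sg.contDiffAt.of_le (by exact_mod_cast le_top))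
  rw [show (fun p => f p + g p) = f + g from rfl, this]
  exact (norm_add_le _ _).trans (add_le_add (hf i hi p) (hg i hi p))

theorem Nb.zero (n : ℕ) : Nb (fun _ : P => (0 : F)) n 0 := fun i _ p => by
  simp [iteratedFDeriv_fun_zero]

theorem Nb.sum {ι : Type*} (s : Finset ι) {f : ι → P → F} {n : ℕ} {c : ℝ}
    (hf : ∀ i ∈ s, Nb (f i) n c) (sf : ∀ i ∈ s, Sm (f i)) :
    Nb (fun p => ∑ i ∈ s, f i p) n (s.card * c) := by
  classical
  induction s using Finset.induction_on with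
  | empty => simpa using Nb.zero n
  | insert a s ha ih =>
    simp only [Finset.sum_insert ha, Finset.card_insert_of_notMem ha]
    refine ((hf a (by simp)).add (ih (fun i hi => hf i (by simp [hi])) fun i hi => sf i (by simp [hi]))
      (sf a (by simp)) (ContDiff.sum fun i hi => sf i (by simp [hi]))).mono le_rfl (le_of_eq ?_)
    push_cast; ring

end

theorem Nb.cmul {f : P → ℝ} {n : ℕ} {c a b : ℝ} (hf : Nb f n c) (sf : Sm f) (ha : |a| ≤ b) :
    Nb (fun p => a * f p) n (b * c) := fun i hi p => by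
  have := iteratedFDeriv_const_smul_apply (a := a) (x := p) (i := i)
    (sf.contDiffAt.of_le (by exact_mod_cast le_top))
  rw [show (fun p => a * f p) = a • f from rfl, this, norm_smul]
  exact mul_le_mul ha (hf i hi p) (norm_nonneg _) ((abs_nonneg _).trans ha)

theorem Nb.bd {f : P → ℝ} {n : ℕ} {c : ℝ} (h : Nb f (n + 1) c) (hf : Sm f) : Bd f c :=
  fun p _ => ⟨h.val p, (h.dx hf).val p, (h.dy hf).val p⟩

/-- a bump of size `l` centred at `(0, y0)` -/
noncomputable def bmp (l y0 : ℝ) (p : P) : ℝ := cut (1 / 2) (1 / 2) (l⁻¹ • (p - (0, y0)))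

@[fun_prop]
theorem bmp_smooth (l y0 : ℝ) : ContDiff ℝ ∞ (bmp l y0) := by unfold bmp; fun_prop

theorem bmp_nonneg (l y0 : ℝ) (p : P) : 0 ≤ bmp l y0 p := cut_nonneg _ _ _

theorem bmp_zero {l y0 : ℝ} (hl : 0 < l) {p : P} (h : l ≤ ‖p - (0, y0)‖) : bmp l y0 p = 0 := by
  refine cut_zero (by norm_num) ?_
  rw [norm_smul, norm_inv, Real.norm_eq_abs, abs_of_pos hl, le_inv_mul_iff₀ hl]
  linarith

theorem bmp_one {l y0 : ℝ} (hl : 0 < l) {p : P} (h : ‖p - (0, y0)‖ ≤ l / 2) : bmp l y0 p = 1 := by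
  refine cut_one (by norm_num) ?_
  rw [norm_smul, norm_inv, Real.norm_eq_abs, abs_of_pos hl, inv_mul_le_iff₀ hl]
  linarith

theorem exists_Nb_bmp (n : ℕ) : ∃ B, 1 ≤ B ∧ ∀ l y0 : ℝ, 0 < l → l ≤ 1 → ∀ i ≤ n,
    Nb (bmp l y0) i (B / l ^ i) := by
  obtain ⟨B, hB1, hB⟩ := exists_Nb (cut_smooth (1 / 2) (1 / 2))
    (hasCompactSupport_of_ball 1 fun p hp => cut_zero (by norm_num) (by linarith)) n
  refine ⟨B, hB1, fun l y0 hl hl1 i hi => ?_⟩
  have := ((hB.mono hi le_rfl).comp_clm (cut_smooth _ _) (l⁻¹ • ContinuousLinearMap.id ℝ P)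
    (L := l⁻¹) (by
      rw [norm_smul, norm_inv, Real.norm_eq_abs, abs_of_pos hl]
      exact mul_le_of_le_one_right (by positivity) ContinuousLinearMap.norm_id_le)
    (by rw [le_inv_comm₀ one_pos hl]; simpa using hl1)).sub_const (0, y0)
  rw [div_eq_mul_inv, ← inv_pow]
  exact this

theorem volume_ball (c : P) {r : ℝ} (hr : 0 ≤ r) :
    volume.real (Metric.closedBall c r) = 4 * r ^ 2 := by
  rw [← closedBall_prod_same, Measure.volume_eq_prod, measureReal_prod_prod,
    Real.volume_real_closedBall hr, Real.volume_real_closedBall hr]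
  ring

theorem bmp_off {l y0 : ℝ} (hl : 0 < l) :
    ∀ p ∉ Metric.closedBall ((0, y0) : P) l, bmp l y0 p = 0 := fun p hp =>
  bmp_zero hl (by rw [mem_closedBall_iff_norm, not_le] at hp; exact hp.le)

theorem integral_bmp_ge {l y0 : ℝ} (hl : 0 < l) : l ^ 2 ≤ ∫ p, bmp l y0 p := by
  have hi : Integrable (bmp l y0) := (bmp_smooth l y0).continuous.integrable_of_hasCompactSupport
    (HasCompactSupport.intro (isCompact_closedBall _ _) (bmp_off hl))
  have := integral_mono (μ := (volume : Measure P))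
    (integrable_indicator_compact (isCompact_closedBall ((0, y0) : P) (l / 2))
      (h := fun _ => (1 : ℝ)) continuous_const) hi (fun p => by
      by_cases hp : p ∈ Metric.closedBall ((0, y0) : P) (l / 2)
      · simp only [indicator_of_mem hp]
        rw [bmp_one hl (mem_closedBall_iff_norm.1 hp)]
      · simp only [indicator_of_notMem hp]
        exact bmp_nonneg _ _ _)
  rw [integral_indicator Metric.isClosed_closedBall.measurableSet, setIntegral_const,
    volume_ball _ (by positivity)] at this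
  refine le_trans (le_of_eq ?_) this
  simp only [smul_eq_mul]; ring

theorem LL_off {ρ : ℝ} {g : P → ℝ} {K : Set P} (hK : IsClosed K) (h0 : ∀ p ∉ K, g p = 0) :
    ∀ p ∉ K, LL ρ g p = 0 := fun p hp => by
  unfold LL
  rw [D_eq_zero_off hK (D_eq_zero_off hK h0 _) _ p hp, D_eq_zero_off hK (D_eq_zero_off hK h0 _) _ p hp]
  simp

theorem LL_congr {ρ : ℝ} {f g : P → ℝ} {p : P} (h : f =ᶠ[nhds p] g) : LL ρ f p = LL ρ g p := by
  unfold LL
  rw [D_congr (D_congr_ev h _), D_congr (D_congr_ev h _)]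

theorem LL_cmul {ρ c : ℝ} {f : P → ℝ} (hf : Sm f) (p : P) :
    LL ρ (fun q => c * f q) p = c * LL ρ f p := by
  have dd : ∀ {g : P → ℝ}, Sm g → ∀ e, D e (fun p => c * g p) = fun p => c * D e g p :=
    fun hg e => funext fun p => D_const_mul e c (hg.diff p)
  unfold LL
  rw [dd hf, dd hf, dd (Sm.D hf _), dd (Sm.D hf _)]
  ring

theorem integral_zt_LL {τ R l y0 ρ : ℝ} (hτ : |τ| ≤ 1 / 2) (hl : 0 < l) (hlR : l ≤ R) :
    ∫ p, zt τ R l y0 p * LL ρ (bmp l y0) p = 2 * (τ ^ 2 + ρ) / l ^ 2 * ∫ p, bmp l y0 p := by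
  have sb : Sm (bmp l y0) := bmp_smooth l y0
  have := sb.diff
  set b := bmp l y0 with hb
  set G1 : P → ℝ := fun p => ((p.2 - τ * p.1 - y0) / l) ^ 2 * dX b p
    + 2 * τ / l * ((p.2 - τ * p.1 - y0) / l) * b p with hG1
  set G2 : P → ℝ := fun p => ρ * (((p.2 - τ * p.1 - y0) / l) ^ 2 * dY b p
    - 2 / l * ((p.2 - τ * p.1 - y0) / l) * b p) with hG2
  have g1 : Sm G1 := by rw [hG1]; smo
  have g2 : Sm G2 := by rw [hG2]; smo
  have hcl : IsClosed (Metric.closedBall ((0, y0) : P) l) := Metric.isClosed_closedBall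
  have hz := bmp_off (y0 := y0) hl
  have c1 : HasCompactSupport G1 := HasCompactSupport.intro (isCompact_closedBall _ _)
    fun p hp => by simp only [hG1]; rw [D_eq_zero_off hcl hz _ p hp, hb, hz p hp]; simp
  have c2 : HasCompactSupport G2 := HasCompactSupport.intro (isCompact_closedBall _ _)
    fun p hp => by simp only [hG2]; rw [D_eq_zero_off hcl hz _ p hp, hb, hz p hp]; simp
  have hi : Integrable b := sb.cont.integrable_of_hasCompactSupport
    (HasCompactSupport.intro (isCompact_closedBall _ _) hz)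
  have e : ∀ p, zt τ R l y0 p * LL ρ b p = (dX G1 p + dY G2 p) + 2 * (τ ^ 2 + ρ) / l ^ 2 * b p := by
    intro p
    have e1 : (dX G1 p + dY G2 p) + 2 * (τ ^ 2 + ρ) / l ^ 2 * b p =
        ((p.2 - τ * p.1 - y0) / l) ^ 2 * LL ρ b p := by
      rw [hG1, hG2]
      unfold LL
      dexp
      field_simp
      ring
    rw [e1]
    by_cases hp : p ∈ Metric.closedBall ((0, y0) : P) l
    · have hp' := mem_closedBall_iff_norm.1 hp
      have h1 : |p.1| ≤ l := by simpa using abs_fst_le hp'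
      have h2 : |p.2 - y0| ≤ l := by simpa using abs_snd_le hp'
      unfold zt
      rw [pl_one (hl.trans_le hlR) (h1.trans hlR), psi_eq, one_mul]
      rw [abs_div, abs_of_pos hl, div_le_iff₀ hl]
      have := abs_sub_le' h2 (abs_mul_le hτ h1)
      refine le_trans (le_of_eq ?_) (this.trans (by linarith))
      congr 1; ring
    · rw [LL_off hcl hz p hp]; simp
  simp only [e]
  rw [integral_add (integrable_div g1.c1 g2.c1 c1 c2) (hi.const_mul _),
    integral_div g1.c1 g2.c1 c1 c2, zero_add, integral_const_mul]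

/-- the unperturbed profile -/
noncomputable def Sig0 (p : P) : ℝ := -(p.1 ^ 4 / 12 + p.1 ^ 2 * (p.2 ^ 2 - 1) / 2) * cut 3 1 p

@[fun_prop]
theorem Sig0_smooth : ContDiff ℝ ∞ Sig0 := by unfold Sig0; fun_prop

theorem Sig0_ev {p : P} (hp : ‖p‖ < 3) :
    Sig0 =ᶠ[nhds p] fun p => -(p.1 ^ 4 / 12 + p.1 ^ 2 * (p.2 ^ 2 - 1) / 2) := by
  have : ∀ᶠ t in nhds p, ‖t‖ < 3 := continuous_norm.continuousAt.eventually (gt_mem_nhds hp)
  filter_upwards [this] with t ht
  unfold Sig0; rw [cut_one one_pos ht.le, mul_one]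

theorem dX_poly : dX (fun p : P => -(p.1 ^ 4 / 12 + p.1 ^ 2 * (p.2 ^ 2 - 1) / 2)) =
    fun p : P => -(p.1 ^ 3 / 3 + p.1 * (p.2 ^ 2 - 1)) := by
  funext p
  dexp
  rw [D_pow _ _ (by fun_prop), D_fst]
  simp; ring

theorem Sig0_XX {p : P} (hp : ‖p‖ < 3) : dX (dX Sig0) p = -(p.1 ^ 2 + p.2 ^ 2 - 1) := by
  rw [D_congr (D_congr_ev (Sig0_ev hp) _), dX_poly]
  dexp
  rw [D_pow _ _ (by fun_prop), D_fst]
  simp; ring

theorem Sig0_X0 : dX Sig0 0 = 0 := by
  rw [D_congr (Sig0_ev (by simp)), dX_poly]; simp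

theorem Sig0_Y0 : dY Sig0 0 = 0 := by
  rw [D_congr (Sig0_ev (by simp))]
  dexp
  rw [D_pow _ _ (by fun_prop), D_fst]
  simp

theorem Sig0_off {p : P} (hp : 4 ≤ ‖p‖) : Sig0 p = 0 := by
  unfold Sig0; rw [cut_zero one_pos (by linarith), mul_zero]

/-- centres of the bumps -/
noncomputable def yc (l : ℝ) (j : ℕ) : ℝ := 8 * (j + 1) * l

/-- sum of bumps -/
noncomputable def pert {m : ℕ} (l δ : ℝ) (c : Fin m → ℝ) (p : P) : ℝ :=
  δ * ∑ j : Fin m, c j * bmp l (yc l j) p

@[fun_prop]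
theorem pert_smooth {m : ℕ} (l δ : ℝ) (c : Fin m → ℝ) : ContDiff ℝ ∞ (pert l δ c) := by
  unfold pert; fun_prop

theorem Nb_pert {m n : ℕ} {l δ b : ℝ} (hδ : 0 ≤ δ) {c : Fin m → ℝ} (hc : ∀ j, |c j| ≤ 1)
    (hb : ∀ y0, Nb (bmp l y0) n b) : Nb (pert l δ c) n (δ * m * b) := by
  have := (Nb.sum Finset.univ (f := fun (j : Fin m) p => c j * bmp l (yc l j) p) (n := n)
    (fun j _ => (hb _).cmul (bmp_smooth _ _) (hc j)) (fun j _ => by smo)).cmul (by smo)
    (le_of_eq (abs_of_nonneg hδ))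
  refine this.mono le_rfl (le_of_eq ?_)
  simp; ring

theorem ball_sub_Rec {m : ℕ} {l : ℝ} (hl : 0 < l) (j : Fin m) :
    Metric.closedBall ((0, yc l j) : P) l ⊆ Rec l ((8 * m + 1) * l) := by
  intro p hp
  have hp' := mem_closedBall_iff_norm.1 hp
  have h1 : |p.1| ≤ l := by simpa using abs_fst_le hp'
  have h2 : |p.2 - yc l j| ≤ l := by simpa using abs_snd_le hp'
  refine mem_Rec.2 ⟨h1, ?_⟩
  have hj : ((j : ℕ) : ℝ) + 1 ≤ m := by exact_mod_cast j.2
  have h3 : |yc l j| ≤ 8 * m * l := by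
    unfold yc; rw [abs_of_nonneg (by positivity)]; gcongr
  have := abs_add_le' h2 h3
  rw [sub_add_cancel] at this
  linarith

theorem pert_off {m : ℕ} {l δ : ℝ} (hl : 0 < l) (c : Fin m → ℝ) :
    ∀ p ∉ Rec l ((8 * m + 1) * l), pert l δ c p = 0 := fun p hp => by
  unfold pert
  rw [Finset.sum_eq_zero, mul_zero]
  intro j _
  rw [bmp_off hl p fun h => hp (ball_sub_Rec hl j h), mul_zero]

theorem pert_ev0 {m : ℕ} {l δ : ℝ} (hl : 0 < l) (c : Fin m → ℝ) :
    pert l δ c =ᶠ[nhds 0] fun _ => 0 := by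
  have : ∀ᶠ t in nhds (0 : P), ‖t‖ < l :=
    continuous_norm.continuousAt.eventually (gt_mem_nhds (by simpa using hl))
  filter_upwards [this] with t ht
  unfold pert
  rw [Finset.sum_eq_zero, mul_zero]
  intro j _
  rw [bmp_zero hl, mul_zero]
  have h1 := norm_snd_le (t - (0, yc l j))
  have h2 := abs_le.1 (abs_snd_le ht.le)
  have h3 : 8 * l ≤ yc l j := by
    unfold yc
    have : (0 : ℝ) ≤ (j : ℕ) := by positivity
    nlinarith
  simp only [Prod.snd_sub, Real.norm_eq_abs] at h1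
  have := neg_abs_le (t.2 - yc l j)
  linarith

theorem pert_local {m : ℕ} {l δ : ℝ} (hl : 0 < l) (c : Fin m → ℝ) (j : Fin m) {p : P}
    (hp : ∀ i, i ≠ j → p ∉ Metric.closedBall ((0, yc l i) : P) l) :
    pert l δ c =ᶠ[nhds p] fun q => δ * c j * bmp l (yc l j) q := by
  have : ∀ᶠ q in nhds p, ∀ i, i ≠ j → q ∉ Metric.closedBall ((0, yc l i) : P) l := by
    rw [Filter.eventually_all]
    intro i
    by_cases hi : i = j
    · exact Filter.Eventually.of_forall fun _ h => absurd hi h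
    · filter_upwards [Metric.isClosed_closedBall.isOpen_compl.mem_nhds (hp i hi)] with q hq _
        using hq
  filter_upwards [this] with q hq
  unfold pert
  rw [Finset.sum_eq_single j, mul_assoc]
  · intro i _ hi
    rw [bmp_off hl q (hq i hi), mul_zero]
  · simp

theorem zt_other {τ R l : ℝ} (hτ : |τ| ≤ 1 / 2) (hl : 0 < l) {i j : ℕ} (hij : i ≠ j) {p : P}
    (hp : p ∈ Metric.closedBall ((0, yc l i) : P) l) : zt τ R l (yc l j) p = 0 := by
  have hp' := mem_closedBall_iff_norm.1 hp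
  have h1 : |p.1| ≤ l := by simpa using abs_fst_le hp'
  have h2 : |p.2 - yc l i| ≤ l := by simpa using abs_snd_le hp'
  have h3 : 8 * l ≤ |yc l i - yc l j| := by
    have e : yc l i - yc l j = 8 * l * ((i : ℝ) - j) := by unfold yc; ring
    have : (1 : ℝ) ≤ |(i : ℝ) - j| := by
      have : (1 : ℤ) ≤ |(i : ℤ) - j| := Int.one_le_abs (by omega)
      exact_mod_cast this
    rw [e, abs_mul, abs_of_pos (by positivity : 0 < 8 * l)]
    nlinarith
  unfold zt
  rw [psi_zero, mul_zero]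
  rw [abs_div, abs_of_pos hl, le_div_iff₀ hl]
  have := abs_add_le' (abs_sub_le' (le_refl |p.2 - τ * p.1 - yc l j|) h2) (abs_mul_le hτ h1)
  have e : p.2 - τ * p.1 - yc l j - (p.2 - yc l i) + τ * p.1 = yc l i - yc l j := by ring
  rw [e] at this
  linarith

end Crest.Agent.R220
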