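import Crest.Agent.R220.Poincare

/-! Detection of the source along a characteristic strip. -/

set_option autoImplicit false
open scoped ContDiff
open MeasureTheory Set

namespace Crest.Agent.R220

noncomputable def psi (s : ℝ) : ℝ := s ^ 2 * pl 2 1 s

@[fun_prop]
theorem psi_smooth : ContDiff ℝ ∞ psi := by unfold psi; fun_prop

@[fun_prop]
theorem psi_differentiableAt (s : ℝ) : DifferentiableAt ℝ psi s :=
  psi_smooth.differentiable (by simp) s

theorem psi_eq {s : ℝ} (h : |s| ≤ 2) : psi s = s ^ 2 := by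
  unfold psi; rw [pl_one one_pos h, mul_one]

theorem psi_zero {s : ℝ} (h : 3 ≤ |s|) : psi s = 0 := by
  unfold psi; rw [pl_zero one_pos (by linarith), mul_zero]

theorem abs_psi_le (s : ℝ) : |psi s| ≤ 9 := by
  by_cases h : 3 ≤ |s|
  · rw [psi_zero h]; norm_num
  · unfold psi
    have : |s ^ 2| ≤ 9 := by rw [abs_pow]; nlinarith [abs_nonneg s]
    simpa using abs_mul_le this (abs_pl_le 2 1 s)

theorem abs_deriv_psi (s : ℝ) : |deriv psi s| ≤ 15 * B0 := by
  have B1 := one_le_B0
  have e : deriv psi s = 2 * s * pl 2 1 s + s ^ 2 * deriv (pl 2 1) s := by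
    unfold psi
    rw [deriv_fun_mul (by fun_prop) (by fun_prop)]
    simp
  rw [e]
  by_cases h : 3 < |s|
  · rw [pl_zero one_pos (by linarith), deriv_pl_zero one_pos (by linarith)]
    simp; linarith
  · have h1 : |s ^ 2| ≤ 9 := by rw [abs_pow]; nlinarith [abs_nonneg s]
    have := abs_add_le' (abs_mul_le (abs_mul_le (le_of_eq abs_two) (not_lt.1 h)) (abs_pl_le 2 1 s))
      (abs_mul_le h1 (abs_deriv_pl (ρ := 2) (s := s) one_pos))
    linarith

/-- the test function -/
noncomputable def zt (τ R l y0 : ℝ) (p : P) : ℝ := pl R R p.1 * psi ((p.2 - τ * p.1 - y0) / l)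

@[fun_prop]
theorem zt_smooth (τ R l y0 : ℝ) : ContDiff ℝ ∞ (zt τ R l y0) := by unfold zt; fun_prop

theorem abs_zt_le (τ R l y0 : ℝ) (p : P) : |zt τ R l y0 p| ≤ 9 := by
  unfold zt; simpa using abs_mul_le (abs_pl_le R R p.1) (abs_psi_le _)

theorem dY_zt (τ R l y0 : ℝ) (p : P) :
    dY (zt τ R l y0) p = pl R R p.1 * (deriv psi ((p.2 - τ * p.1 - y0) / l) / l) := by
  unfold zt
  rw [D_mul _ (by fun_prop) (by fun_prop), D_comp _ (by fun_prop) (by fun_prop),
    D_comp _ (by fun_prop) (by fun_prop)]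
  dexp
  ring

theorem dX_zt (τ R l y0 : ℝ) (p : P) :
    dX (zt τ R l y0) p = deriv (pl R R) p.1 * psi ((p.2 - τ * p.1 - y0) / l)
      - τ * dY (zt τ R l y0) p := by
  rw [dY_zt]
  unfold zt
  rw [D_mul _ (by fun_prop) (by fun_prop), D_comp _ (by fun_prop) (by fun_prop),
    D_comp _ (by fun_prop) (by fun_prop)]
  dexp
  ring

def Strip (τ R l y0 : ℝ) : Set P := {p | |p.1| ≤ 2 * R ∧ |p.2 - τ * p.1 - y0| ≤ 3 * l}

theorem isClosed_Strip (τ R l y0 : ℝ) : IsClosed (Strip τ R l y0) :=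
  (isClosed_le (f := fun p : P => |p.1|) (by fun_prop) continuous_const).inter
    (isClosed_le (f := fun p : P => |p.2 - τ * p.1 - y0|) (by fun_prop) continuous_const)

theorem Strip_norm {τ R l y0 : ℝ} (hτ : |τ| ≤ 1 / 2) (hl : l ≤ R) (hy : |y0| ≤ R) {p : P}
    (hp : p ∈ Strip τ R l y0) : ‖p‖ ≤ 5 * R := by
  have R0 : 0 ≤ R := (abs_nonneg _).trans hy
  refine norm_le_of_abs (by linarith [hp.1]) ?_
  have := abs_add_le' (abs_add_le' hp.2 (abs_mul_le hτ hp.1)) hy
  have e : p.2 - τ * p.1 - y0 + τ * p.1 + y0 = p.2 := by ring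
  rw [e] at this
  linarith

theorem volume_Strip {τ R l y0 : ℝ} (hR : 0 ≤ R) (hl : 0 ≤ l) :
    volume.real (Strip τ R l y0) = 24 * R * l := by
  have hm := (isClosed_Strip τ R l y0).measurableSet
  have e : ∀ x : ℝ, volume (Prod.mk x ⁻¹' Strip τ R l y0) =
      (Icc (-(2 * R)) (2 * R)).indicator (fun _ => ENNReal.ofReal (6 * l)) x := by
    intro x
    by_cases hx : x ∈ Icc (-(2 * R)) (2 * R)
    · rw [indicator_of_mem hx]
      have : Prod.mk x ⁻¹' Strip τ R l y0 = Icc (τ * x + y0 - 3 * l) (τ * x + y0 + 3 * l) := by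
        ext y
        simp only [Strip, mem_preimage, mem_ofPred_eq, abs_le, mem_Icc]
        constructor
        · rintro ⟨-, h1, h2⟩; constructor <;> linarith
        · rintro ⟨h1, h2⟩; exact ⟨hx, by linarith, by linarith⟩
      rw [this, Real.volume_Icc]; congr 1; ring
    · rw [indicator_of_notMem hx]
      have : Prod.mk x ⁻¹' Strip τ R l y0 = ∅ := by
        ext y
        simp only [Strip, mem_preimage, mem_ofPred_eq, abs_le, mem_empty_iff_false, iff_false]
        exact fun h => hx h.1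
      rw [this, measure_empty]
  rw [Measure.real, Measure.volume_eq_prod, Measure.prod_apply hm]
  simp only [e]
  rw [lintegral_indicator_const measurableSet_Icc, Real.volume_Icc, ENNReal.toReal_mul,
    ENNReal.toReal_ofReal (by positivity), ENNReal.toReal_ofReal (by linarith)]
  ring

theorem zt_zero {τ R l y0 : ℝ} (hR : 0 < R) (hl : 0 < l) {p : P} (hp : p ∉ Strip τ R l y0) :
    zt τ R l y0 p = 0 := by
  simp only [Strip, mem_ofPred_eq, not_and_or, not_le] at hp
  unfold zt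
  rcases hp with hp | hp
  · rw [pl_zero hR (by linarith), zero_mul]
  · rw [psi_zero, mul_zero]
    rw [abs_div, abs_of_pos hl, le_div_iff₀ hl]; linarith

theorem Lin.detect {k : ℝ} {A C E w v f : P → ℝ} (h : Lin k A C E w v f) :
    ∃ τ : ℝ, |τ| ≤ 1 / 2 ∧ ∀ R l y0 : ℝ, 0 < l → l ≤ R → R ≤ 1 / 4 → |y0| ≤ R →
      (∫ p, zt τ R l y0 p * f p) ^ 2 ≤
        70000 * B0 ^ 2 * (R ^ 3 / l + l / R) * ∫ p in Metric.closedBall (0 : P) (5 / 4), gr v p := by
  have sA := h.sA
  have sC := h.sC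
  have sE := h.sE
  have sv := h.sv
  have := h.sA.diff
  have := h.sC.diff
  have := h.sE.diff
  have := h.sv.diff
  have k0 := h.k0
  have k1 := h.k1
  have k2 := h.k2
  have B1 := one_le_B0
  have n0 : ‖(0 : P)‖ ≤ 2 := by simp
  obtain ⟨e0, -, -, h0, -, -, s0, -, -⟩ := h.S_facts n0
  simp only [Prod.fst_zero, Prod.snd_zero] at s0
  have h0' := abs_le.1 h0
  have A0 := h.Apos n0
  have C0 := (h.bC 0 n0).1
  set r := Real.sqrt (C 0 ^ 2 - A 0 * E 0) with hr
  have r0 : 0 ≤ r := Real.sqrt_nonneg _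
  have r2 : r ^ 2 = C 0 ^ 2 - A 0 * E 0 := Real.sq_sqrt (by nlinarith [sq_nonneg k])
  have r1 : r ≤ 1 / 10 := by
    have : r ^ 2 ≤ (1 / 10) ^ 2 := by nlinarith [sq_nonneg k]
    nlinarith
  set τ := (C 0 + r) / A 0 with hτ
  have hτA : τ * A 0 = C 0 + r := by rw [hτ]; field_simp
  have hτE : E 0 = τ * (C 0 - r) := by
    have : A 0 * E 0 = A 0 * (τ * (C 0 - r)) := by
      rw [← mul_assoc, mul_comm (A 0) τ, hτA]; nlinarith
    exact mul_left_cancel₀ (by linarith) this
  have hτ1 : |τ| ≤ 1 / 2 := by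
    rw [hτ, abs_div, abs_of_pos (by linarith : 0 < A 0), div_le_iff₀ (by linarith)]
    have := abs_add_le' C0 (le_of_eq (abs_of_nonneg r0))
    linarith
  refine ⟨τ, hτ1, fun R l y0 hl hlR hR hy => ?_⟩
  have R0 : 0 < R := hl.trans_le hlR
  set z := zt τ R l y0 with hz
  have sz : Sm z := zt_smooth _ _ _ _
  have := sz.diff
  set S := Strip τ R l y0 with hS
  have hsub : S ⊆ Metric.closedBall (0 : P) (5 / 4) := fun p hp => by
    have := Strip_norm hτ1 hlR hy hp
    simp; linarith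
  have hcl : IsClosed S := isClosed_Strip _ _ _ _
  have hcp : IsCompact S := (isCompact_closedBall _ _).of_isClosed_subset hcl hsub
  set G1 : P → ℝ := fun p => z p * (A p * dX v p + (C p - r) * dY v p) with hG1
  set G2 : P → ℝ := fun p => z p * ((C p + r) * dX v p + E p * dY v p) with hG2
  have g1 : Sm G1 := by rw [hG1]; smo
  have g2 : Sm G2 := by rw [hG2]; smo
  have hz0 : ∀ p ∉ S, z p = 0 := fun p hp => zt_zero R0 hl hp
  have hz1 : ∀ p ∉ S, G1 p = 0 := fun p hp => by simp [hG1, hz0 p hp]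
  have hz2 : ∀ p ∉ S, G2 p = 0 := fun p hp => by simp [hG2, hz0 p hp]
  have c1 := HasCompactSupport.intro hcp hz1
  have c2 := HasCompactSupport.intro hcp hz2
  have izf : Integrable fun p => z p * f p :=
    (sz.cont.mul h.cf).integrable_of_hasCompactSupport
      (HasCompactSupport.intro hcp fun p hp => by simp [hz0 p hp])
  set G := B0 * (R / l + 27 / R) with hG
  have cs : Continuous fun p => |dX v p| + |dY v p| := by fun_prop
  have pt : ∀ p, ‖z p * f p - (dX G1 p + dY G2 p)‖ ≤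
      S.indicator (fun p => G * (|dX v p| + |dY v p|)) p := by
    intro p
    by_cases hp : p ∈ S
    · rw [indicator_of_mem hp, Real.norm_eq_abs]
      have hn := Strip_norm hτ1 hlR hy hp
      have hp2 : ‖p‖ ≤ 2 := by linarith
      have x0 := abs_nonneg (dX v p)
      have y0' := abs_nonneg (dY v p)
      have e : z p * f p - (dX G1 p + dY G2 p) =
          -(z p * ((A p * dX (dX v) p + 2 * C p * dX (dY v) p + E p * dY (dY v) p - f p)
            + ((dX A p + dY C p) * dX v p + (dX C p + dY E p) * dY v p))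
          + dY z p * (((C p - C 0) - τ * ((A p - 1) - (A 0 - 1))) * dX v p
            + ((E p - E 0) - τ * (C p - C 0)) * dY v p)
          + (deriv (pl R R) p.1 * psi ((p.2 - τ * p.1 - y0) / l)) *
            (A p * dX v p + (C p - r) * dY v p)) := by
        rw [hG1, hG2]
        dexp
        rw [D_comm sv (0, 1) (1, 0), hz, dX_zt, hτE]
        linear_combination (dY (zt τ R l y0) p * dX v p) * hτA
      rw [e, abs_neg]
      have lA := h.bA.lip (by smo) hp2 n0
      have lC := h.bC.lip sC hp2 n0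
      have lE := h.bE.lip sE hp2 n0
      simp only [sub_zero] at lA lC lE
      have u1 : |(C p - C 0) - τ * ((A p - 1) - (A 0 - 1))| ≤ R / 15 :=
        (abs_sub_le' lC (abs_mul_le hτ1 lA)).trans (by linarith)
      have u2 : |(E p - E 0) - τ * (C p - C 0)| ≤ R / 15 :=
        (abs_sub_le' lE (abs_mul_le hτ1 lC)).trans (by linarith)
      have u3 : |dY z p| ≤ 15 * B0 / l := by
        rw [hz, dY_zt]
        have : |deriv psi ((p.2 - τ * p.1 - y0) / l) / l| ≤ 15 * B0 / l := by
          rw [abs_div, abs_of_pos hl]; gcongr; exact abs_deriv_psi _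
        simpa using abs_mul_le (abs_pl_le R R p.1) this
      have hA1 := abs_le.1 (h.A1 hp2)
      have hA2 : |A p| ≤ 2 := by rw [abs_le]; constructor <;> linarith
      have hC2 : |C p - r| ≤ 2 :=
        (abs_sub_le' (h.bC p hp2).1 (le_of_eq (abs_of_nonneg r0))).trans (by linarith)
      have t := abs_add_le' (abs_add_le'
        (abs_mul_le (abs_zt_le τ R l y0 p) (abs_add_le' (h.eq p hp2) (abs_add_le'
          (abs_mul_le (h.d1 p hp2) (le_refl |dX v p|)) (abs_mul_le (h.d2 p hp2) (le_refl |dY v p|)))))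
        (abs_mul_le u3 (abs_add_le' (abs_mul_le u1 (le_refl |dX v p|))
          (abs_mul_le u2 (le_refl |dY v p|)))))
        (abs_mul_le (abs_mul_le (abs_deriv_pl (ρ := R) (s := p.1) R0)
          (abs_psi_le ((p.2 - τ * p.1 - y0) / l)))
          (abs_add_le' (abs_mul_le hA2 (le_refl |dX v p|)) (abs_mul_le hC2 (le_refl |dY v p|))))
      refine t.trans ?_
      have hBR : 1 ≤ B0 / R := by rw [le_div_iff₀ R0]; linarith
      have e1 : G * (|dX v p| + |dY v p|) =
          15 * B0 / l * (R / 15 * |dX v p| + R / 15 * |dY v p|)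
          + B0 / R * 9 * (2 * |dX v p| + 2 * |dY v p|) + 9 * (B0 / R) * (|dX v p| + |dY v p|) := by
        rw [hG]; field_simp; ring
      rw [e1]
      nlinarith
    · rw [indicator_of_notMem hp, hz0 p hp, D_eq_zero_off hcl hz1 _ p hp,
        D_eq_zero_off hcl hz2 _ p hp]
      simp
  have m1 := norm_integral_le_of_norm_le
    (integrable_indicator_compact hcp (h := fun p => G * (|dX v p| + |dY v p|))
      (continuous_const.mul cs)) (Filter.Eventually.of_forall pt)
  rw [integral_sub izf (integrable_div g1.c1 g2.c1 c1 c2), integral_div g1.c1 g2.c1 c1 c2,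
    sub_zero, integral_indicator hcp.measurableSet, integral_const_mul, Real.norm_eq_abs] at m1
  have fin : IsFiniteMeasure ((volume : Measure P).restrict S) :=
    isFiniteMeasure_restrict.2 hcp.measure_lt_top.ne
  have m2 := sq_integral_le ((volume : Measure P).restrict S) (g := fun p => |dX v p| + |dY v p|)
    (cs.continuousOn.integrableOn_compact hcp) ((cs.pow 2).continuousOn.integrableOn_compact hcp)
  rw [measureReal_restrict_apply_univ, hS, volume_Strip R0.le hl.le, ← hS] at m2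
  have m3 : ∫ p in S, (|dX v p| + |dY v p|) ^ 2 ≤
      2 * ∫ p in Metric.closedBall (0 : P) (5 / 4), gr v p := by
    calc ∫ p in S, (|dX v p| + |dY v p|) ^ 2 ≤ ∫ p in S, 2 * gr v p := by
          refine setIntegral_mono_on ((cs.pow 2).continuousOn.integrableOn_compact hcp)
            ((continuous_const.mul (continuous_gr sv)).continuousOn.integrableOn_compact hcp)
            hcp.measurableSet fun p _ => ?_
          unfold gr
          nlinarith [sq_abs (dX v p), sq_abs (dY v p), sq_nonneg (|dX v p| - |dY v p|)]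
      _ = 2 * ∫ p in S, gr v p := integral_const_mul _ _
      _ ≤ _ := by
          gcongr ?_ * ?_
          exact setIntegral_mono_set
            ((continuous_gr sv).continuousOn.integrableOn_compact (isCompact_closedBall _ _))
            (Filter.Eventually.of_forall fun _ => gr_nonneg _ _) (LE.le.eventuallyLE hsub)
  have m4 := pow_le_pow_left₀ (abs_nonneg _) m1 2
  rw [sq_abs, mul_pow] at m4
  set En := ∫ p in Metric.closedBall (0 : P) (5 / 4), gr v p
  have En0 : 0 ≤ En := integral_nonneg fun p => gr_nonneg v p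
  have m5 : G ^ 2 * (48 * R * l) ≤ 70000 * B0 ^ 2 * (R ^ 3 / l + l / R) := by
    have : (R / l + 27 / R) ^ 2 ≤ 2 * (R / l) ^ 2 + 2 * (27 / R) ^ 2 := by
      nlinarith [sq_nonneg (R / l - 27 / R)]
    calc G ^ 2 * (48 * R * l) = B0 ^ 2 * (R / l + 27 / R) ^ 2 * (48 * R * l) := by rw [hG]; ring
      _ ≤ B0 ^ 2 * (2 * (R / l) ^ 2 + 2 * (27 / R) ^ 2) * (48 * R * l) := by gcongr
      _ = B0 ^ 2 * (96 * (R ^ 3 / l) + 69984 * (l / R)) := by field_simp; ring
      _ ≤ B0 ^ 2 * (70000 * (R ^ 3 / l) + 70000 * (l / R)) := by gcongr <;> norm_num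
      _ = _ := by ring
  calc _ ≤ G ^ 2 * (24 * R * l * (2 * En)) := m4.trans (by gcongr; exact m2.trans (by gcongr))
    _ = G ^ 2 * (48 * R * l) * En := by ring
    _ ≤ _ := by gcongr

/-- the linear lemma -/
theorem Lin.final {k : ℝ} {A C E w v f : P → ℝ} (h : Lin k A C E w v f) {l hh Φ η V : ℝ}
    (hl : 0 < l) (hlh : l ≤ hh) (hh1 : hh ≤ 1) (hΦ : ∀ p, |f p| ≤ Φ)
    (hs : ∀ p ∉ Rec l hh, f p = 0) {n J : ℕ} (hJ : 0 < J) (hn : 220000 * B0 * J / k ^ 2 ≤ n)
    (hm : ∀ i j : Fin n, |avg v (gc n i) (gc n j) (4 / n)| ≤ η)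
    (hV : ∀ p : P, ‖p‖ ≤ 2 → gr v p ≤ V) :
    ∃ τ : ℝ, |τ| ≤ 1 / 2 ∧ ∀ R y0 : ℝ, l ≤ R → R ≤ 1 / 4 → |y0| ≤ R →
      (∫ p, zt τ R l y0 p * f p) ^ 2 ≤
        70000 * B0 ^ 2 * (R ^ 3 / l + l / R) * (400 / k ^ 2 * (400 * l * hh ^ 3 * Φ ^ 2 / k ^ 2 +
          288 * B0 * (16 * V / 4 ^ J + 16 * 10 ^ 9 * B0 ^ 2 * J ^ 2 * η ^ 2 / k ^ 4))) := by
  obtain ⟨τ, hτ, hd⟩ := h.detect
  refine ⟨τ, hτ, fun R y0 h1 h2 h3 => (hd R l y0 hl h1 h2 h3).trans ?_⟩
  have k0 := h.k0
  have B1 := B0_pos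
  have R0 : 0 < R := hl.trans_le h1
  have e1 := h.energy hl.le hlh hΦ hs
  have e2 := h.frame_small (fun p hp => hs p fun hq => by
    have := norm_le_of_abs ((mem_Rec.1 hq).1.trans hlh) (mem_Rec.1 hq).2
    linarith) hJ hn hm hV
  gcongr ?_ * ?_
  calc _ = 400 / k ^ 2 * (k ^ 2 / 400 * ∫ p in Metric.closedBall (0 : P) (5 / 4), gr v p) := by
        field_simp
    _ ≤ _ := by gcongr; exact e1.trans (by gcongr)

end Crest.Agent.R220
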