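import Crest.Agent.R220.EnergyAlg

/-! The multiplier estimate and the Caccioppoli estimate, integrated. -/

set_option autoImplicit false
open scoped ContDiff
open MeasureTheory Set

namespace Crest.Agent.R220

variable {k : ℝ} {A C E w v f : P → ℝ}

theorem Lin.k2 (h : Lin k A C E w v f) : k ^ 2 ≤ 1 / 10000 := by
  have := h.k0; have := h.k1; nlinarith

theorem Lin.A1 (h : Lin k A C E w v f) {p : P} (hp : ‖p‖ ≤ 2) : |A p - 1| ≤ 1 / 10000 :=
  (h.bA p hp).1

theorem Lin.Apos (h : Lin k A C E w v f) {p : P} (hp : ‖p‖ ≤ 2) : 9999 / 10000 ≤ A p := by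
  have := abs_le.1 (h.A1 hp); linarith

theorem Lin.Ax (h : Lin k A C E w v f) {p : P} (hp : ‖p‖ ≤ 2) : |dX A p| ≤ 1 / 10000 := by
  have := (h.bA p hp).2.1
  have hd := h.sA.diff
  rw [D_sub _ (hd p) (differentiableAt_const _), D_const, sub_zero] at this
  exact this

theorem Lin.Ay (h : Lin k A C E w v f) {p : P} (hp : ‖p‖ ≤ 2) : |dY A p| ≤ 1 / 10000 := by
  have := (h.bA p hp).2.2
  have hd := h.sA.diff
  rw [D_sub _ (hd p) (differentiableAt_const _), D_const, sub_zero] at this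
  exact this

theorem Lin.wY (h : Lin k A C E w v f) {p : P} (hp : ‖p‖ ≤ 2) : |w p - p.2| ≤ 4 / 10000 * ‖p‖ := by
  have hd := h.sw.diff
  have k2 := h.k2
  have := mvt_ball (f := fun q => w q - q.2) (by fun_prop) (ρ := 2) (c := 2 / 10000)
    (fun q hq => by
      dexp
      have a := abs_le.1 (h.wx q hq)
      have b := abs_le.1 (h.bC q hq).1
      rw [abs_le]; constructor <;> linarith)
    (fun q hq => by
      dexp
      have a := abs_le.1 (h.wy q hq)
      have b := abs_le.1 (h.A1 hq)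
      rw [abs_le]; constructor <;> linarith) hp (q := 0) (by simp)
  simp only [h.w0, Prod.snd_zero, sub_zero] at this
  linarith

theorem Lin.S_facts (h : Lin k A C E w v f) {p : P} (hp : ‖p‖ ≤ 2) :
    ∃ e0 e1 e2 : ℝ, |e0| ≤ 1 / 10000 ∧ |e1| ≤ 1 / 10000 ∧ |e2| ≤ 1 / 10000 ∧
      A p * E p - C p ^ 2 = k ^ 2 * (p.1 ^ 2 + p.2 ^ 2 - 1 + e0) ∧
      dX A p * E p + A p * dX E p - 2 * C p * dX C p = k ^ 2 * (2 * p.1 + e1) ∧
      dY A p * E p + A p * dY E p - 2 * C p * dY C p = k ^ 2 * (2 * p.2 + e2) := by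
  have := h.sA.diff
  have := h.sC.diff
  have := h.sE.diff
  have k0 := h.k0
  have hk : 0 < k ^ 2 := by positivity
  obtain ⟨a, b, c⟩ := h.bS p hp
  revert b c
  dexp
  intro b c
  have key : ∀ x : ℝ, |x| ≤ k ^ 2 / 10000 → |x / k ^ 2| ≤ 1 / 10000 := fun x hx => by
    rw [abs_div, abs_of_pos hk, div_le_iff₀ hk]; linarith
  refine ⟨_, _, _, key _ a, key _ b, key _ c, ?_, ?_, ?_⟩ <;> field_simp <;> ring

theorem Lin.vx_le (h : Lin k A C E w v f) {p : P} (hp : ‖p‖ ≤ 2) :
    |dX v p| ≤ 2 * (|A p * dX v p + C p * dY v p| + |dY v p|) := by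
  have a := h.Apos hp
  have c := (h.bC p hp).1
  have e : |A p * dX v p| ≤ |A p * dX v p + C p * dY v p| + 1 / 10000 * |dY v p| := by
    have := abs_sub_le' (le_refl |A p * dX v p + C p * dY v p|) (abs_mul_le c (le_refl |dY v p|))
    simpa using this
  rw [abs_mul, abs_of_pos (by linarith : 0 < A p)] at e
  nlinarith [abs_nonneg (dX v p), abs_nonneg (dY v p), abs_nonneg (A p * dX v p + C p * dY v p)]

theorem Lin.div_le (h : Lin k A C E w v f) {p : P} (hp : ‖p‖ ≤ 3 / 2) :
    dX (J1 A C E w v) p + dY (J2 A C E w v) p ≤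
      -(k ^ 2 / 400) * gr v p + 50 * ((3 / 4 * p.1) ^ 2 + w p ^ 2) * f p ^ 2 / k ^ 2 := by
  have hp2 : ‖p‖ ≤ 2 := by linarith
  have hA := h.Apos hp2
  have hA1 := abs_le.1 (h.A1 hp2)
  have k2 := h.k2
  have k0 := h.k0
  have hk : 0 < k ^ 2 := by positivity
  have hX := abs_fst_le hp
  have hY := abs_snd_le hp
  have hw := h.wY hp2
  have hw3 : |w p - p.2| ≤ 6 / 10000 := by linarith
  have hb : |w p| ≤ 2 := by
    have := abs_add_le' hw3 hY
    simp only [sub_add_cancel] at this; linarith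
  have ha : |3 / 4 * p.1| ≤ 9 / 8 := by
    have := abs_mul_le (by norm_num : |(3 / 4 : ℝ)| ≤ 3 / 4) hX
    linarith
  have d1 := h.d1 p hp2
  have d2 := h.d2 p hp2
  have hC := (h.bC p hp2).1
  obtain ⟨e0, e1, e2, h0, h1, h2, s0, s1, s2⟩ := h.S_facts hp2
  refine energy_ineq k0 h.k1 (h.A1 hp2) ha hb (h.vx_le hp2) ?_ ?_ ?_ ?_
    (div_J h p (by linarith))
  · have t := abs_add_le' (h.eq p hp2) (abs_add_le' (abs_mul_le d1 (le_refl |dX v p|))
      (abs_mul_le d2 (le_refl |dY v p|)))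
    convert t using 1
    · congr 1; ring
    · ring
  · have t1 := abs_le.1 (abs_mul_le ha d1)
    have t2 := abs_le.1 (h.wy p hp2)
    linarith
  · have hA2 : |A p| ≤ 3 / 2 := by rw [abs_le]; constructor <;> linarith
    have t := abs_sub_le' (abs_mul_le hb d1) (abs_add_le' (abs_mul_le hA2 (h.wx p hp2))
      (abs_mul_le hC (h.wy p hp2)))
    refine le_trans (le_of_eq ?_) (t.trans (by linarith))
    congr 1; ring
  · have hw1 : |dY w p - 1| ≤ 2 / 10000 := by
      have t2 := abs_le.1 (h.wy p hp2)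
      rw [abs_le]; constructor <;> linarith
    have g := gamma_bound hX hY h0 h1 h2 hw3 (h.A1 hp2) hC hw1 (d1.trans (by linarith)) rfl
    rw [s0, s1, s2]
    have := mul_le_mul_of_nonneg_left g hk.le
    refine le_trans (by linarith) (this.trans (le_of_eq ?_))
    ring

theorem Lin.J_le (h : Lin k A C E w v f) {p : P} (hp : ‖p‖ ≤ 3 / 2) :
    |J1 A C E w v p| ≤ 18 * gr v p ∧ |J2 A C E w v p| ≤ 18 * gr v p := by
  have hp2 : ‖p‖ ≤ 2 := by linarith
  have hA := h.Apos hp2
  have hA1 := abs_le.1 (h.A1 hp2)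
  have hX := abs_fst_le hp
  have hY := abs_snd_le hp
  have hw := h.wY hp2
  have hb : |w p| ≤ 2 := by
    have := abs_add_le' hw hY
    simp only [sub_add_cancel] at this; linarith
  have ha : |3 / 4 * p.1| ≤ 3 := by
    have := abs_mul_le (by norm_num : |(3 / 4 : ℝ)| ≤ 3 / 4) hX
    linarith
  have hC := (h.bC p hp2).1
  have hE := (h.bE p hp2).1
  have hA2 : |A p| ≤ 2 := by rw [abs_le]; constructor <;> linarith
  have hAi : |(A p)⁻¹| ≤ 5 / 4 := by
    rw [abs_of_pos (by positivity), inv_le_comm₀ (by linarith) (by norm_num)]; linarith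
  have hbe : |be2 A C w p| ≤ 3 := by
    unfold be2
    exact (abs_mul_le (abs_add_le' (abs_mul_le ha hC) hb) hAi).trans (by norm_num)
  set x := dX v p
  set y := dY v p
  have x0 := abs_nonneg x
  have y0 := abs_nonneg y
  have hs : (|x| + |y|) ^ 2 ≤ 2 * gr v p := by
    unfold gr
    nlinarith [sq_abs x, sq_abs y, sq_nonneg (|x| - |y|)]
  have hV : |3 / 4 * p.1 * x + be2 A C w p * y| ≤ 3 * (|x| + |y|) :=
    (abs_add_le' (abs_mul_le ha le_rfl) (abs_mul_le hbe le_rfl)).trans (by linarith)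
  have hξ : |A p * x + C p * y| ≤ 2 * (|x| + |y|) :=
    (abs_add_le' (abs_mul_le hA2 le_rfl) (abs_mul_le hC le_rfl)).trans (by linarith)
  have hη : |C p * x + E p * y| ≤ 2 * (|x| + |y|) :=
    (abs_add_le' (abs_mul_le hC le_rfl) (abs_mul_le hE le_rfl)).trans (by linarith)
  have hq : |qf A C E v p| ≤ 2 * (|x| + |y|) ^ 2 := by
    have : qf A C E v p = x * (A p * x + C p * y) + y * (C p * x + E p * y) := by
      unfold qf; ring
    rw [this]
    exact (abs_add_le' (abs_mul_le le_rfl hξ) (abs_mul_le le_rfl hη)).trans (by nlinarith)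
  have half : |(1 / 2 : ℝ)| ≤ 1 / 2 := by norm_num
  constructor
  · have := abs_sub_le' (abs_mul_le hV hξ) (abs_mul_le (abs_mul_le ha hq) half)
    refine le_trans (le_of_eq ?_) (this.trans (by nlinarith))
    unfold J1; congr 1; ring
  · have := abs_sub_le' (abs_mul_le hV hη) (abs_mul_le (abs_mul_le hbe hq) half)
    refine le_trans (le_of_eq ?_) (this.trans (by nlinarith))
    unfold J2; congr 1; ring

/-- frames around the elliptic annulus -/
def Fr (c : ℝ) : Set P := {p | 5 / 4 - c ≤ ‖p‖ ∧ ‖p‖ ≤ 11 / 8 + c}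

theorem isCompact_Fr (c : ℝ) : IsCompact (Fr c) := by
  refine (isCompact_closedBall (0 : P) (11 / 8 + c)).of_isClosed_subset ?_ ?_
  · exact (isClosed_le continuous_const continuous_norm).inter
      (isClosed_le continuous_norm continuous_const)
  · intro p hp; simpa using hp.2

/-- the small rectangle carrying the source -/
def Rec (l h : ℝ) : Set P := Icc (-l) l ×ˢ Icc (-h) h

theorem isCompact_Rec (l h : ℝ) : IsCompact (Rec l h) := isCompact_Icc.prod isCompact_Icc

theorem volume_Rec {l h : ℝ} (hl : 0 ≤ l) (hh : 0 ≤ h) : volume.real (Rec l h) = 4 * l * h := by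
  unfold Rec
  rw [Measure.volume_eq_prod, measureReal_prod_prod, Real.volume_real_Icc_of_le (by linarith),
    Real.volume_real_Icc_of_le (by linarith)]
  ring

theorem mem_Rec {l h : ℝ} {p : P} : p ∈ Rec l h ↔ |p.1| ≤ l ∧ |p.2| ≤ h := by
  simp only [Rec, abs_le, mem_prod, mem_Icc]

theorem Lin.energy (h : Lin k A C E w v f) {l hh Φ : ℝ} (hl : 0 ≤ l) (hlh : l ≤ hh)
    (hΦ : ∀ p, |f p| ≤ Φ) (hs : ∀ p ∉ Rec l hh, f p = 0) :
    k ^ 2 / 400 * ∫ p in Metric.closedBall (0 : P) (5 / 4), gr v p ≤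
      400 * l * hh ^ 3 * Φ ^ 2 / k ^ 2 + 288 * B0 * ∫ p in Fr 0, gr v p := by
  have := h.sA.diff
  have := h.sC.diff
  have := h.sE.diff
  have := h.sw.diff
  have sv := h.sv
  have k0 := h.k0
  have c1 : ∀ {g : P → ℝ}, Sm g → ∀ p, ContDiffAt ℝ 1 g p := fun hg p => hg.c1.contDiffAt
  have hJ : ∀ p : P, ‖p‖ ≤ 2 → ContDiffAt ℝ 1 (J1 A C E w v) p ∧ ContDiffAt ℝ 1 (J2 A C E w v) p := by
    intro p hp
    have h0 : A p ≠ 0 := by have := h.Apos hp; linarith
    have := c1 h.sA p
    have := c1 h.sC p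
    have := c1 h.sE p
    have := c1 h.sw p
    have := c1 (Sm.D sv (1, 0)) p
    have := c1 (Sm.D sv (0, 1)) p
    unfold J1 J2 be2 qf
    constructor <;> fun_prop (disch := assumption)
  have hcl : IsClosed (Metric.closedBall (0 : P) (11 / 8)) := Metric.isClosed_closedBall
  have hz : ∀ p ∉ Metric.closedBall (0 : P) (11 / 8), cut (5 / 4) (1 / 8) p = 0 := fun p hp =>
    cut_zero (by norm_num) (by simp at hp; linarith)
  have g1 : ContDiff ℝ 1 (fun p => cut (5 / 4) (1 / 8) p * J1 A C E w v p) :=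
    contDiff_cut (Sm.c1 (cut_smooth _ _)) hcl hz fun p hp => (hJ p (by simp at hp; linarith)).1
  have g2 : ContDiff ℝ 1 (fun p => cut (5 / 4) (1 / 8) p * J2 A C E w v p) :=
    contDiff_cut (Sm.c1 (cut_smooth _ _)) hcl hz fun p hp => (hJ p (by simp at hp; linarith)).2
  have hz1 : ∀ p ∉ Metric.closedBall (0 : P) (11 / 8),
      cut (5 / 4) (1 / 8) p * J1 A C E w v p = 0 := fun p hp => by rw [hz p hp, zero_mul]
  have hz2 : ∀ p ∉ Metric.closedBall (0 : P) (11 / 8),
      cut (5 / 4) (1 / 8) p * J2 A C E w v p = 0 := fun p hp => by rw [hz p hp, zero_mul]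
  have B0p := B0_pos
  have main := div_compare g1 g2
    (hasCompactSupport_of_ball (11 / 8) fun p hp => hz1 p (by simpa using hp))
    (hasCompactSupport_of_ball (11 / 8) fun p hp => hz2 p (by simpa using hp))
    (isCompact_closedBall (0 : P) (5 / 4)) (isCompact_Rec l hh) (isCompact_Fr 0)
    (g1 := fun p => k ^ 2 / 400 * gr v p) (g2 := fun _ => 100 * hh ^ 2 * Φ ^ 2 / k ^ 2)
    (g3 := fun p => 288 * B0 * gr v p) (continuous_const.mul (continuous_gr sv)) continuous_const
    (continuous_const.mul (continuous_gr sv)) (by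
      intro p
      have gp := gr_nonneg v p
      have r2 : 0 ≤ (Rec l hh).indicator (fun _ => 100 * hh ^ 2 * Φ ^ 2 / k ^ 2) p :=
        indicator_nonneg (fun _ _ => by positivity) p
      have r3 : 0 ≤ (Fr 0).indicator (fun p => 288 * B0 * gr v p) p :=
        indicator_nonneg (fun q _ => by have := gr_nonneg v q; positivity) p
      by_cases hp : p ∈ Metric.closedBall (0 : P) (11 / 8)
      · have hp' : ‖p‖ ≤ 11 / 8 := by simpa using hp
        obtain ⟨j1, j2⟩ := hJ p (by linarith)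
        rw [D_mul _ (by fun_prop) (j1.differentiableAt (by simp)),
          D_mul _ (by fun_prop) (j2.differentiableAt (by simp))]
        have dv := h.div_le (p := p) (by linarith)
        obtain ⟨b1, b2⟩ := h.J_le (p := p) (by linarith)
        have c0 := cut_nonneg (5 / 4) (1 / 8) p
        have c1 := cut_le_one (5 / 4) (1 / 8) p
        have t1 : (Metric.closedBall (0 : P) (5 / 4)).indicator
            (fun p => k ^ 2 / 400 * gr v p) p ≤ cut (5 / 4) (1 / 8) p * (k ^ 2 / 400 * gr v p) := by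
          by_cases hq : p ∈ Metric.closedBall (0 : P) (5 / 4)
          · rw [indicator_of_mem hq, cut_one (by norm_num) (by simpa using hq), one_mul]
          · rw [indicator_of_notMem hq]; positivity
        have t2 : 50 * ((3 / 4 * p.1) ^ 2 + w p ^ 2) * f p ^ 2 / k ^ 2 ≤
            (Rec l hh).indicator (fun _ => 100 * hh ^ 2 * Φ ^ 2 / k ^ 2) p := by
          by_cases hq : p ∈ Rec l hh
          · rw [indicator_of_mem hq]
            obtain ⟨q1, q2⟩ := mem_Rec.1 hq
            have hn : ‖p‖ ≤ hh := norm_le_of_abs (q1.trans hlh) q2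
            have hw := h.wY (p := p) (by linarith)
            have hw2 : |w p| ≤ 11 / 10 * hh := by
              have := abs_add_le' hw q2
              simp only [sub_add_cancel] at this
              linarith [norm_nonneg p]
            have u1 : w p ^ 2 ≤ (11 / 10 * hh) ^ 2 := by
              rw [← sq_abs]; gcongr
            have u2 : p.1 ^ 2 ≤ hh ^ 2 := by
              rw [← sq_abs]; gcongr; exact q1.trans hlh
            have u3 : f p ^ 2 ≤ Φ ^ 2 := by
              rw [← sq_abs]; gcongr; exact hΦ p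
            have u4 : (3 / 4 * p.1) ^ 2 + w p ^ 2 ≤ 2 * hh ^ 2 := by nlinarith [sq_nonneg hh]
            gcongr ?_ / _
            calc 50 * ((3 / 4 * p.1) ^ 2 + w p ^ 2) * f p ^ 2 ≤ 50 * (2 * hh ^ 2) * Φ ^ 2 := by
                  gcongr
              _ = _ := by ring
          · rw [indicator_of_notMem hq, hs p hq]; simp
        have t3 : dX (cut (5 / 4) (1 / 8)) p * J1 A C E w v p +
            dY (cut (5 / 4) (1 / 8)) p * J2 A C E w v p ≤
            (Fr 0).indicator (fun p => 288 * B0 * gr v p) p := by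
          by_cases hq : p ∈ Fr 0
          · rw [indicator_of_mem hq]
            have a1 := (le_abs_self _).trans
              (abs_mul_le (abs_dX_cut (ρ := 5 / 4) (Δ := 1 / 8) (by norm_num) p) b1)
            have a2 := (le_abs_self _).trans
              (abs_mul_le (abs_dY_cut (ρ := 5 / 4) (Δ := 1 / 8) (by norm_num) p) b2)
            linarith
          · have : ¬ (5 / 4 ≤ ‖p‖ ∧ ‖p‖ ≤ 5 / 4 + 1 / 8) := by
              intro hh; apply hq; constructor <;> linarith [hh.1, hh.2]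
            rw [D_cut_zero (by norm_num) _ this, D_cut_zero (by norm_num) _ this]
            simpa using r3
        have t4 := mul_le_mul_of_nonneg_left dv c0
        have t5 : cut (5 / 4) (1 / 8) p * (50 * ((3 / 4 * p.1) ^ 2 + w p ^ 2) * f p ^ 2 / k ^ 2) ≤
            50 * ((3 / 4 * p.1) ^ 2 + w p ^ 2) * f p ^ 2 / k ^ 2 :=
          mul_le_of_le_one_left (by positivity) c1
        nlinarith
      · rw [D_eq_zero_off hcl hz1 _ p hp, D_eq_zero_off hcl hz2 _ p hp, indicator_of_notMem]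
        · linarith
        · intro hq; apply hp; simp at hq ⊢; linarith)
  rw [integral_const_mul, integral_const_mul, setIntegral_const, volume_Rec hl (hl.trans hlh)] at main
  refine main.trans (le_of_eq ?_)
  simp only [smul_eq_mul]; ring

theorem Lin.q_ge (h : Lin k A C E w v f) {p : P} (hp : ‖p‖ ≤ 2) (hp' : 9 / 8 ≤ ‖p‖) :
    k ^ 2 / 40 * gr v p ≤ qf A C E v p := by
  have hA := h.Apos hp
  have hA1 := abs_le.1 (h.A1 hp)
  have k2 := h.k2
  have k0 := h.k0
  have hk : 0 < k ^ 2 := by positivity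
  obtain ⟨e0, e1, e2, h0, -, -, s0, -, -⟩ := h.S_facts hp
  have hr : 81 / 64 ≤ p.1 ^ 2 + p.2 ^ 2 := by
    rcases le_norm_cases hp' with t | t
    · nlinarith [sq_abs p.1, sq_nonneg p.2, abs_nonneg p.1]
    · nlinarith [sq_abs p.2, sq_nonneg p.1, abs_nonneg p.2]
  have hS : k ^ 2 / 4 ≤ A p * E p - C p ^ 2 := by
    rw [s0]
    have := abs_le.1 h0
    nlinarith
  have hv := h.vx_le hp
  set ξ := A p * dX v p + C p * dY v p with hξ
  have e : A p * qf A C E v p = ξ ^ 2 + (A p * E p - C p ^ 2) * dY v p ^ 2 := by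
    unfold qf; rw [hξ]; ring
  have e8 : dX v p ^ 2 ≤ 8 * (ξ ^ 2 + dY v p ^ 2) := by
    have := pow_le_pow_left₀ (abs_nonneg _) hv 2
    rw [sq_abs] at this
    nlinarith [sq_nonneg (|ξ| - |dY v p|), sq_abs ξ, sq_abs (dY v p)]
  have e9 : k ^ 2 * gr v p ≤ 36 * (A p * qf A C E v p) := by
    rw [e]; unfold gr
    have t1 : k ^ 2 / 4 * dY v p ^ 2 ≤ (A p * E p - C p ^ 2) * dY v p ^ 2 := by gcongr
    have t2 : k ^ 2 * dX v p ^ 2 ≤ k ^ 2 * (8 * (ξ ^ 2 + dY v p ^ 2)) := by gcongr
    have t3 : k ^ 2 * ξ ^ 2 ≤ 1 * ξ ^ 2 := by gcongr; linarith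
    nlinarith [sq_nonneg ξ]
  have g0 : 0 ≤ k ^ 2 * gr v p := mul_nonneg hk.le (gr_nonneg v p)
  have q0 : 0 ≤ qf A C E v p := by
    by_contra hc
    push Not at hc
    nlinarith
  nlinarith

theorem cacc_ineq {k Δ B φ φx φy u x y q g ξ η G : ℝ} (k0 : 0 < k) (hΔ : 0 < Δ) (hΔ1 : Δ ≤ 1)
    (hB : 1 ≤ B) (hφ : |φ| ≤ 1) (hφx : |φx| ≤ 2 * B / Δ) (hφy : |φy| ≤ 2 * B / Δ)
    (hG : G = x ^ 2 + y ^ 2) (hq : k ^ 2 / 40 * G ≤ q) (hg : |g| ≤ |x| + |y|)
    (hξ : |ξ| ≤ 2 * (|x| + |y|)) (hη : |η| ≤ 2 * (|x| + |y|)) :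
    φ ^ 2 * (k ^ 2 / 80 * G) - (φ ^ 2 * q + φ ^ 2 * u * g + 2 * φ * u * (φx * ξ + φy * η)) ≤
      11560 * B ^ 2 / (k ^ 2 * Δ ^ 2) * u ^ 2 := by
  set s := |x| + |y| with hs
  have s0 : 0 ≤ s := by positivity
  have hs2 : s ^ 2 ≤ 2 * G := by
    rw [hG, hs]; nlinarith [sq_abs x, sq_abs y, sq_nonneg (|x| - |y|)]
  have hBΔ : 1 ≤ B / Δ := by rw [le_div_iff₀ hΔ]; linarith
  have t1 : |φ * g + 2 * (φx * ξ + φy * η)| ≤ 17 * (B / Δ) * s := by
    have := abs_add_le' (abs_mul_le hφ hg) (abs_mul_le (le_of_eq (abs_two))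
      (abs_add_le' (abs_mul_le hφx hξ) (abs_mul_le hφy hη)))
    refine this.trans ?_
    have e : 2 * B / Δ = 2 * (B / Δ) := by ring
    rw [e]
    nlinarith
  have t2 := abs_mul_le (le_refl |φ * u|) t1
  have t3 := neg_abs_le (φ * u * (φ * g + 2 * (φx * ξ + φy * η)))
  rw [abs_mul φ u] at t2
  have t4 : |φ| * |u| * (17 * (B / Δ) * s) ≤
      k ^ 2 / 160 * (φ ^ 2 * s ^ 2) + 11560 * B ^ 2 / (k ^ 2 * Δ ^ 2) * u ^ 2 := by
    have e1 : 11560 * B ^ 2 / (k ^ 2 * Δ ^ 2) * u ^ 2 = 40 * (17 * (B / Δ) * |u| / k) ^ 2 := by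
      rw [← sq_abs u]; field_simp; ring
    have e2 : |φ| * |u| * (17 * (B / Δ) * s) = (k * |φ| * s) * (17 * (B / Δ) * |u| / k) := by
      field_simp
    have e3 : k ^ 2 / 160 * (φ ^ 2 * s ^ 2) = (k * |φ| * s) ^ 2 / 160 := by
      rw [← sq_abs φ]; ring
    rw [e1, e2, e3]
    nlinarith [sq_nonneg (k * |φ| * s - 80 * (17 * (B / Δ) * |u| / k))]
  have t5 : φ ^ 2 * (k ^ 2 / 40 * G) ≤ φ ^ 2 * q := by gcongr
  have t6 : k ^ 2 / 160 * (φ ^ 2 * s ^ 2) ≤ k ^ 2 / 160 * (φ ^ 2 * (2 * G)) := by gcongr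
  nlinarith

theorem Lin.cacc (h : Lin k A C E w v f) {c Δ : ℝ} (hc : 0 ≤ c) (hΔ : 0 < Δ) (hcΔ : c + Δ ≤ 1 / 8)
    (hs : ∀ p : P, 1 < ‖p‖ → f p = 0) :
    k ^ 2 / 80 * ∫ p in Fr c, gr v p ≤
      11560 * B0 ^ 2 / (k ^ 2 * Δ ^ 2) * ∫ p in Fr (c + Δ), v p ^ 2 := by
  have sA := h.sA
  have sC := h.sC
  have sE := h.sE
  have sv := h.sv
  have := h.sA.diff
  have := h.sC.diff
  have := h.sE.diff
  have := h.sv.diff
  have k0 := h.k0
  have k2 := h.k2
  have B0p := B0_pos
  set φ : P → ℝ := fun p => cut (11 / 8 + c) Δ p - cut (5 / 4 - c - Δ) Δ p with hφ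
  have sφ : Sm φ := by rw [hφ]; smo
  have := sφ.diff
  have hz : ∀ p ∉ Fr (c + Δ), φ p = 0 := by
    intro p hp
    simp only [Fr, mem_ofPred_eq, not_and_or, not_le] at hp
    rcases hp with hp | hp
    · simp only [hφ]
      rw [cut_one hΔ (by linarith), cut_one hΔ (by linarith), sub_self]
    · simp only [hφ]
      rw [cut_zero hΔ (by linarith), cut_zero hΔ (by linarith), sub_self]
  have hcl : IsClosed (Fr (c + Δ)) := (isCompact_Fr _).isClosed
  set G1 : P → ℝ := fun p => -(φ p ^ 2 * v p * (A p * dX v p + C p * dY v p)) with hG1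
  set G2 : P → ℝ := fun p => -(φ p ^ 2 * v p * (C p * dX v p + E p * dY v p)) with hG2
  have g1 : Sm G1 := by rw [hG1]; smo
  have g2 : Sm G2 := by rw [hG2]; smo
  have hz1 : ∀ p ∉ Fr (c + Δ), G1 p = 0 := fun p hp => by simp [hG1, hz p hp]
  have hz2 : ∀ p ∉ Fr (c + Δ), G2 p = 0 := fun p hp => by simp [hG2, hz p hp]
  have main := div_compare g1.c1 g2.c1
    (HasCompactSupport.intro (isCompact_Fr _) hz1) (HasCompactSupport.intro (isCompact_Fr _) hz2)
    (isCompact_Fr c) (isCompact_Fr (c + Δ)) isCompact_empty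
    (g1 := fun p => k ^ 2 / 80 * gr v p)
    (g2 := fun p => 11560 * B0 ^ 2 / (k ^ 2 * Δ ^ 2) * v p ^ 2)
    (g3 := fun p => 0) (continuous_const.mul (continuous_gr sv))
    (continuous_const.mul (sv.continuous.pow 2)) continuous_const (by
      intro p
      have gp := gr_nonneg v p
      rw [indicator_empty, add_zero]
      by_cases hp : p ∈ Fr (c + Δ)
      · rw [indicator_of_mem hp]
        have hp2 : ‖p‖ ≤ 2 := by linarith [hp.2]
        have hp3 : 9 / 8 ≤ ‖p‖ := by linarith [hp.1]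
        have t1 : (Fr c).indicator (fun p => k ^ 2 / 80 * gr v p) p ≤
            φ p ^ 2 * (k ^ 2 / 80 * gr v p) := by
          by_cases hq : p ∈ Fr c
          · rw [indicator_of_mem hq]
            simp only [hφ]
            rw [cut_one hΔ hq.2, cut_zero hΔ (by linarith [hq.1])]
            simp
          · rw [indicator_of_notMem hq]; positivity
        have hA1 := abs_le.1 (h.A1 hp2)
        have hA2 : |A p| ≤ 2 := by rw [abs_le]; constructor <;> linarith
        have hC := (h.bC p hp2).1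
        have hE := (h.bE p hp2).1
        have x0 := abs_nonneg (dX v p)
        have y0 := abs_nonneg (dY v p)
        have key := cacc_ineq (k := k) (Δ := Δ) (B := B0) (φ := φ p) (φx := dX φ p) (φy := dY φ p)
          (u := v p) (x := dX v p) (y := dY v p) (q := qf A C E v p)
          (g := A p * dX (dX v) p + 2 * C p * dX (dY v) p + E p * dY (dY v) p
            + (dX A p + dY C p) * dX v p + (dX C p + dY E p) * dY v p)
          (ξ := A p * dX v p + C p * dY v p) (η := C p * dX v p + E p * dY v p) (G := gr v p)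
          k0 hΔ (by linarith) one_le_B0
          (by
            have a1 := cut_nonneg (11 / 8 + c) Δ p
            have a2 := cut_le_one (11 / 8 + c) Δ p
            have a3 := cut_nonneg (5 / 4 - c - Δ) Δ p
            have a4 := cut_le_one (5 / 4 - c - Δ) Δ p
            simp only [hφ]; rw [abs_le]; constructor <;> linarith)
          (by
            rw [hφ, D_sub _ (by fun_prop) (by fun_prop)]
            exact (abs_sub_le' (abs_dX_cut hΔ p) (abs_dX_cut hΔ p)).trans (le_of_eq (by ring)))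
          (by
            rw [hφ, D_sub _ (by fun_prop) (by fun_prop)]
            exact (abs_sub_le' (abs_dY_cut hΔ p) (abs_dY_cut hΔ p)).trans (le_of_eq (by ring)))
          rfl (h.q_ge hp2 hp3)
          (by
            have t := abs_add_le' (h.eq p hp2) (abs_add_le'
              (abs_mul_le (h.d1 p hp2) (le_refl |dX v p|))
              (abs_mul_le (h.d2 p hp2) (le_refl |dY v p|)))
            rw [hs p (by linarith)] at t
            refine le_trans (le_of_eq ?_) (t.trans (by nlinarith))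
            congr 1; ring)
          ((abs_add_le' (abs_mul_le hA2 le_rfl) (abs_mul_le hC le_rfl)).trans (by linarith))
          ((abs_add_le' (abs_mul_le hC le_rfl) (abs_mul_le hE le_rfl)).trans (by linarith))
        refine le_trans ?_ key
        rw [hG1, hG2]
        dexp
        rw [D_comm sv (0, 1) (1, 0)]
        unfold qf
        linarith
      · rw [D_eq_zero_off hcl hz1 _ p hp, D_eq_zero_off hcl hz2 _ p hp, indicator_of_notMem hp,
          indicator_of_notMem]
        · linarith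
        · intro hq; apply hp; constructor <;> linarith [hq.1, hq.2])
  rw [integral_const_mul, integral_const_mul] at main
  simpa using main

end Crest.Agent.R220
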