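import Crest.Agent.R220.Basic

/-! The multiplier estimate and the Caccioppoli estimate. -/

set_option autoImplicit false
open scoped ContDiff
open MeasureTheory Set

namespace Crest.Agent.R220

/-- hypotheses on the linear mixed type equation -/
structure Lin (k : ℝ) (A C E w v f : P → ℝ) : Prop where
  sA : Sm A
  sC : Sm C
  sE : Sm E
  sw : Sm w
  sv : Sm v
  cf : Continuous f
  k0 : 0 < k
  k1 : k ≤ 1 / 100
  bA : Bd (fun p => A p - 1) (1 / 10000)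
  bC : Bd C (1 / 10000)
  bE : Bd E (1 / 10000)
  bS : Bd (fun p => A p * E p - C p ^ 2 - k ^ 2 * (p.1 ^ 2 + p.2 ^ 2 - 1)) (k ^ 2 / 10000)
  d1 : ∀ p : P, ‖p‖ ≤ 2 → |dX A p + dY C p| ≤ k ^ 2 / 10000
  d2 : ∀ p : P, ‖p‖ ≤ 2 → |dX C p + dY E p| ≤ k ^ 2 / 10000
  wx : ∀ p : P, ‖p‖ ≤ 2 → |dX w p + C p| ≤ k ^ 2 / 10000
  wy : ∀ p : P, ‖p‖ ≤ 2 → |dY w p - A p| ≤ k ^ 2 / 10000
  w0 : w 0 = 0
  eq : ∀ p : P, ‖p‖ ≤ 2 →
    |A p * dX (dX v) p + 2 * C p * dX (dY v) p + E p * dY (dY v) p - f p| ≤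
      k ^ 2 / 10000 * (|dX v p| + |dY v p|)

/-- squared gradient -/
noncomputable def gr (v : P → ℝ) (p : P) : ℝ := dX v p ^ 2 + dY v p ^ 2

theorem gr_nonneg (v : P → ℝ) (p : P) : 0 ≤ gr v p := by unfold gr; positivity

theorem continuous_gr {v : P → ℝ} (h : Sm v) : Continuous (gr v) := by
  unfold gr; fun_prop

theorem gamma_bound {X Y e0 e1 e2 e3 a1 c w1 d s : ℝ} (hX : |X| ≤ 3 / 2) (hY : |Y| ≤ 3 / 2)
    (h0 : |e0| ≤ 1 / 10000) (h1 : |e1| ≤ 1 / 10000) (h2 : |e2| ≤ 1 / 10000)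
    (h3 : |e3| ≤ 6 / 10000) (ha : |a1| ≤ 1 / 10000) (hc : |c| ≤ 1 / 10000)
    (hw : |w1| ≤ 2 / 10000) (hd : |d| ≤ 1 / 10000) (hs : s = X ^ 2 + Y ^ 2 - 1 + e0) :
    1 / 5 ≤ (Y + e3) * (2 * Y + e2) - (1 + w1) * s + 3 / 4 * (1 + a1) * s +
      3 / 4 * X * ((1 + a1) * (2 * X + e1) + c * (2 * Y + e2)) - 3 / 4 * X * s * d := by
  have hX2 : X ^ 2 ≤ 9 / 4 := by nlinarith [abs_nonneg X, sq_abs X]
  have hY2 : Y ^ 2 ≤ 9 / 4 := by nlinarith [abs_nonneg Y, sq_abs Y]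
  have hs' : |s| ≤ 4 := by
    rw [abs_le] at h0 ⊢; constructor <;> nlinarith [sq_nonneg X, sq_nonneg Y]
  have hY' : |2 * Y + e2| ≤ 4 := by
    rw [abs_le] at h2 hY ⊢; constructor <;> linarith
  have hX' : |2 * X + e1| ≤ 4 := by
    rw [abs_le] at h1 hX ⊢; constructor <;> linarith
  have t1 := abs_le.1 (abs_mul_le hY h2)
  have t2 := abs_le.1 (abs_mul_le h3 hY')
  have t3 := abs_le.1 (abs_mul_le hw hs')
  have t4 := abs_le.1 (abs_mul_le ha hs')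
  have t5 := abs_le.1 (abs_mul_le hX h1)
  have t6 := abs_le.1 (abs_mul_le hX (abs_mul_le ha hX'))
  have t7 := abs_le.1 (abs_mul_le hX (abs_mul_le hc hY'))
  have t8 := abs_le.1 (abs_mul_le hX (abs_mul_le hs' hd))
  have t9 := abs_le.1 h0
  have e : (Y + e3) * (2 * Y + e2) - (1 + w1) * s + 3 / 4 * (1 + a1) * s +
      3 / 4 * X * ((1 + a1) * (2 * X + e1) + c * (2 * Y + e2)) - 3 / 4 * X * s * d =
      2 * Y ^ 2 + 3 / 2 * X ^ 2 - 1 / 4 * s + Y * e2 + e3 * (2 * Y + e2) - w1 * s + 3 / 4 * (a1 * s)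
      + 3 / 4 * (X * e1) + 3 / 4 * (X * (a1 * (2 * X + e1))) + 3 / 4 * (X * (c * (2 * Y + e2)))
      - 3 / 4 * (X * (s * d)) := by ring
  rw [e]
  nlinarith [sq_nonneg X, sq_nonneg Y]

theorem energy_ineq {k A a b ξ ζ vx g f α β γ dv : ℝ} (k0 : 0 < k) (k1 : k ≤ 1 / 100)
    (hA : |A - 1| ≤ 1 / 10000) (ha : |a| ≤ 9 / 8) (hb : |b| ≤ 2)
    (hvx : |vx| ≤ 2 * (|ξ| + |ζ|))
    (hg : |g - f| ≤ 2 * k ^ 2 / 10000 * (|vx| + |ζ|)) (hα : 1 / 5 ≤ α)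
    (hβ : |β| ≤ 4 * k ^ 2 / 10000) (hγ : k ^ 2 / 5 ≤ γ)
    (hid : 2 * A ^ 2 * dv = 2 * A * (a * ξ + b * ζ) * g - (α * ξ ^ 2 + 2 * β * ξ * ζ + γ * ζ ^ 2)) :
    dv ≤ -(k ^ 2 / 400) * (vx ^ 2 + ζ ^ 2) + 50 * (a ^ 2 + b ^ 2) * f ^ 2 / k ^ 2 := by
  have hA' := abs_le.1 hA
  have hk2 : k ^ 2 ≤ 1 / 10000 := by nlinarith
  have hk2' : 0 < k ^ 2 := by positivity
  have x0 := abs_nonneg ξ
  have z0 := abs_nonneg ζ
  have sx := sq_abs ξ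
  have sz := sq_abs ζ
  have hAa : |2 * A| ≤ 3 := by rw [abs_le]; constructor <;> linarith
  -- error part
  have e1 : |a * ξ + b * ζ| ≤ 2 * (|ξ| + |ζ|) := by
    have := abs_add_le' (abs_mul_le ha le_rfl : |a * ξ| ≤ _) (abs_mul_le hb le_rfl : |b * ζ| ≤ _)
    linarith
  have e2 : |g - f| ≤ 6 * k ^ 2 / 10000 * (|ξ| + |ζ|) := by
    refine hg.trans ?_
    nlinarith
  have e3 : 2 * A * (a * ξ + b * ζ) * (g - f) ≤ 72 / 10000 * k ^ 2 * (ξ ^ 2 + ζ ^ 2) := by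
    have := (le_abs_self _).trans (abs_mul_le (abs_mul_le hAa e1) e2)
    nlinarith [sq_nonneg (|ξ| - |ζ|)]
  have e4 : -(2 * β * ξ * ζ) ≤ 4 / 10000 * k ^ 2 * (ξ ^ 2 + ζ ^ 2) := by
    have h1 : |2 * β * ξ * ζ| ≤ 2 * (4 * k ^ 2 / 10000) * |ξ| * |ζ| :=
      abs_mul_le (abs_mul_le (abs_mul_le (by simp) hβ) le_rfl) le_rfl
    have := neg_abs_le (2 * β * ξ * ζ)
    nlinarith [sq_nonneg (|ξ| - |ζ|)]
  have hA2 : A ^ 2 ≤ 101 / 100 := by nlinarith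
  have hA3 : 99 / 100 ≤ A ^ 2 := by nlinarith
  have e5 : 2 * A * (a * ξ) * f ≤ 1 / 20 * ξ ^ 2 + 21 * a ^ 2 * f ^ 2 := by
    nlinarith [sq_nonneg (ξ - 20 * A * a * f), mul_nonneg (sq_nonneg a) (sq_nonneg f)]
  have e6 : 2 * A * (b * ζ) * f ≤ 1 / 20 * k ^ 2 * ζ ^ 2 + 21 * b ^ 2 * f ^ 2 / k ^ 2 := by
    have : 21 * b ^ 2 * f ^ 2 / k ^ 2 = 21 * (b * f / k) ^ 2 := by field_simp
    rw [this]
    have h2 : 2 * A * (b * ζ) * f = 2 * A * (k * ζ) * (b * f / k) := by field_simp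
    rw [h2]
    generalize b * f / k = y
    nlinarith [sq_nonneg (k * ζ - 20 * A * y), sq_nonneg y]
  have e7 : a ^ 2 * f ^ 2 ≤ a ^ 2 * f ^ 2 / k ^ 2 := by
    rw [le_div_iff₀ hk2']
    nlinarith [mul_nonneg (sq_nonneg a) (sq_nonneg f)]
  have e8 : vx ^ 2 ≤ 8 * (ξ ^ 2 + ζ ^ 2) := by
    have := pow_le_pow_left₀ (abs_nonneg _) hvx 2
    rw [sq_abs] at this
    nlinarith [sq_nonneg (|ξ| - |ζ|)]
  set T := (a ^ 2 + b ^ 2) * f ^ 2 / k ^ 2 with hT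
  have hT0 : 0 ≤ T := by positivity
  have hT1 : T = a ^ 2 * f ^ 2 / k ^ 2 + b ^ 2 * f ^ 2 / k ^ 2 := by rw [hT]; ring
  have e9 : 2 * A ^ 2 * dv ≤ -(1 / 10) * (ξ ^ 2 + k ^ 2 * ζ ^ 2) + 21 * T := by
    have q1 : 1 / 5 * ξ ^ 2 ≤ α * ξ ^ 2 := by gcongr
    have q2 : k ^ 2 / 5 * ζ ^ 2 ≤ γ * ζ ^ 2 := by gcongr
    have q3 : k ^ 2 * ξ ^ 2 ≤ ξ ^ 2 := by nlinarith [sq_nonneg ξ]
    have q4 : 21 * b ^ 2 * f ^ 2 / k ^ 2 = 21 * (b ^ 2 * f ^ 2 / k ^ 2) := by ring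
    have q5 : 0 ≤ k ^ 2 * ζ ^ 2 := by positivity
    nlinarith [sq_nonneg ξ]
  have e10 : k ^ 2 * (vx ^ 2 + ζ ^ 2) ≤ 9 * (ξ ^ 2 + k ^ 2 * ζ ^ 2) := by
    nlinarith [sq_nonneg ξ, sq_nonneg ζ]
  have e11 : 50 * (a ^ 2 + b ^ 2) * f ^ 2 / k ^ 2 = 50 * T := by rw [hT]; ring
  rw [e11]
  set G := k ^ 2 * (vx ^ 2 + ζ ^ 2) with hG
  have hG0 : 0 ≤ G := by positivity
  have e12 : -(k ^ 2 / 400) * (vx ^ 2 + ζ ^ 2) = -(G / 400) := by rw [hG]; ring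
  rw [e12]
  have e13 : 2 * A ^ 2 * dv ≤ -(G / 90) + 21 * T := by linarith
  by_contra hcon
  push Not at hcon
  have : 2 * A ^ 2 * (-(G / 400) + 50 * T) < 2 * A ^ 2 * dv := by
    apply mul_lt_mul_of_pos_left hcon; linarith
  nlinarith

section
variable {k : ℝ} {A C E w v f : P → ℝ}

noncomputable def be2 (A C w : P → ℝ) (p : P) : ℝ := (3 / 4 * p.1 * C p + w p) * (A p)⁻¹
noncomputable def qf (A C E v : P → ℝ) (p : P) : ℝ :=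
  A p * dX v p ^ 2 + 2 * C p * dX v p * dY v p + E p * dY v p ^ 2
noncomputable def J1 (A C E w v : P → ℝ) (p : P) : ℝ :=
  (3 / 4 * p.1 * dX v p + be2 A C w p * dY v p) * (A p * dX v p + C p * dY v p)
    - 3 / 4 * p.1 * qf A C E v p / 2
noncomputable def J2 (A C E w v : P → ℝ) (p : P) : ℝ :=
  (3 / 4 * p.1 * dX v p + be2 A C w p * dY v p) * (C p * dX v p + E p * dY v p)
    - be2 A C w p * qf A C E v p / 2

theorem div_J (h : Lin k A C E w v f) (p : P) (h0 : A p ≠ 0) :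
    2 * A p ^ 2 * (dX (J1 A C E w v) p + dY (J2 A C E w v) p) =
      2 * A p * (3 / 4 * p.1 * (A p * dX v p + C p * dY v p) + w p * dY v p) *
        (A p * dX (dX v) p + 2 * C p * dX (dY v) p + E p * dY (dY v) p
          + (dX A p + dY C p) * dX v p + (dX C p + dY E p) * dY v p) -
      ((dY w p - 3 / 4 * A p + 3 / 4 * p.1 * (dX A p + dY C p)) * (A p * dX v p + C p * dY v p) ^ 2
       + 2 * (w p * (dX A p + dY C p) - (A p * dX w p + C p * dY w p)) *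
          (A p * dX v p + C p * dY v p) * dY v p
       + (w p * (dY A p * E p + A p * dY E p - 2 * C p * dY C p) - dY w p * (A p * E p - C p ^ 2)
          + 3 / 4 * A p * (A p * E p - C p ^ 2)
          + 3 / 4 * p.1 * (A p * (dX A p * E p + A p * dX E p - 2 * C p * dX C p)
            + C p * (dY A p * E p + A p * dY E p - 2 * C p * dY C p))
          - 3 / 4 * p.1 * (A p * E p - C p ^ 2) * (dX A p + dY C p)) * dY v p ^ 2) := by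
  have := h.sA.diff
  have := h.sC.diff
  have := h.sE.diff
  have := h.sw.diff
  have := h.sv
  unfold J1 J2 be2 qf
  dexp
  rw [D_comm h.sv (0, 1) (1, 0)]
  field_simp
  ring

end

end Crest.Agent.R220
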