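import Crest.Agent.R220.Island

/-! Height functions of an isometric immersion of a conformally flat metric. -/

set_option autoImplicit false
open scoped ContDiff InnerProductSpace
open MeasureTheory Set Filter

namespace Crest.Agent.R220

abbrev E3 := EuclideanSpace ℝ (Fin 3)

theorem D_inner {f g : P → E3} {p : P} (e : P) (hf : DifferentiableAt ℝ f p)
    (hg : DifferentiableAt ℝ g p) :
    D e (fun q => ⟪f q, g q⟫_ℝ) p = ⟪D e f p, g p⟫_ℝ + ⟪f p, D e g p⟫_ℝ := by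
  unfold D
  rw [fderiv_inner_apply ℝ hf hg, add_comm]

def tp (a b y : E3) : ℝ :=
  y 0 * (a 1 * b 2 - a 2 * b 1) + y 1 * (a 2 * b 0 - a 0 * b 2) + y 2 * (a 0 * b 1 - a 1 * b 0)

theorem gram (a b y z : E3) : tp a b y * tp a b z =
    ⟪y, z⟫_ℝ * (⟪a, a⟫_ℝ * ⟪b, b⟫_ℝ - ⟪a, b⟫_ℝ ^ 2)
      - ⟪y, a⟫_ℝ * (⟪z, a⟫_ℝ * ⟪b, b⟫_ℝ - ⟪z, b⟫_ℝ * ⟪a, b⟫_ℝ)
      - ⟪y, b⟫_ℝ * (⟪z, b⟫_ℝ * ⟪a, a⟫_ℝ - ⟪z, a⟫_ℝ * ⟪a, b⟫_ℝ) := by
  simp only [tp, PiLp.inner_apply, Fin.sum_univ_three, RCLike.inner_apply, conj_trivial]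
  ring

theorem perp_id {a b e W W' : E3} {l : ℝ} (hl : l ≠ 0) (aa : ⟪a, a⟫_ℝ = l) (bb : ⟪b, b⟫_ℝ = l)
    (ab : ⟪a, b⟫_ℝ = 0) (ee : ⟪e, e⟫_ℝ = 1) (wa : ⟪W, a⟫_ℝ = 0) (wb : ⟪W, b⟫_ℝ = 0)
    (wa' : ⟪W', a⟫_ℝ = 0) (wb' : ⟪W', b⟫_ℝ = 0) :
    l * (⟪W, e⟫_ℝ * ⟪W', e⟫_ℝ) = ⟪W, W'⟫_ℝ * (l - ⟪e, a⟫_ℝ ^ 2 - ⟪e, b⟫_ℝ ^ 2) := by
  have g1 := gram a b W e
  have g2 := gram a b W' e
  have g3 := gram a b W W'
  have g4 := gram a b e e
  rw [aa, bb, ab] at g1 g2 g3 g4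
  rw [wa, wb] at g1 g3
  rw [wa', wb'] at g2
  rw [ee] at g4
  have h3 : l ^ 3 ≠ 0 := pow_ne_zero 3 hl
  apply mul_left_cancel₀ h3
  have : (tp a b W * tp a b e) * (tp a b W' * tp a b e) =
      (tp a b W * tp a b W') * (tp a b e * tp a b e) := by ring
  rw [g1, g2, g3, g4] at this
  linear_combination this

theorem darboux_alg {a b xx xy yy e : E3} {l sx sy L : ℝ} (hl : l ≠ 0) (aa : ⟪a, a⟫_ℝ = l)
    (bb : ⟪b, b⟫_ℝ = l) (ab : ⟪a, b⟫_ℝ = 0) (ee : ⟪e, e⟫_ℝ = 1)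
    (h1 : ⟪xx, a⟫_ℝ = l * sx) (h2 : ⟪xx, b⟫_ℝ = -(l * sy)) (h3 : ⟪xy, a⟫_ℝ = l * sy)
    (h4 : ⟪xy, b⟫_ℝ = l * sx) (h5 : ⟪yy, a⟫_ℝ = -(l * sx)) (h6 : ⟪yy, b⟫_ℝ = l * sy)
    (hg : ⟪xx, yy⟫_ℝ - ⟪xy, xy⟫_ℝ = -(l * (L + 2 * (sx ^ 2 + sy ^ 2)))) :
    (⟪e, xx⟫_ℝ - (⟪e, a⟫_ℝ * sx - ⟪e, b⟫_ℝ * sy)) * (⟪e, yy⟫_ℝ + (⟪e, a⟫_ℝ * sx - ⟪e, b⟫_ℝ * sy))
      - (⟪e, xy⟫_ℝ - (⟪e, a⟫_ℝ * sy + ⟪e, b⟫_ℝ * sx)) ^ 2 =
      -(L * (l - (⟪e, a⟫_ℝ ^ 2 + ⟪e, b⟫_ℝ ^ 2))) := by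
  have ba : ⟪b, a⟫_ℝ = 0 := by rw [real_inner_comm]; exact ab
  have h3' : ⟪a, xy⟫_ℝ = l * sy := by rw [real_inner_comm]; exact h3
  have h4' : ⟪b, xy⟫_ℝ = l * sx := by rw [real_inner_comm]; exact h4
  have h5' : ⟪a, yy⟫_ℝ = -(l * sx) := by rw [real_inner_comm]; exact h5
  have h6' : ⟪b, yy⟫_ℝ = l * sy := by rw [real_inner_comm]; exact h6
  have p1 := perp_id (W := xx - sx • a + sy • b) (W' := yy + sx • a - sy • b) hl aa bb ab ee
    (by simp only [inner_add_left, inner_sub_left, real_inner_smul_left, h1, aa, ba]; ring)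
    (by simp only [inner_add_left, inner_sub_left, real_inner_smul_left, h2, bb, ab]; ring)
    (by simp only [inner_add_left, inner_sub_left, real_inner_smul_left, h5, aa, ba]; ring)
    (by simp only [inner_add_left, inner_sub_left, real_inner_smul_left, h6, bb, ab]; ring)
  have p2 := perp_id (W := xy - sy • a - sx • b) (W' := xy - sy • a - sx • b) hl aa bb ab ee
    (by simp only [inner_sub_left, real_inner_smul_left, h3, aa, ba]; ring)
    (by simp only [inner_sub_left, real_inner_smul_left, h4, bb, ab]; ring)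
    (by simp only [inner_sub_left, real_inner_smul_left, h3, aa, ba]; ring)
    (by simp only [inner_sub_left, real_inner_smul_left, h4, bb, ab]; ring)
  simp only [inner_add_left, inner_sub_left, real_inner_smul_left, inner_add_right,
    inner_sub_right, real_inner_smul_right, h1, h2, h3, h4, h3', h4', h5', h6', aa, bb, ab,
    ba] at p1 p2
  rw [real_inner_comm e xx, real_inner_comm e yy, real_inner_comm e a, real_inner_comm e b] at p1
  rw [real_inner_comm e xy, real_inner_comm e a, real_inner_comm e b] at p2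
  apply mul_left_cancel₀ hl
  linear_combination p1 - p2 + (l - ⟪e, a⟫_ℝ ^ 2 - ⟪e, b⟫_ℝ ^ 2) * hg

/-- isometric immersion of the metric `exp (2 σ) (dx² + dy²)` on a ball -/
def Iso (σ : P → ℝ) (G : P → E3) (ρ : ℝ) : Prop :=
  ∀ p : P, ‖p‖ < ρ → ⟪dX G p, dX G p⟫_ℝ = Real.exp (2 * σ p) ∧ ⟪dX G p, dY G p⟫_ℝ = 0 ∧
    ⟪dY G p, dY G p⟫_ℝ = Real.exp (2 * σ p)

theorem D_of_ball {f g : P → ℝ} {ρ : ℝ} (h : ∀ p : P, ‖p‖ < ρ → f p = g p) (e : P) {p : P}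
    (hp : ‖p‖ < ρ) : D e f p = D e g p := by
  apply D_congr
  have : ∀ᶠ t in nhds p, ‖t‖ < ρ := continuous_norm.continuousAt.eventually (gt_mem_nhds hp)
  filter_upwards [this] with t ht using h t ht

variable {σ : P → ℝ} {G : P → E3} {ρ : ℝ}

theorem Iso.first (h : Iso σ G ρ) (sG : Sm G) (sσ : Sm σ) {p : P} (hp : ‖p‖ < ρ) :
    ⟪dX (dX G) p, dX G p⟫_ℝ = Real.exp (2 * σ p) * dX σ p ∧
    ⟪dX (dX G) p, dY G p⟫_ℝ = -(Real.exp (2 * σ p) * dY σ p) ∧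
    ⟪dX (dY G) p, dX G p⟫_ℝ = Real.exp (2 * σ p) * dY σ p ∧
    ⟪dX (dY G) p, dY G p⟫_ℝ = Real.exp (2 * σ p) * dX σ p ∧
    ⟪dY (dY G) p, dX G p⟫_ℝ = -(Real.exp (2 * σ p) * dX σ p) ∧
    ⟪dY (dY G) p, dY G p⟫_ℝ = Real.exp (2 * σ p) * dY σ p := by
  have := sσ.diff
  have a1 := fun e => D_of_ball (fun p hp => (h p hp).1) e hp
  have a2 := fun e => D_of_ball (fun p hp => (h p hp).2.1) e hp
  have a3 := fun e => D_of_ball (fun p hp => (h p hp).2.2) e hp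
  have b1 := a1 (1, 0)
  have b2 := a2 (1, 0)
  have b3 := a3 (1, 0)
  have c1 := a1 (0, 1)
  have c2 := a2 (0, 1)
  have c3 := a3 (0, 1)
  rw [D_inner _ (by fun_prop) (by fun_prop)] at b1 b2 b3 c1 c2 c3
  rw [D_comm sG (0, 1) (1, 0)] at c1 c2
  revert b1 b2 b3 c1 c2 c3
  dexp
  intro b1 b2 b3 c1 c2 c3
  rw [real_inner_comm (dX (dX G) p) (dX G p)] at b1
  rw [real_inner_comm (dX (dY G) p) (dX G p)] at b2 c1
  rw [real_inner_comm (dX (dY G) p) (dY G p)] at b3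
  rw [real_inner_comm (dY (dY G) p) (dX G p)] at c2
  rw [real_inner_comm (dY (dY G) p) (dY G p)] at c3
  refine ⟨?_, ?_, ?_, ?_, ?_, ?_⟩ <;> linarith

theorem Iso.gauss (h : Iso σ G ρ) (sG : Sm G) (sσ : Sm σ) {p : P} (hp : ‖p‖ < ρ) :
    ⟪dX (dX G) p, dY (dY G) p⟫_ℝ - ⟪dX (dY G) p, dX (dY G) p⟫_ℝ =
      -(Real.exp (2 * σ p) * (dX (dX σ) p + dY (dY σ) p + 2 * (dX σ p ^ 2 + dY σ p ^ 2))) := by
  have := sσ.diff
  have a1 := D_of_ball (fun p hp => (h.first sG sσ hp).2.1) (0, 1) hp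
  have a2 := D_of_ball (fun p hp => (h.first sG sσ hp).2.2.2.1) (1, 0) hp
  rw [D_inner _ (by fun_prop) (by fun_prop)] at a1 a2
  rw [D_comm (Sm.D sG (1, 0)) (0, 1) (1, 0), D_comm' sG (0, 1) (1, 0)] at a1
  revert a1 a2
  dexp
  intro a1 a2
  linear_combination a1 - a2

theorem D_height {H : P → E3} (hH : Sm H) (e c : P) (n : E3) :
    D e (fun p => ⟪n, H (c + p)⟫_ℝ) = fun p => ⟪n, D e H (c + p)⟫_ℝ := by
  funext p
  have := hH.diff
  rw [D_inner _ (by fun_prop) (by fun_prop), D_const, D_translate]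
  simp

theorem good_of_iso (h : Iso σ G ρ) (sG : Sm G) (sσ : Sm σ) {s : P → ℝ} {c : P} {M ρ0 : ℝ}
    (hρ0 : 0 ≤ ρ0) (hc : ∀ p : P, ‖p‖ ≤ ρ0 → ‖c + p‖ < ρ)
    (hs : ∀ p : P, ‖p‖ ≤ ρ0 → (fun q => σ (c + q)) =ᶠ[nhds p] s)
    (sx : dX s 0 = 0) (sy : dY s 0 = 0) (hM : 0 < M) (hyy : 1 / M ≤ ‖dY (dY G) c‖)
    (nG : Nb G 3 M) : ∃ u, Good M ρ0 s u := by
  set w := dY (dY G) c with hw
  have w0 : 0 < ‖w‖ := lt_of_lt_of_le (by positivity) hyy
  set n : E3 := ‖w‖⁻¹ • w with hn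
  have n1 : ‖n‖ = 1 := by rw [hn, norm_smul, norm_inv, norm_norm]; field_simp
  have nn : ⟪n, n⟫_ℝ = 1 := by rw [real_inner_self_eq_norm_sq, n1]; norm_num
  have e1 : ∀ p : P, ‖p‖ ≤ ρ0 → ∀ e, D e s p = D e σ (c + p) := fun p hp e => by
    rw [← D_congr (hs p hp), D_translate]
  have e2 : ∀ p : P, ‖p‖ ≤ ρ0 → ∀ e, D e (D e s) p = D e (D e σ) (c + p) := fun p hp e => by
    rw [← D_congr (D_congr_ev (hs p hp) e), ← D_translate]
    congr 1; funext q; exact D_translate σ c e q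
  have z0 : ‖(0 : P)‖ ≤ ρ0 := by simpa using hρ0
  have hc0 : ‖c‖ < ρ := by simpa using hc 0 z0
  have σx : dX σ c = 0 := by have := e1 0 z0 (1, 0); rw [add_zero, sx] at this; exact this.symm
  have σy : dY σ c = 0 := by have := e1 0 z0 (0, 1); rw [add_zero, sy] at this; exact this.symm
  have dG := sG.diff
  have du : ∀ e, D e (fun p => ⟪n, G (c + p)⟫_ℝ - ⟪n, G c⟫_ℝ) = fun p => ⟪n, D e G (c + p)⟫_ℝ := by
    intro e
    rw [← D_height sG]
    funext p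
    rw [D_sub _ ((differentiableAt_const n).inner ℝ (by fun_prop)) (by fun_prop), D_const, sub_zero]
  have bd : ∀ {H : P → E3}, Sm H → Nb H 1 M → B3 ρ0 (fun p => ⟪n, H (c + p)⟫_ℝ) M := by
    intro H sH nH p _
    have key : ∀ v : E3, ‖v‖ ≤ M → |⟪n, v⟫_ℝ| ≤ M := fun v hv => by
      have := abs_real_inner_le_norm n v
      rw [n1, one_mul] at this
      exact this.trans hv
    rw [D_height sH, D_height sH]
    exact ⟨key _ (nH.val _), key _ ((nH.dx sH).val _), key _ ((nH.dy sH).val _)⟩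
  have sx' := Sm.D sG (1, 0)
  have sy' := Sm.D sG (0, 1)
  obtain ⟨-, -, -, -, f5, f6⟩ := h.first sG sσ hc0
  refine ⟨fun p => ⟪n, G (c + p)⟫_ℝ - ⟪n, G c⟫_ℝ, ?_, by simp, ?_, ?_, ?_, ?_, ?_, ?_, ?_⟩
  · exact (contDiff_const.inner ℝ (sG.comp (contDiff_const.add contDiff_id))).sub contDiff_const
  · rw [du]; simp only [add_zero]
    rw [hn, real_inner_smul_left, hw, f5, σx]; simp
  · rw [du]; simp only [add_zero]
    rw [hn, real_inner_smul_left, hw, f6, σy]; simp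
  · rw [du, D_height sy']; simp only [add_zero]
    rw [← hw, hn, real_inner_smul_left, real_inner_self_eq_norm_sq]
    refine hyy.trans (le_of_eq ?_)
    field_simp
  · rw [du, D_height sx']; exact bd (by smo) ((nG.dx sG).dx sx')
  · rw [du, D_height sy']; exact bd (by smo) ((nG.dy sG).dx sy')
  · rw [du, D_height sy']; exact bd (by smo) ((nG.dy sG).dy sy')
  · intro p hp
    have hq := hc p hp
    obtain ⟨i1, i2, i3⟩ := h _ hq
    obtain ⟨g1, g2, g3, g4, g5, g6⟩ := h.first sG sσ hq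
    have key := darboux_alg (Real.exp_pos _).ne' i1 i3 i2 nn g1 g2 g3 g4 g5 g6 (h.gauss sG sσ hq)
    unfold H11 H22 H12 W1 W2 LL Th
    rw [du, du, D_height sx', D_height sy', D_height sy', e1 p hp, e1 p hp, e2 p hp, e2 p hp,
      ← (hs p hp).self_of_nhds]
    simp only [mul_one, one_mul]
    linear_combination key

theorem hasDerivAt_parab {F : Type*} [NormedAddCommGroup F] [NormedSpace ℝ F] {H : P → F}
    (hH : Differentiable ℝ H) (s : ℝ) :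
    HasDerivAt (fun t : ℝ => H (t ^ 2, t)) ((2 * s) • dX H (s ^ 2, s) + dY H (s ^ 2, s)) s := by
  have h : HasDerivAt (fun t : ℝ => ((t ^ 2, t) : P)) (2 * s, 1) s := by
    simpa using (hasDerivAt_pow 2 s).prodMk (hasDerivAt_id s)
  have := HasFDerivAt.comp_hasDerivAt (f := fun t : ℝ => ((t ^ 2, t) : P)) s
    (hH (s ^ 2, s)).hasFDerivAt h
  rw [fderiv_eq_D] at this
  simp only [one_smul] at this
  exact this

theorem const_of_deriv_zero {F : Type*} [NormedAddCommGroup F] [NormedSpace ℝ F] {f : ℝ → F}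
    {r : ℝ} (h : ∀ s, |s| < r → HasDerivAt f 0 s) {x y : ℝ} (hx : |x| < r) (hy : |y| < r) :
    f x = f y := by
  have := (convex_Ioo (-r) r).norm_image_sub_le_of_norm_hasDerivWithin_le (f := f)
    (f' := fun _ => 0) (C := 0) (fun s hs => (h s (abs_lt.2 hs)).hasDerivWithinAt)
    (fun _ _ => by simp) (abs_lt.1 hy) (abs_lt.1 hx)
  simpa [sub_eq_zero] using this

theorem parabola (h : Iso σ G ρ) (sG : Sm G) (sσ : Sm σ) (ρ0 : 0 < ρ) (ρ1 : ρ ≤ 1)
    (hZ : ∀ s : ℝ, σ (s ^ 2, s) = 0 ∧ dX σ (s ^ 2, s) = 0 ∧ dY σ (s ^ 2, s) = 0 ∧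
      dX (dX σ) (s ^ 2, s) = 0 ∧ dY (dY σ) (s ^ 2, s) = 0)
    (hin : ∀ p : P, p.2 ^ 2 < p.1 → σ p < 0) :
    ∃ s : ℝ, |s| < ρ ∧ dY (dY G) (s ^ 2, s) ≠ 0 := by
  by_contra hcon
  push Not at hcon
  have mem : ∀ s : ℝ, |s| < ρ → ‖((s ^ 2, s) : P)‖ < ρ := fun s hs => by
    refine lt_of_le_of_lt (norm_le_of_abs ?_ le_rfl) hs
    simp only [abs_pow]; nlinarith [abs_nonneg s]
  have xy : ∀ s : ℝ, |s| < ρ → dX (dY G) (s ^ 2, s) = 0 := fun s hs => by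
    have := h.gauss sG sσ (mem s hs)
    obtain ⟨-, z1, z2, z3, z4⟩ := hZ s
    rw [hcon s hs, z1, z2, z3, z4] at this
    simpa using this
  set e := dY G (0 ^ 2, 0) with he
  have cst : ∀ s : ℝ, |s| < ρ → dY G (s ^ 2, s) = e := fun s hs =>
    const_of_deriv_zero (f := fun t : ℝ => dY G (t ^ 2, t)) (fun t ht => by
      have := hasDerivAt_parab (H := dY G) (by fun_prop) t
      rw [xy t ht, hcon t ht] at this
      simpa using this) hs (by simpa using ρ0)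
  have ee : ⟪e, e⟫_ℝ = 1 := by
    have := (h _ (mem 0 (by simpa using ρ0))).2.2
    rw [(hZ 0).1, mul_zero, Real.exp_zero] at this
    exact this
  set t := ρ / 2 with ht
  have t0 : 0 < t := by positivity
  have t1 : |t| < ρ := by rw [abs_of_pos t0]; linarith
  have len := const_of_deriv_zero (f := fun s : ℝ => ⟪e, G (s ^ 2, s)⟫_ℝ - s) (r := ρ)
    (fun s hs => by
      have := ((hasDerivAt_const s e).inner ℝ (hasDerivAt_parab sG.diff s)).sub (hasDerivAt_id s)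
      have i2 := (h _ (mem s hs)).2.1
      rw [cst s hs, real_inner_comm] at i2
      rw [cst s hs, inner_add_right, real_inner_smul_right, i2, ee, inner_zero_left, mul_zero,
        zero_add, add_zero, sub_self] at this
      exact this) t1 (y := -t) (by rwa [abs_neg])
  simp only [neg_sq] at len
  obtain ⟨y, hy, hs⟩ := exists_hasDerivAt_eq_slope (fun y : ℝ => ⟪e, G (t ^ 2, y)⟫_ℝ)
    (fun y => ⟪e, dY G (t ^ 2, y)⟫_ℝ) (by linarith : -t < t)
    (by have := sG.cont; fun_prop) (fun y _ => by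
      simpa using (hasDerivAt_const y e).inner ℝ (hasDerivAt_Y sG.diff (t ^ 2) y))
  have h1 : ⟪e, dY G (t ^ 2, y)⟫_ℝ = 1 := by
    rw [hs, div_eq_one_iff_eq (by linarith)]; linarith
  have hy' : |y| < t := abs_lt.2 hy
  have h2 := (h (t ^ 2, y) (by
    refine lt_of_le_of_lt (norm_le_of_abs (r := t) ?_ hy'.le) (by linarith)
    simp only [abs_pow, abs_of_pos t0]; nlinarith)).2.2
  have h3 : Real.exp (2 * σ (t ^ 2, y)) < 1 := by
    rw [Real.exp_lt_one_iff]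
    have := hin (t ^ 2, y) (by simp only; exact sq_lt_sq' hy.1 hy.2)
    linarith
  have h4 := real_inner_self_nonneg (x := e - dY G (t ^ 2, y))
  rw [inner_sub_left, inner_sub_right, inner_sub_right, ee, h1, h2, real_inner_comm, h1] at h4
  linarith

theorem vanish {f : P → ℝ} (hf : Sm f) {O : Set P} (hO : IsOpen O) (h : ∀ p ∈ O, f p = 0) {z : P}
    (hz : z ∈ closure O) :
    f z = 0 ∧ dX f z = 0 ∧ dY f z = 0 ∧ dX (dX f) z = 0 ∧ dY (dY f) z = 0 := by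
  have key : ∀ {g : P → ℝ}, Continuous g → (∀ p ∈ O, g p = 0) → g z = 0 := fun hg h0 =>
    closure_minimal (s := O) (fun p hp => h0 p hp) (isClosed_eq hg continuous_const) hz
  have dd : ∀ {g : P → ℝ}, (∀ p ∈ O, g p = 0) → ∀ e, ∀ p ∈ O, D e g p = 0 := fun h0 e p hp =>
    D_eq_zero_off (K := Oᶜ) hO.isClosed_compl (fun q hq => h0 q (by simpa using hq)) e p
      (by simpa using hp)
  exact ⟨key hf.cont h, key (by fun_prop) (dd h _), key (by fun_prop) (dd h _),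
    key (by fun_prop) (dd (dd h _) _), key (by fun_prop) (dd (dd h _) _)⟩

theorem level_unique {n m : ℕ} {x : ℝ} (hn : |x + 1 / 2 ^ n| < 1 / 2 ^ n / 4)
    (hm : |x + 1 / 2 ^ m| < 1 / 2 ^ m / 4) : n = m := by
  have key : ∀ n m : ℕ, |x + 1 / 2 ^ n| < 1 / 2 ^ n / 4 → |x + 1 / 2 ^ m| < 1 / 2 ^ m / 4 →
      ¬ n < m := by
    intro n m hn hm hlt
    have h1 : (2 : ℝ) ^ (n + 1) ≤ 2 ^ m := pow_le_pow_right₀ (by norm_num) hlt
    have h2 : (1 : ℝ) / 2 ^ m ≤ 1 / 2 ^ (n + 1) := by gcongr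
    have h3 : (1 : ℝ) / 2 ^ (n + 1) = 1 / 2 ^ n / 2 := by rw [pow_succ]; field_simp
    have h4 : (0 : ℝ) < 1 / 2 ^ n := by positivity
    rw [abs_lt] at hn hm
    linarith [hn.2, hm.1]
  have := key n m hn hm
  have := key m n hm hn
  omega

theorem exists_sigma : ∃ σ : P → ℝ, Sm σ ∧
    (∀ s : ℝ, σ (s ^ 2, s) = 0 ∧ dX σ (s ^ 2, s) = 0 ∧ dY σ (s ^ 2, s) = 0 ∧
      dX (dX σ) (s ^ 2, s) = 0 ∧ dY (dY σ) (s ^ 2, s) = 0) ∧
    (∀ p : P, p.2 ^ 2 < p.1 → σ p < 0) ∧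
    ∀ (s0 : ℝ) (V : Set P), V ∈ nhds ((s0 ^ 2, s0) : P) → ∀ M0 : ℝ,
      ∃ (M ρ0 : ℝ) (c : P) (s : P → ℝ), M0 ≤ M ∧ 0 < ρ0 ∧ (∀ p : P, ‖p‖ ≤ ρ0 → c + p ∈ V) ∧
        (∀ p : P, ‖p‖ ≤ ρ0 → (fun q => σ (c + q)) =ᶠ[nhds p] s) ∧ dX s 0 = 0 ∧ dY s 0 = 0 ∧
        ∀ u, ¬ Good M ρ0 s u := by
  obtain ⟨q, hq⟩ := exists_surjective_nat ℚ
  set c : ℕ → P := fun n => ((q n : ℝ) ^ 2 - 1 / 2 ^ n, (q n : ℝ)) with hc
  set L : P → ℝ := fun p => p.1 - p.2 ^ 2 with hL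
  have cL : Continuous L := by rw [hL]; fun_prop
  have exρ : ∀ n : ℕ, ∃ ρ : ℝ, 0 < ρ ∧ ρ ≤ 1 / 2 ^ n ∧
      ∀ p : P, ‖p‖ < 2 * ρ → |L (c n + p) + 1 / 2 ^ n| < 1 / 2 ^ n / 4 := by
    intro n
    have h1 : ContinuousAt (fun p => |L (c n + p) + 1 / 2 ^ n|) 0 := by fun_prop
    have h2 := h1.eventually (gt_mem_nhds (a := 1 / 2 ^ n / 4) (by simp [hL, hc]))
    obtain ⟨ε, ε0, hε⟩ := Metric.eventually_nhds_iff.1 h2
    refine ⟨min (ε / 2) (1 / 2 ^ n), by positivity, min_le_right _ _, fun p hp => hε ?_⟩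
    have := min_le_left (ε / 2) (1 / 2 ^ n)
    rw [dist_zero_right]; linarith
  choose ρ ρ0 ρ1 hρ using exρ
  have exs := fun n : ℕ => island (M := n + 1) (by simp) n (ε := 1 / 2 ^ n) (by positivity) (ρ0 n)
  choose s ss soff sN sx sy sG using exs
  have lev : ∀ n p, s n (p - c n) ≠ 0 → |L p + 1 / 2 ^ n| < 1 / 2 ^ n / 4 := by
    intro n p hp
    have h1 : ‖p - c n‖ < ρ n := by
      by_contra h; exact hp (soff n _ (not_lt.1 h))
    have := hρ n (p - c n) (by linarith [ρ0 n])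
    simpa using this
  set σo : P → ℝ := fun p => ∑' n, s n (p - c n) with hσo
  set σi : P → ℝ := fun p => - expNegInvGlue (L p) with hσi
  have so : Sm σo := by
    refine contDiff_tsum_of_eventually (N := ⊤) (v := fun _ i => 1 / 2 ^ i)
      (fun i => (ss i).comp (contDiff_id.sub contDiff_const)) (fun _ _ => ?_) fun k _ => ?_
    · simpa using summable_geometric_two
    · rw [Nat.cofinite_eq_atTop]
      filter_upwards [eventually_ge_atTop k] with i hi x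
      exact (sN i).sub_const (c i) k hi x
  have si : Sm σi := (expNegInvGlue.contDiff.comp (by rw [hL]; fun_prop)).neg
  have o0 : ∀ p, 0 < L p → σo p = 0 := by
    intro p hp
    have : ∀ n, s n (p - c n) = 0 := fun n => by
      by_contra h
      have := abs_lt.1 (lev n p h)
      have : (0 : ℝ) < 1 / 2 ^ n := by positivity
      linarith
    simp [hσo, this]
  have i0 : ∀ p, L p < 0 → σi p = 0 := fun p hp => by
    simp [hσi, expNegInvGlue.zero_of_nonpos hp.le]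
  refine ⟨fun p => σi p + σo p, si.add so, fun t => ?_, fun p hp => ?_, fun s0 V hV M0 => ?_⟩
  · have v1 := vanish si (isOpen_lt cL continuous_const) i0 (z := (t ^ 2, t)) (by
      rw [Metric.mem_closure_iff]
      intro ε hε
      refine ⟨(t ^ 2 - ε / 2, t), by simp [hL, hε], ?_⟩
      simp [Prod.dist_eq, abs_of_pos hε, hε])
    have v2 := vanish so (isOpen_lt continuous_const cL) o0 (z := (t ^ 2, t)) (by
      rw [Metric.mem_closure_iff]
      intro ε hε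
      refine ⟨(t ^ 2 + ε / 2, t), by simp [hL, hε], ?_⟩
      simp [Prod.dist_eq, abs_of_pos hε, hε])
    have dd : ∀ {g h : P → ℝ}, Sm g → Sm h → ∀ e, D e (fun p => g p + h p) =
        fun p => D e g p + D e h p := fun hg hh e => funext fun p => D_add e (hg.diff p) (hh.diff p)
    rw [dd si so, dd si so, dd (Sm.D si _) (Sm.D so _), dd (Sm.D si _) (Sm.D so _)]
    simp only [v1, v2, add_zero, and_self]
  · have h : 0 < L p := by simp only [hL]; linarith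
    simp only [o0 p h, hσi, add_zero, neg_lt_zero]
    exact expNegInvGlue.pos_of_pos h
  · obtain ⟨ε, ε0, hε⟩ := Metric.mem_nhds_iff.1 hV
    have h1 : ContinuousAt (fun t : ℝ => ((t ^ 2, t) : P)) s0 := by fun_prop
    obtain ⟨η, η0, hη⟩ := Metric.continuousAt_iff.1 h1 (ε / 3) (by positivity)
    have hinf : (q ⁻¹' {r : ℚ | (r : ℝ) ∈ Ioo (s0 - η) (s0 + η)}).Infinite := by
      refine Set.Infinite.preimage ?_ (by rw [hq.range_eq]; exact subset_univ _)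
      obtain ⟨a, a1, a2⟩ := exists_rat_btwn (by linarith : s0 - η < s0)
      obtain ⟨b, b1, b2⟩ := exists_rat_btwn (by linarith : s0 < s0 + η)
      have hab : a < b := by exact_mod_cast a2.trans b1
      refine (Set.Ioo_infinite hab).mono fun r hr => ⟨a1.trans ?_, lt_trans ?_ b2⟩
      · exact_mod_cast hr.1
      · exact_mod_cast hr.2
    obtain ⟨n, hn, hn'⟩ := hinf.exists_gt ⌈max M0 (3 / ε)⌉₊
    have n1 : max M0 (3 / ε) < n := lt_of_le_of_lt (Nat.le_ceil _) (by exact_mod_cast hn')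
    have n2 : (1 : ℝ) / 2 ^ n < ε / 3 := by
      have a : (n : ℝ) ≤ 2 ^ n := by exact_mod_cast (Nat.lt_two_pow_self (n := n)).le
      have b : 3 / ε < 2 ^ n := lt_of_lt_of_le ((le_max_right _ _).trans_lt n1) a
      rw [div_lt_iff₀ ε0] at b
      rw [div_lt_iff₀ (by positivity)]; linarith
    refine ⟨n + 1, ρ n, c n, s n, by linarith [le_max_left M0 (3 / ε)], ρ0 n, fun p hp => hε ?_,
      fun p hp => ?_, sx n, sy n, sG n⟩
    · have d1 := hη (x := (q n : ℝ)) (by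
        rw [Real.dist_eq, abs_lt]; constructor <;> linarith [hn.1, hn.2])
      rw [dist_eq_norm] at d1
      rw [Metric.mem_ball, dist_eq_norm]
      have e : c n + p - (s0 ^ 2, s0) =
          ((((q n : ℝ) ^ 2, (q n : ℝ)) : P) - (s0 ^ 2, s0)) + (-(1 / 2 ^ n), 0) + p := by
        simp only [hc]; ext <;> simp <;> ring
      have d2 : ‖((-(1 / 2 ^ n), 0) : P)‖ ≤ 1 / 2 ^ n :=
        norm_le_of_abs (by simp) (by simp)
      rw [e]
      have := norm_add₃_le (a := (((q n : ℝ) ^ 2, (q n : ℝ)) : P) - (s0 ^ 2, s0))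
        (b := (-(1 / 2 ^ n), 0)) (c := p)
      linarith [ρ1 n]
    · have : ∀ᶠ t in nhds p, ‖t‖ < 2 * ρ n :=
        continuous_norm.continuousAt.eventually (gt_mem_nhds (by linarith [ρ0 n]))
      filter_upwards [this] with t ht
      have l1 := hρ n t ht
      have l2 : L (c n + t) < 0 := by
        have := abs_lt.1 l1
        have : (0 : ℝ) < 1 / 2 ^ n := by positivity
        linarith
      rw [i0 _ l2, zero_add]
      simp only [hσo]
      rw [tsum_eq_single n, add_sub_cancel_left]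
      intro m hm
      by_contra h
      exact hm (level_unique (lev m _ h) l1)

/-- no isometric immersion on any ball -/
theorem no_iso : ∃ σ : P → ℝ, Sm σ ∧ ∀ (G : P → E3) (ρ : ℝ), 0 < ρ → Sm G → HasCompactSupport G →
    ¬ Iso σ G ρ := by
  obtain ⟨σ, sσ, hZ, hin, hI⟩ := exists_sigma
  refine ⟨σ, sσ, fun G ρ ρ0 sG cG h => ?_⟩
  have h' : Iso σ G (min ρ 1) := fun p hp => h p (hp.trans_le (min_le_left _ _))
  obtain ⟨s0, hs0, hne⟩ := parabola h' sG sσ (by positivity) (min_le_right _ _) hZ hin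
  obtain ⟨M1, M11, nG⟩ := exists_Nb sG cG 3
  set a := ‖dY (dY G) (s0 ^ 2, s0)‖ with ha
  have a0 : 0 < a := norm_pos_iff.2 hne
  have hz : ‖((s0 ^ 2, s0) : P)‖ < min ρ 1 := by
    refine lt_of_le_of_lt (norm_le_of_abs ?_ le_rfl) hs0
    have := hs0.trans_le (min_le_right _ _)
    simp only [abs_pow]; nlinarith [abs_nonneg s0]
  have c1 : Continuous fun p => ‖dY (dY G) p‖ := by fun_prop
  have hV : {p : P | ‖p‖ < min ρ 1} ∩ {p | a / 2 < ‖dY (dY G) p‖} ∈ nhds ((s0 ^ 2, s0) : P) :=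
    inter_mem ((isOpen_lt continuous_norm continuous_const).mem_nhds hz)
      ((isOpen_lt continuous_const c1).mem_nhds (by simp only [mem_ofPred_eq]; linarith))
  obtain ⟨M, ρ0', c, s, hM, ρ0'', hc, hs, sx, sy, hG⟩ := hI s0 _ hV (max M1 (2 / a))
  have M1' : M1 ≤ M := (le_max_left _ _).trans hM
  have M2 : 2 / a ≤ M := (le_max_right _ _).trans hM
  have M0 : 0 < M := by linarith
  obtain ⟨u, hu⟩ := good_of_iso h' sG sσ ρ0''.le (fun p hp => (hc p hp).1) hs sx sy M0 (by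
    have := (hc 0 (by simpa using ρ0''.le)).2
    simp only [add_zero, mem_ofPred_eq] at this
    refine le_trans ?_ this.le
    rw [div_le_iff₀ a0] at M2
    rw [div_le_iff₀ M0]; linarith) (nG.mono le_rfl M1')
  exact hG u hu

end Crest.Agent.R220
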