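import Crest.Agent.R220.Num

/-! The island lemma: a small conformal factor that excludes normalised height functions. -/

set_option autoImplicit false
open scoped ContDiff
open MeasureTheory Set Filter

namespace Crest.Agent.R220

/-- anisotropic scaling -/
noncomputable def sc (r : ℝ) : P →L[ℝ] P :=
  (r ^ 2 • ContinuousLinearMap.fst ℝ ℝ ℝ).prod (r • ContinuousLinearMap.snd ℝ ℝ ℝ)

theorem sc_apply (r : ℝ) (p : P) : sc r p = (r ^ 2 * p.1, r * p.2) := by simp [sc]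

theorem sc_sc {r : ℝ} (hr : r ≠ 0) (p : P) : sc r⁻¹ (sc r p) = p := by
  simp only [sc_apply]; ext <;> field_simp

theorem sc_sc' {r : ℝ} (hr : r ≠ 0) (p : P) : sc r (sc r⁻¹ p) = p := by
  simp only [sc_apply]; ext <;> field_simp

theorem norm_sc_le {r L : ℝ} (hr : 0 ≤ r) (h1 : r ≤ L) (h2 : r ^ 2 ≤ L) (p : P) :
    ‖sc r p‖ ≤ L * ‖p‖ := by
  rw [sc_apply]
  exact norm_le_of_abs (abs_mul_le ((abs_of_nonneg (sq_nonneg r)).le.trans h2) (norm_fst_le p))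
    (abs_mul_le ((abs_of_nonneg hr).le.trans h1) (norm_snd_le p))

noncomputable def scl (c r : ℝ) (g : P → ℝ) (p : P) : ℝ := c * g (sc r p)

theorem Sm.scl {g : P → ℝ} (hg : Sm g) (c r : ℝ) : Sm (scl c r g) :=
  contDiff_const.mul (hg.comp (sc r).contDiff)

theorem D_comp_clm {g : P → ℝ} (hg : Differentiable ℝ g) (L : P →L[ℝ] P) (e p : P) :
    D e (fun q => g (L q)) p = fderiv ℝ g (L p) (L e) := by
  unfold D
  rw [show (fun q => g (L q)) = g ∘ L from rfl, fderiv_comp p (hg _) L.differentiableAt]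
  simp

theorem dX_scl {g : P → ℝ} (hg : Sm g) (c r : ℝ) : dX (scl c r g) = scl (c * r ^ 2) r (dX g) := by
  funext p
  unfold scl
  rw [D_const_mul (f := fun q => g (sc r q)) _ _ ((hg.diff.comp (sc r).differentiable) p), D_comp_clm hg.diff, fderiv_eq_D]
  simp [sc_apply]; ring

theorem dY_scl {g : P → ℝ} (hg : Sm g) (c r : ℝ) : dY (scl c r g) = scl (c * r) r (dY g) := by
  funext p
  unfold scl
  rw [D_const_mul (f := fun q => g (sc r q)) _ _ ((hg.diff.comp (sc r).differentiable) p), D_comp_clm hg.diff, fderiv_eq_D]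
  simp [sc_apply]; ring

/-- C¹ bound on a ball -/
def B3 (ρ : ℝ) (g : P → ℝ) (M : ℝ) : Prop :=
  ∀ p : P, ‖p‖ ≤ ρ → |g p| ≤ M ∧ |dX g p| ≤ M ∧ |dY g p| ≤ M

/-- a normalised solution of the Darboux equation for the conformal factor `σ` -/
structure Good (M ρ0 : ℝ) (σ u : P → ℝ) : Prop where
  su : Sm u
  u0 : u 0 = 0
  x0 : dX u 0 = 0
  y0 : dY u 0 = 0
  yy : 1 / M ≤ dY (dY u) 0
  bxx : B3 ρ0 (dX (dX u)) M
  bxy : B3 ρ0 (dX (dY u)) M
  byy : B3 ρ0 (dY (dY u)) M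
  eq : ∀ p : P, ‖p‖ ≤ ρ0 → H11 1 1 u σ p * H22 1 1 u σ p - H12 1 u σ p ^ 2 =
    -(LL 1 σ p * Th 1 1 1 u σ p)

theorem B3.scl {ρ0 M r c c' : ℝ} {g : P → ℝ} (h : B3 ρ0 g M) (hg : Sm g) (r0 : 0 < r) (r1 : r ≤ 1)
    (hr : 3 * r ≤ ρ0) (hc : |c| ≤ c') {p : P} (hp : ‖p‖ ≤ 3) :
    |scl c r g p| ≤ c' * M ∧ |dX (scl c r g) p| ≤ c' * r * M ∧ |dY (scl c r g) p| ≤ c' * r * M := by
  have r2 : r ^ 2 ≤ r := by nlinarith
  have hq : ‖sc r p‖ ≤ ρ0 := (norm_sc_le r0.le le_rfl r2 p).trans (by nlinarith)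
  rw [dX_scl hg, dY_scl hg]
  exact ⟨abs_mul_le hc (h _ hq).1,
    abs_mul_le (abs_mul_le hc ((abs_of_nonneg (sq_nonneg r)).le.trans r2)) (h _ hq).2.1,
    abs_mul_le (abs_mul_le hc (abs_of_pos r0).le) (h _ hq).2.2⟩

theorem B3.lip {ρ0 M : ℝ} {g : P → ℝ} (h : B3 ρ0 g M) (hg : Sm g) {p q : P} (hp : ‖p‖ ≤ ρ0)
    (hq : ‖q‖ ≤ ρ0) : |g p - g q| ≤ 2 * M * ‖p - q‖ :=
  mvt_ball hg.diff (fun p hp => (h p hp).2.1) (fun p hp => (h p hp).2.2) hp hq

section
variable {M ρ0 r α : ℝ} {σ u : P → ℝ}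

theorem U_X (hu : Sm u) (hr : r ≠ 0) : dX (scl (r ^ 2 * α)⁻¹ r u) = scl α⁻¹ r (dX u) := by
  rw [dX_scl hu]; congr 1; field_simp

theorem U_Y (hu : Sm u) (hr : r ≠ 0) : dY (scl (r ^ 2 * α)⁻¹ r u) = scl (r * α)⁻¹ r (dY u) := by
  rw [dY_scl hu]; congr 1; field_simp

theorem U_XX (hu : Sm u) (hr : r ≠ 0) :
    dX (dX (scl (r ^ 2 * α)⁻¹ r u)) = scl (α⁻¹ * r ^ 2) r (dX (dX u)) := by
  rw [U_X hu hr, dX_scl (Sm.D hu _)]

theorem U_XY (hu : Sm u) (hr : r ≠ 0) :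
    dX (dY (scl (r ^ 2 * α)⁻¹ r u)) = scl (α⁻¹ * r) r (dX (dY u)) := by
  rw [U_Y hu hr, dX_scl (Sm.D hu _)]; congr 1; field_simp

theorem U_YY (hu : Sm u) (hr : r ≠ 0) :
    dY (dY (scl (r ^ 2 * α)⁻¹ r u)) = scl α⁻¹ r (dY (dY u)) := by
  rw [U_Y hu hr, dY_scl (Sm.D hu _)]; congr 1; field_simp

theorem Good.sol {k γ N : ℝ} {S : P → ℝ} (g : Good M ρ0 σ u) (hM : 1 ≤ M) (r0 : 0 < r) (r1 : r ≤ 1)
    (hr : 3 * r ≤ ρ0) (α0 : 0 < α) (α1 : α⁻¹ ≤ M) (hγ : 4 * M ^ 2 * r ≤ γ)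
    (hγ1 : γ ≤ 1 / 4) (sS : Sm S) (hσ : σ = scl (α ^ 2 * r ^ 2 * k ^ 2) r⁻¹ S)
    (hval : ∀ p : P, ‖p‖ ≤ 2 → |α⁻¹ * dY (dY u) (sc r p) - 1| ≤ γ)
    (bS : Bd S N) (bSX : Bd (dX S) N) (bSY : Bd (dY S) N) (bSYY : Bd (dY (dY S)) N)
    (bL : Bd (fun p => dX (dX S) p + (p.1 ^ 2 + p.2 ^ 2 - 1)) γ) (s0 : S 0 = 0) :
    Sol k (α ^ 2) (r ^ 2) γ N (scl (r ^ 2 * α)⁻¹ r u) S := by
  have su := g.su
  have hr0 : r ≠ 0 := r0.ne'
  set U := scl (r ^ 2 * α)⁻¹ r u with hU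
  have sU : Sm U := su.scl _ _
  have aα : |α⁻¹| ≤ M := by rw [abs_of_pos (by positivity)]; exact α1
  have Mr : M * r * M ≤ γ / 4 := by nlinarith
  have Mr' : M * r * r * M ≤ γ / 4 := by
    have : M * r * r * M ≤ M * r * 1 * M := by gcongr
    linarith
  have γ0 : 0 ≤ γ := le_trans (by positivity) hγ
  have bXX : Bd (dX (dX U)) (γ / 4) := by
    intro p hp
    rw [hU, U_XX su hr0]
    have := g.bxx.scl (by smo) r0 r1 hr (c := α⁻¹ * r ^ 2) (c' := M * r)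
      (abs_mul_le aα (by rw [abs_of_nonneg (sq_nonneg r)]; nlinarith)) (p := p) (by linarith)
    exact ⟨this.1.trans Mr, this.2.1.trans Mr', this.2.2.trans Mr'⟩
  have bXY : Bd (dX (dY U)) (γ / 4) := by
    intro p hp
    rw [hU, U_XY su hr0]
    have := g.bxy.scl (by smo) r0 r1 hr (c := α⁻¹ * r) (c' := M * r)
      (abs_mul_le aα (abs_of_pos r0).le) (p := p) (by linarith)
    exact ⟨this.1.trans Mr, this.2.1.trans Mr', this.2.2.trans Mr'⟩
  have bYY : Bd (fun p => dY (dY U) p - 1) γ := by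
    intro p hp
    rw [D_sub _ (by fun_prop) (by fun_prop), D_sub _ (by fun_prop) (by fun_prop), D_const, D_const,
      sub_zero, sub_zero, hU, U_YY su hr0]
    have := g.byy.scl (by smo) r0 r1 hr aα (p := p) (by linarith)
    exact ⟨hval p hp, this.2.1.trans (by linarith), this.2.2.trans (by linarith)⟩
  have x0 : dX U 0 = 0 := by rw [hU, U_X su hr0]; simp [scl, g.x0]
  have y0 : dY U 0 = 0 := by rw [hU, U_Y su hr0]; simp [scl, g.y0]
  refine ⟨sU, sS, ?_, ?_, bXX.mono (by linarith), bXY.mono (by linarith), bYY, bS, bSX, bSY, bSYY,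
    bL, x0, y0, s0, ?_⟩
  · intro p hp
    have a : ∀ p : P, ‖p‖ ≤ 2 → |dY (dX U) p| ≤ γ / 4 := fun p hp => by
      rw [D_comm sU]; exact (bXY p hp).1
    refine ⟨?_, (bXX p hp).1.trans (by linarith), (a p hp).trans (by linarith)⟩
    have := mvt_ball (f := dX U) (by fun_prop) (fun p hp => (bXX p hp).1) a hp (q := 0) (by simp)
    rw [x0, sub_zero, sub_zero] at this
    nlinarith
  · intro p hp
    have := mvt_ball (f := fun p => dY U p - p.2) (by fun_prop) (ρ := 2) (c := γ)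
      (fun p hp => by dexp; rw [sub_zero]; exact (bXY p hp).1.trans (by linarith))
      (fun p hp => by dexp; exact (bYY p hp).1) hp (q := 0) (by simp)
    simp only [y0, Prod.snd_zero, sub_zero] at this
    have b := abs_add_le' this (abs_snd_le hp)
    rw [sub_add_cancel] at b
    have c := abs_le.1 (bYY p hp).1
    refine ⟨b.trans (by nlinarith), (bXY p hp).1.trans (by linarith), ?_⟩
    rw [abs_le]; constructor <;> linarith
  · intro p hp
    have r2 : r ^ 2 ≤ r := by nlinarith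
    have hq : ‖sc r p‖ ≤ ρ0 := (norm_sc_le r0.le le_rfl r2 p).trans (by nlinarith)
    have e := g.eq _ hq
    unfold H11 H22 H12 W1 W2 LL Th at e ⊢
    rw [hU, U_XX su hr0, U_XY su hr0, U_YY su hr0, U_X su hr0, U_Y su hr0]
    rw [hσ, dX_scl sS, dY_scl sS, dX_scl (Sm.D sS _), dY_scl (Sm.D sS _)] at e
    simp only [scl, sc_sc hr0] at e ⊢
    rw [show 2 * 1 * (α ^ 2 * r ^ 2 * k ^ 2 * S p) = 2 * (α ^ 2 * r ^ 2 * k ^ 2) * S p by ring] at e
    generalize Real.exp _ = ex at e ⊢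
    have α0' := α0.ne'
    field_simp
    field_simp at e
    linear_combination e

theorem Good.val_le (g : Good M ρ0 σ u) (r0 : 0 < r) (r1 : r ≤ 1) (hr : 3 * r ≤ ρ0) {p : P}
    (hp : ‖p‖ ≤ 2) : |scl (r ^ 2)⁻¹ r u p| ≤ 16 * M := by
  have su := g.su
  have r2 : r ^ 2 ≤ r := by nlinarith
  have M0 : 0 ≤ M := (abs_nonneg _).trans (g.bxx 0 (by simp; linarith)).1
  have hq : ‖sc r p‖ ≤ 2 * r := (norm_sc_le r0.le le_rfl r2 p).trans (by nlinarith)
  have a : ∀ q : P, ‖q‖ ≤ 2 * r → |dX u q| ≤ 4 * M * r := fun q hq => by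
    have := mvt_ball (f := dX u) (by fun_prop) (ρ := 2 * r) (c := M)
      (fun p hp => (g.bxx p (by linarith)).1)
      (fun p hp => by rw [D_comm su]; exact (g.bxy p (by linarith)).1) hq (q := 0)
      (by simp; linarith)
    rw [g.x0, sub_zero, sub_zero] at this
    nlinarith
  have b : ∀ q : P, ‖q‖ ≤ 2 * r → |dY u q| ≤ 4 * M * r := fun q hq => by
    have := mvt_ball (f := dY u) (by fun_prop) (ρ := 2 * r) (c := M)
      (fun p hp => (g.bxy p (by linarith)).1)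
      (fun p hp => (g.byy p (by linarith)).1) hq (q := 0) (by simp; linarith)
    rw [g.y0, sub_zero, sub_zero] at this
    nlinarith
  have c := mvt_ball su.diff a b hq (q := 0) (by simp; linarith)
  rw [g.u0, sub_zero, sub_zero] at c
  unfold scl
  rw [abs_mul, abs_of_pos (by positivity), inv_mul_le_iff₀ (by positivity)]
  calc _ ≤ 2 * (4 * M * r) * (2 * r) := c.trans (by gcongr)
    _ = _ := by ring

end

theorem abs_avg_le {v : P → ℝ} {n : ℕ} (hn : 0 < n) {V : ℝ} (hV : ∀ p : P, ‖p‖ ≤ 2 → |v p| ≤ V)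
    (i j : Fin n) : |avg v (gc n i) (gc n j) (4 / n)| ≤ V := by
  have hn' : (0 : ℝ) < n := by exact_mod_cast hn
  have hs : (0 : ℝ) < 4 / n := by positivity
  unfold avg
  rw [abs_div, abs_of_pos hs, div_le_iff₀ hs]
  have := norm_setIntegral_le_of_norm_le_const (μ := (volume : Measure ℝ))
    (s := Ico (gc n j) (gc n j + 4 / n)) (f := fun y => v (gc n i, y)) (C := V)
    measure_Ico_lt_top fun y hy => hV _ (norm_le_of_abs (gc_mem hn i).1 (by
      have a := abs_le.1 (gc_mem hn j).1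
      have b := (gc_mem hn j).2
      rw [abs_le]; constructor <;> linarith [hy.1, hy.2]))
  rw [Real.volume_real_Ico_of_le (by linarith), add_sub_cancel_left] at this
  exact this

theorem avg_sub {f g : P → ℝ} (hf : Continuous f) (hg : Continuous g) (c a b s : ℝ) :
    avg (fun p => c * f p - c * g p) a b s = c * (avg f a b s - avg g a b s) := by
  unfold avg
  have i1 : IntegrableOn (fun y => f (a, y)) (Ico b (b + s)) :=
    integrableOn_Ico_of_cont (by fun_prop) _ _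
  have i2 : IntegrableOn (fun y => g (a, y)) (Ico b (b + s)) :=
    integrableOn_Ico_of_cont (by fun_prop) _ _
  rw [integral_sub (i1.const_mul c) (i2.const_mul c), integral_const_mul, integral_const_mul]
  ring

theorem exists_gc' {n : ℕ} (hn : 2 ≤ n) {x : ℝ} (hx : |x| ≤ 2) :
    ∃ i : Fin n, |x - gc n i| ≤ 6 / n := by
  have hn' : (2 : ℝ) ≤ n := by exact_mod_cast hn
  have h1 : 1 / (n : ℝ) ≤ 1 / 2 := by gcongr
  have h0 : 0 < 1 / (n : ℝ) := by positivity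
  have h2 : |x * (1 - 1 / n)| < 2 := by
    have := abs_mul_le hx (abs_of_nonneg (by linarith : 0 ≤ 1 - 1 / (n : ℝ))).le
    linarith
  obtain ⟨i, hi⟩ := exists_gc (n := n) (by omega) h2
  refine ⟨i, ?_⟩
  have a := abs_le.1 (abs_mul_le hx (abs_of_pos h0).le)
  have e6 : 6 / (n : ℝ) = 6 * (1 / n) := by ring
  have e4 : 4 / (n : ℝ) = 4 * (1 / n) := by ring
  rw [abs_le, e6]
  have b := hi.1
  have c := hi.2
  rw [e4] at c
  constructor <;> nlinarith

theorem close_of_corners {ρ0 M r η : ℝ} {g1 g2 : P → ℝ} (h1 : B3 ρ0 g1 M) (h2 : B3 ρ0 g2 M)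
    (s1 : Sm g1) (s2 : Sm g2) (r0 : 0 < r) (r1 : r ≤ 1) (hr : 3 * r ≤ ρ0) {n : ℕ} (hn : 2 ≤ n)
    (hc : ∀ i j : Fin n, |g1 (sc r (gc n i, gc n j)) - g2 (sc r (gc n i, gc n j))| ≤ η)
    {p : P} (hp : ‖p‖ ≤ 2) : |g1 (sc r p) - g2 (sc r p)| ≤ η + 24 * M / n := by
  obtain ⟨i, hi⟩ := exists_gc' hn (abs_fst_le hp)
  obtain ⟨j, hj⟩ := exists_gc' hn (abs_snd_le hp)
  have r2 : r ^ 2 ≤ r := by nlinarith
  have M0 : 0 ≤ M := (abs_nonneg _).trans (h1 0 (by simp; linarith)).1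
  set c : P := (gc n i, gc n j) with hcd
  have hcn : ‖c‖ ≤ 2 := norm_le_of_abs (gc_mem (by omega) i).1 (gc_mem (by omega) j).1
  have hq : ‖sc r p‖ ≤ ρ0 := (norm_sc_le r0.le le_rfl r2 p).trans (by nlinarith)
  have hq' : ‖sc r c‖ ≤ ρ0 := (norm_sc_le r0.le le_rfl r2 c).trans (by nlinarith)
  have hd : ‖sc r p - sc r c‖ ≤ 6 / n := by
    rw [← map_sub]
    refine (norm_sc_le r0.le r1 (r2.trans r1) _).trans ?_
    rw [one_mul]; exact norm_le_of_abs hi hj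
  have a := (h1.lip s1 hq hq').trans (mul_le_mul_of_nonneg_left hd (by positivity))
  have b := (h2.lip s2 hq hq').trans (mul_le_mul_of_nonneg_left hd (by positivity))
  have := abs_sub_le' (abs_add_le' a (hc i j)) b
  refine le_trans (le_of_eq ?_) (this.trans (le_of_eq (by ring)))
  congr 1; ring

theorem island {M : ℝ} (hM : 1 ≤ M) (N0 : ℕ) {ε ρ0 : ℝ} (hε : 0 < ε) (hρ0 : 0 < ρ0) :
    ∃ σ : P → ℝ, Sm σ ∧ (∀ p, ρ0 ≤ ‖p‖ → σ p = 0) ∧ Nb σ N0 ε ∧ dX σ 0 = 0 ∧ dY σ 0 = 0 ∧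
      ∀ u, ¬ Good M ρ0 σ u := by
  obtain ⟨B, hB1, hB⟩ := exists_Nb_bmp (N0 + 3)
  obtain ⟨B1, hB11, hS0⟩ := exists_Nb Sig0_smooth
    (hasCompactSupport_of_ball 4 fun p hp => Sig0_off hp.le) (N0 + 3)
  obtain ⟨N, N1, N2⟩ : ∃ N : ℝ, B1 + 1 ≤ N ∧ M ^ 2 ≤ N := ⟨max _ _, le_max_left _ _, le_max_right _ _⟩
  have N0' : 1 ≤ N := by linarith
  have M2 : 1 ≤ M ^ 2 := one_le_pow₀ hM
  obtain ⟨r, r0, r1, r4, rN⟩ : ∃ r : ℝ, 0 < r ∧ r ≤ 1 ∧ 4 * r ≤ ρ0 ∧
      N ^ 2 * (5 * M ^ 2 * r) ≤ 1 / 10 ^ 7 := by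
    refine ⟨min 1 (min (ρ0 / 4) (1 / (10 ^ 7 * (5 * N ^ 2 * M ^ 2)))), by positivity,
      min_le_left _ _, ?_, ?_⟩
    · have := (min_le_right 1 _).trans (min_le_left (ρ0 / 4) (1 / (10 ^ 7 * (5 * N ^ 2 * M ^ 2))))
      linarith
    · have := (min_le_right 1 _).trans (min_le_right (ρ0 / 4) (1 / (10 ^ 7 * (5 * N ^ 2 * M ^ 2))))
      calc _ ≤ N ^ 2 * (5 * M ^ 2 * (1 / (10 ^ 7 * (5 * N ^ 2 * M ^ 2)))) := by gcongr
        _ = _ := by field_simp
  set γ := 5 * M ^ 2 * r with hγ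
  have γ0 : 0 < γ := by positivity
  have γ1 : γ ≤ 1 / 4 := by
    have : 1 ≤ N ^ 2 := one_le_pow₀ N0'
    nlinarith
  have r2 : r ^ 2 ≤ r := by nlinarith
  have hr0 := r0.ne'
  obtain ⟨k0, k0p, k01, k02, k03⟩ : ∃ k0 : ℝ, 0 < k0 ∧ k0 * M ≤ 1 / 100 ∧ k0 ≤ r ∧
      k0 * (N * (r⁻¹ ^ 2) ^ N0) ≤ ε := by
    refine ⟨min (1 / (100 * M)) (min r (ε / (N * (r⁻¹ ^ 2) ^ N0))), by positivity, ?_,
      (min_le_right _ _).trans (min_le_left _ _), ?_⟩
    · calc _ ≤ 1 / (100 * M) * M := by gcongr; exact min_le_left _ _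
        _ = _ := by field_simp
    · rw [← le_div_iff₀ (by positivity)]
      exact (min_le_right _ _).trans (min_le_right _ _)
  have k0' : k0 ≤ 1 := k02.trans r1
  set km := k0 / M with hkm
  have kmp : 0 < km := by positivity
  have B0p := B0_pos
  have ev := fun K => (tendsto_natCast_atTop_atTop (R := ℝ)).eventually_ge_atTop K
  obtain ⟨J, hfin, j1, j2, j3, j4, j5, j6⟩ := ((num_final kmp (ρ := r ^ 2) (by positivity) hB1 hM
    (N0 + 4)).and ((ev (35 * M)).and ((ev (220000 * B0 / km ^ 2)).and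
    ((ev (10 ^ 7 * (M * (1 + 24 * M)) / km ^ 2)).and ((ev (252 * B * 9 / r ^ 2)).and
    ((ev B).and (ev (B / γ)))))))).exists
  set x : ℝ := (J : ℝ) with hx
  have x9 : 35 ≤ x := by linarith
  have x0 : 0 < x := by linarith
  have x1 : 1 ≤ x := by linarith
  have J2 : 2 ≤ J := by
    have : (2 : ℝ) ≤ J := by linarith
    exact_mod_cast this
  set l : ℝ := 1 / x ^ 66 with hl
  set R : ℝ := 1 / x ^ 33 with hR
  set δ := l ^ (N0 + 4) with hδ
  have l0 : 0 < l := by positivity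
  have δ0 : 0 < δ := by positivity
  have l1 : l ≤ 1 := by rw [hl]; exact div_le_one_of_le₀ (one_le_pow₀ x1) (by positivity)
  have hmm : ((J ^ 6 : ℕ) : ℝ) = x ^ 6 := by push_cast; rfl
  have hh1 : (8 * ((J ^ 6 : ℕ) : ℝ) + 1) * l ≤ 9 / x ^ 60 := by
    have : 1 ≤ x ^ 6 := one_le_pow₀ x1
    calc _ ≤ (9 * x ^ 6) * l := by rw [hmm]; gcongr; linarith
      _ = _ := by rw [hl]; field_simp
  have hh2 : 9 / x ^ 60 ≤ 9 / x := by
    gcongr; exact le_self_pow₀ x1 (by norm_num)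
  have hh3 : 9 / x ^ 60 ≤ R := by
    rw [hR, div_le_div_iff₀ (by positivity) (by positivity)]
    calc 9 * x ^ 33 ≤ x * x ^ 33 := by gcongr; linarith
      _ = x ^ 34 := by ring
      _ ≤ x ^ 60 := pow_le_pow_right₀ x1 (by norm_num)
      _ = _ := by ring
  have hR1 : R ≤ 1 / 4 := by
    rw [hR]; gcongr
    exact le_trans (by linarith) (le_self_pow₀ x1 (by norm_num))
  set co : (Fin (J ^ 6) → Bool) → Fin (J ^ 6) → ℝ := fun a j => if a j then 1 else 0 with hco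
  have co1 : ∀ a j, |co a j| ≤ 1 := fun a j => by simp only [hco]; split_ifs <;> simp
  have nP : ∀ a, Nb (pert l δ (co a)) (N0 + 3) (B / x) := fun a => by
    refine (Nb_pert δ0.le (co1 a) fun y0 => hB l y0 l0 l1 _ le_rfl).mono le_rfl ?_
    calc _ = B / x ^ 60 := by rw [hδ, hmm, pow_succ l (N0 + 3), hl]; field_simp
      _ ≤ B / x := by gcongr; exact le_self_pow₀ x1 (by norm_num)
  have Bx1 : B / x ≤ 1 := by rw [div_le_one x0]; exact j5
  have Bxγ : B / x ≤ γ := by rw [div_le_iff₀ γ0] at j6; rw [div_le_iff₀ x0]; linarith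
  set S : (Fin (J ^ 6) → Bool) → P → ℝ := fun a p => Sig0 p + pert l δ (co a) p with hS
  have sS : ∀ a, Sm (S a) := fun a => by simp only [hS]; smo
  have nS : ∀ a, Nb (S a) (N0 + 3) N := fun a =>
    (hS0.add (nP a) Sig0_smooth (pert_smooth _ _ _)).mono le_rfl (by linarith)
  have Sev : ∀ a, S a =ᶠ[nhds 0] Sig0 := fun a => by
    filter_upwards [pert_ev0 (δ := δ) l0 (co a)] with p hp
    simp [hS, hp]
  by_contra hcon
  push Not at hcon
  have ex : ∀ a, ∃ u, Good M ρ0 (scl (k0 ^ 2 * r ^ 2) r⁻¹ (S a)) u := by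
    intro a
    refine hcon _ ((sS a).scl _ _) ?_ ?_ ?_ ?_
    · intro p hp
      have h1 := norm_sc_le r0.le le_rfl r2 (sc r⁻¹ p)
      rw [sc_sc' hr0] at h1
      have h2 : 4 ≤ ‖sc r⁻¹ p‖ := by
        by_contra h
        push Not at h
        nlinarith
      simp only [scl, hS]
      rw [Sig0_off h2, pert_off l0, add_zero, mul_zero]
      intro h
      have hm := mem_Rec.1 h
      have := norm_le_of_abs (hm.1.trans (l1.trans (by norm_num : (1 : ℝ) ≤ 1)))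
        (hm.2.trans (by linarith : _ ≤ (1 : ℝ)))
      linarith
    · have ri : 1 ≤ r⁻¹ := by rw [le_inv_comm₀ one_pos r0]; simpa using r1
      have ri2 : r⁻¹ ≤ r⁻¹ ^ 2 := le_self_pow₀ ri (by norm_num)
      have := (((nS a).mono (by omega : N0 ≤ N0 + 3) le_rfl).comp_clm (sS a) (sc r⁻¹) (L := r⁻¹ ^ 2)
        (ContinuousLinearMap.opNorm_le_bound _ (by positivity)
          (norm_sc_le (by positivity) ri2 le_rfl)) (ri.trans ri2)).cmul
        ((sS a).comp (sc r⁻¹).contDiff) (a := k0 ^ 2 * r ^ 2) (b := k0) (by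
          rw [abs_of_pos (by positivity)]
          calc k0 ^ 2 * r ^ 2 ≤ k0 ^ 2 * 1 := by gcongr; linarith
            _ ≤ k0 := by nlinarith)
      exact this.mono le_rfl k03
    · rw [dX_scl (sS a)]
      simp [scl, D_congr (Sev a), Sig0_X0]
    · rw [dY_scl (sS a)]
      simp [scl, D_congr (Sev a), Sig0_Y0]
  choose u hu using ex
  have n2 : 2 ≤ J ^ 2 := le_trans J2 (Nat.le_self_pow (by norm_num) J)
  have r3 : 3 * r ≤ ρ0 := by linarith
  have hcn : ∀ i j : Fin (J ^ 2), ‖sc r (gc _ i, gc _ j)‖ ≤ ρ0 := fun i j =>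
    (norm_sc_le r0.le le_rfl r2 _).trans (by
      have : ‖((gc _ i, gc _ j) : P)‖ ≤ 2 :=
        norm_le_of_abs (gc_mem (by omega) i).1 (gc_mem (by omega) j).1
      nlinarith)
  obtain ⟨a, b, hab, cl⟩ := pigeon (α := Fin (J ^ 6) → Bool) (ι := Fin (J ^ 2) × Fin (J ^ 2) × Fin 4)
    (fun a t => ![avg (scl (r ^ 2)⁻¹ r (u a)) (gc _ t.1) (gc _ t.2.1) (4 / (J ^ 2 : ℕ)),
      dX (dX (u a)) (sc r (gc _ t.1, gc _ t.2.1)), dX (dY (u a)) (sc r (gc _ t.1, gc _ t.2.1)),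
      dY (dY (u a)) (sc r (gc _ t.1, gc _ t.2.1))] t.2.2) (V := 16 * M) (η := 1 / 2 ^ J)
    (by positivity) (by
      rintro a ⟨i, j, t⟩
      fin_cases t
      · exact abs_avg_le (by omega) (fun p hp => (hu a).val_le r0 r1 r3 hp) i j
      · exact ((hu a).bxx _ (hcn i j)).1.trans (by linarith)
      · exact ((hu a).bxy _ (hcn i j)).1.trans (by linarith)
      · exact ((hu a).byy _ (hcn i j)).1.trans (by linarith)) (by
      simpa [mul_assoc] using card_ineq hM j1)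
  set α := dY (dY (u a)) 0 with hα
  have α1 : 1 / M ≤ α := (hu a).yy
  have α2 : α ≤ M := (le_abs_self _).trans ((hu a).byy 0 (by simpa using hρ0.le)).1
  have α0 : 0 < α := lt_of_lt_of_le (by positivity) α1
  have αi : α⁻¹ ≤ M := by rw [inv_le_comm₀ α0 (by positivity)]; simpa using α1
  have aα : |α⁻¹| ≤ M := by rw [abs_of_pos (by positivity)]; exact αi
  set k := k0 / α with hk
  have kp : 0 < k := by positivity
  have k1 : km ≤ k := by rw [hkm, hk]; gcongr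
  have k2 : k ≤ k0 * M := by rw [hk, div_eq_mul_inv]; gcongr
  have q : Par k (α ^ 2) (r ^ 2) γ N :=
    ⟨kp, k2.trans k01, N0', sq_nonneg _, le_trans (by gcongr) N2, sq_nonneg _, by nlinarith, rN⟩
  have hη : M * (1 / 2 ^ J + 24 * M / (J ^ 2 : ℕ)) ≤ k ^ 2 / 10 ^ 7 := by
    have h1 : x ≤ 2 ^ J := by rw [hx]; exact_mod_cast (Nat.lt_two_pow_self (n := J)).le
    have h2 : x ≤ (J ^ 2 : ℕ) := by push_cast; exact le_self_pow₀ x1 (by norm_num)
    rw [div_le_iff₀ (by positivity)] at j3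
    calc _ ≤ M * (1 / x + 24 * M / x) := by gcongr
      _ = M * (1 + 24 * M) / x := by ring
      _ ≤ km ^ 2 / 10 ^ 7 := by rw [div_le_div_iff₀ x0 (by positivity)]; linarith
      _ ≤ _ := by gcongr
  have clo : ∀ {g1 g2 : P → ℝ}, B3 ρ0 g1 M → B3 ρ0 g2 M → Sm g1 → Sm g2 →
      (∀ i j : Fin (J ^ 2), |g1 (sc r (gc _ i, gc _ j)) - g2 (sc r (gc _ i, gc _ j))| ≤ 1 / 2 ^ J) →
      ∀ c : ℝ, |c| ≤ M → ∀ p : P, ‖p‖ ≤ 2 → |scl c r g1 p - scl c r g2 p| ≤ k ^ 2 / 10 ^ 7 := by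
    intro g1 g2 h1 h2 s1 s2 hc c hcM p hp
    unfold scl
    rw [← mul_sub]
    exact (abs_mul_le hcM (close_of_corners h1 h2 s1 s2 r0 r1 r3 n2 hc hp)).trans hη
  have sa := (hu a).su
  have sb := (hu b).su
  have cXX := clo (hu a).bxx (hu b).bxx (by smo) (by smo) (fun i j => cl (i, j, 1)) (α⁻¹ * r ^ 2)
    ((abs_mul_le aα ((abs_of_nonneg (sq_nonneg r)).le.trans (r2.trans r1))).trans (by linarith))
  have cXY := clo (hu a).bxy (hu b).bxy (by smo) (by smo) (fun i j => cl (i, j, 2)) (α⁻¹ * r)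
    ((abs_mul_le aα ((abs_of_pos r0).le.trans r1)).trans (by linarith))
  have cYY := clo (hu a).byy (hu b).byy (by smo) (by smo) (fun i j => cl (i, j, 3)) α⁻¹ aα
  have va : ∀ p : P, ‖p‖ ≤ 2 → |α⁻¹ * dY (dY (u a)) (sc r p) - 1| ≤ 4 * M ^ 2 * r := by
    intro p hp
    have hq : ‖sc r p‖ ≤ 2 * r := (norm_sc_le r0.le le_rfl r2 p).trans (by nlinarith)
    have := (hu a).byy.lip (by smo) (hq.trans (by linarith)) (q := 0) (by simpa using hρ0.le)
    rw [sub_zero, ← hα] at this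
    have e : α⁻¹ * dY (dY (u a)) (sc r p) - 1 = α⁻¹ * (dY (dY (u a)) (sc r p) - α) := by
      field_simp
    rw [e]
    refine (abs_mul_le aα this).trans ?_
    calc _ ≤ M * (2 * M * (2 * r)) := by gcongr
      _ = _ := by ring
  have vb : ∀ p : P, ‖p‖ ≤ 2 → |α⁻¹ * dY (dY (u b)) (sc r p) - 1| ≤ γ := by
    intro p hp
    have := abs_sub_le' (va p hp) (cYY p hp)
    have kk : k ^ 2 ≤ M ^ 2 * r := by
      calc k ^ 2 ≤ (k0 * M) ^ 2 := by gcongr
        _ = M ^ 2 * (k0 * k0) := by ring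
        _ ≤ M ^ 2 * (1 * r) := by gcongr
        _ = _ := by ring
    refine le_trans (le_of_eq ?_) (this.trans (by nlinarith [sq_nonneg k]))
    unfold scl; congr 1; ring
  have sol : ∀ c, (∀ p : P, ‖p‖ ≤ 2 → |α⁻¹ * dY (dY (u c)) (sc r p) - 1| ≤ γ) →
      Sol k (α ^ 2) (r ^ 2) γ N (scl (r ^ 2 * α)⁻¹ r (u c)) (S c) := by
    intro c hv
    have sc' := sS c
    have n3 : Nb (S c) 3 N := (nS c).mono (by omega) le_rfl
    refine (hu c).sol hM r0 r1 r3 α0 αi (by nlinarith) γ1 sc' ?_ hv (n3.bd sc')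
      ((n3.dx sc').bd (by smo)) ((n3.dy sc').bd (by smo))
      (((n3.dy sc').dy (by smo)).bd (by smo)) ?_ ?_
    · congr 1; rw [hk]; field_simp
    · have sp : Sm (pert l δ (co c)) := pert_smooth _ _ _
      have s0 : Sm Sig0 := Sig0_smooth
      have p3 : Nb (pert l δ (co c)) 3 γ := (nP c).mono (by omega) Bxγ
      refine (((p3.dx sp).dx (by smo)).bd (by smo)).congr fun p hp => ?_
      have : dX (S c) = fun p => dX Sig0 p + dX (pert l δ (co c)) p :=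
        funext fun p => D_add _ (s0.diff p) (sp.diff p)
      rw [this, D_add _ (by fun_prop) (by fun_prop), Sig0_XX (by linarith)]
      ring
    · rw [(Sev c).self_of_nhds]; simp [Sig0]
  obtain ⟨j0, hj0⟩ := Function.ne_iff.1 hab
  have key := scaled_ineq q (sol a fun p hp => (va p hp).trans (by nlinarith)) (sol b vb)
    (j0 := j0) (B := B) (η := M * (1 / 2 ^ J)) (R := R) (n := J ^ 2) (J := J)
    (fun j => by simp only [hco]; split_ifs <;> simp)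
    (by simp only [hco]; cases ha : a j0 <;> cases hb : b j0 <;> simp_all)
    l0 δ0 hB1 (fun y0 i hi => hB l y0 l0 l1 i (by omega))
    (fun p hp => by
      rw [U_XX sa hr0, U_XX sb hr0, U_XY sa hr0, U_XY sb hr0, U_YY sa hr0, U_YY sb hr0]
      exact ⟨cXX p hp, cXY p hp, cYY p hp⟩)
    (by omega)
    (by
      push_cast
      calc 220000 * B0 * x / k ^ 2 ≤ 220000 * B0 * x / km ^ 2 := by gcongr
        _ = 220000 * B0 / km ^ 2 * x := by ring
        _ ≤ x * x := by gcongr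
        _ = _ := by ring)
    (fun i j => by
      have e : (fun p => scl (r ^ 2 * α)⁻¹ r (u a) p - scl (r ^ 2 * α)⁻¹ r (u b) p) =
          fun p => α⁻¹ * scl (r ^ 2)⁻¹ r (u a) p - α⁻¹ * scl (r ^ 2)⁻¹ r (u b) p := by
        funext p; unfold scl; field_simp
      rw [e, avg_sub (sa.scl _ _).cont (sb.scl _ _).cont]
      exact abs_mul_le aα (cl (i, j, 0)))
    (hh1.trans hh3) hR1
    (by
      rw [div_le_iff₀ (by positivity)] at j4
      calc _ ≤ 252 * B * (9 / x) := by gcongr; exact hh1.trans hh2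
        _ = 252 * B * 9 / x := by ring
        _ ≤ _ := by rw [div_le_iff₀ x0]; linarith)
  exact absurd key (not_le.2 (hfin k l R δ k1 rfl rfl rfl))

end Crest.Agent.R220
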