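import Crest.Agent.R220.Detect

/-! From two solutions of the rescaled Darboux equation to the linear equation. -/

set_option autoImplicit false
open scoped ContDiff
open MeasureTheory Set

namespace Crest.Agent.R220

noncomputable def W1 (ρ : ℝ) (U S : P → ℝ) (p : P) : ℝ := dX U p * dX S p - ρ * (dY U p * dY S p)
noncomputable def W2 (U S : P → ℝ) (p : P) : ℝ := dX U p * dY S p + dY U p * dX S p
noncomputable def H11 (t ρ : ℝ) (U S : P → ℝ) (p : P) : ℝ := dX (dX U) p - t * W1 ρ U S p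
noncomputable def H22 (κ ρ : ℝ) (U S : P → ℝ) (p : P) : ℝ := dY (dY U) p + κ * W1 ρ U S p
noncomputable def H12 (t : ℝ) (U S : P → ℝ) (p : P) : ℝ := dX (dY U) p - t * W2 U S p
noncomputable def LL (ρ : ℝ) (S : P → ℝ) (p : P) : ℝ := dX (dX S) p + ρ * dY (dY S) p
noncomputable def Th (t m ρ : ℝ) (U S : P → ℝ) (p : P) : ℝ :=
  Real.exp (2 * t * S p) - m * (dX U p * dX U p + ρ * (dY U p * dY U p))

/-- numerical side conditions -/
structure Par (k m ρ γ N : ℝ) : Prop where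
  k0 : 0 < k
  k1 : k ≤ 1 / 100
  N1 : 1 ≤ N
  m0 : 0 ≤ m
  mN : m ≤ N
  ρ0 : 0 ≤ ρ
  ργ : ρ ≤ γ
  small : N ^ 2 * γ ≤ 1 / 10 ^ 7

/-- a normalised solution of the rescaled equation -/
structure Sol (k m ρ γ N : ℝ) (U S : P → ℝ) : Prop where
  sU : Sm U
  sS : Sm S
  bX : Bd (dX U) γ
  bY : Bd (dY U) 3
  bXX : Bd (dX (dX U)) γ
  bXY : Bd (dX (dY U)) γ
  bYY : Bd (fun p => dY (dY U) p - 1) γ
  bS : Bd S N
  bSX : Bd (dX S) N
  bSY : Bd (dY S) N
  bSYY : Bd (dY (dY S)) N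
  bL : Bd (fun p => dX (dX S) p + (p.1 ^ 2 + p.2 ^ 2 - 1)) γ
  x0 : dX U 0 = 0
  y0 : dY U 0 = 0
  s0 : S 0 = 0
  eq : ∀ p : P, ‖p‖ < 5 / 2 →
    H11 (m * ρ * k ^ 2) ρ U S p * H22 (m * k ^ 2) ρ U S p - H12 (m * ρ * k ^ 2) U S p ^ 2 =
      -(k ^ 2 * (LL ρ S p * Th (m * ρ * k ^ 2) m ρ U S p))

variable {k m ρ γ N : ℝ} {U S : P → ℝ}

theorem Par.γ0 (h : Par k m ρ γ N) : 0 ≤ γ := h.ρ0.trans h.ργ
theorem Par.k2 (h : Par k m ρ γ N) : k ^ 2 ≤ 1 / 10000 := by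
  have := h.k0; have := h.k1; nlinarith
theorem Par.Nγ (h : Par k m ρ γ N) : N * γ ≤ 1 / 10 ^ 7 := by
  have := h.N1; have := h.γ0; have := h.small
  have : N * γ ≤ N ^ 2 * γ := by gcongr; nlinarith
  linarith
theorem Par.γ1 (h : Par k m ρ γ N) : γ ≤ 1 / 10 ^ 7 := by
  have := h.N1; have := h.γ0; have := h.Nγ; nlinarith
theorem Par.abs_κ (h : Par k m ρ γ N) : |m * k ^ 2| ≤ N * k ^ 2 := by
  have := h.m0; have := h.mN
  rw [abs_of_nonneg (by positivity)]; gcongr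
theorem Par.abs_t (h : Par k m ρ γ N) : |m * ρ * k ^ 2| ≤ N * γ * k ^ 2 := by
  have := h.m0; have := h.mN; have := h.ρ0; have := h.ργ
  rw [abs_of_nonneg (by positivity)]; gcongr; linarith
theorem Par.abs_ρ (h : Par k m ρ γ N) : |ρ| ≤ γ := by
  rw [abs_of_nonneg h.ρ0]; exact h.ργ
theorem Par.abs_m (h : Par k m ρ γ N) : |m| ≤ N := by
  rw [abs_of_nonneg h.m0]; exact h.mN

theorem sm_W1 (hU : Sm U) (hS : Sm S) (ρ : ℝ) : Sm (W1 ρ U S) := by unfold W1; smo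
theorem sm_W2 (hU : Sm U) (hS : Sm S) : Sm (W2 U S) := by unfold W2; smo
theorem sm_H11 (hU : Sm U) (hS : Sm S) (t ρ : ℝ) : Sm (H11 t ρ U S) := by
  have := sm_W1 hU hS ρ; unfold H11; smo
theorem sm_H22 (hU : Sm U) (hS : Sm S) (t ρ : ℝ) : Sm (H22 t ρ U S) := by
  have := sm_W1 hU hS ρ; unfold H22; smo
theorem sm_H12 (hU : Sm U) (hS : Sm S) (t : ℝ) : Sm (H12 t U S) := by
  have := sm_W2 hU hS; unfold H12; smo
theorem sm_LL (hS : Sm S) (ρ : ℝ) : Sm (LL ρ S) := by unfold LL; smo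
theorem sm_Th (hU : Sm U) (hS : Sm S) (t m ρ : ℝ) : Sm (Th t m ρ U S) := by unfold Th; smo

theorem Sol.bW1 (q : Par k m ρ γ N) (h : Sol k m ρ γ N U S) : Bd (W1 ρ U S) (8 * γ * N) := by
  have sU := h.sU
  have sS := h.sS
  refine ((h.bX.mul h.bSX (by smo) (by smo)).sub
    ((h.bY.mul h.bSY (by smo) (by smo)).cmul (by smo) q.abs_ρ) (by smo) (by smo)).mono ?_
  exact le_of_eq (by ring)

theorem Sol.bW2 (q : Par k m ρ γ N) (h : Sol k m ρ γ N U S) : Bd (W2 U S) (8 * N) := by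
  have sU := h.sU
  have sS := h.sS
  refine ((h.bX.mul h.bSY (by smo) (by smo)).add
    (h.bY.mul h.bSX (by smo) (by smo)) (by smo) (by smo)).mono ?_
  have := q.γ1; have := q.N1
  nlinarith

theorem Sol.bκW (q : Par k m ρ γ N) (h : Sol k m ρ γ N U S) :
    Bd (fun p => m * k ^ 2 * W1 ρ U S p) (8 / 10 ^ 7 * k ^ 2) := by
  refine ((h.bW1 q).cmul (sm_W1 h.sU h.sS ρ) q.abs_κ).mono ?_
  have := q.small
  nlinarith [sq_nonneg k]

theorem Sol.btW (q : Par k m ρ γ N) (h : Sol k m ρ γ N U S) :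
    Bd (fun p => m * ρ * k ^ 2 * W1 ρ U S p) (γ * k ^ 2) := by
  refine ((h.bW1 q).cmul (sm_W1 h.sU h.sS ρ) q.abs_t).mono ?_
  have := q.small
  have : 0 ≤ γ * k ^ 2 := mul_nonneg q.γ0 (sq_nonneg k)
  nlinarith

theorem Sol.btW' (q : Par k m ρ γ N) (h : Sol k m ρ γ N U S) :
    Bd (fun p => m * ρ * k ^ 2 * W2 U S p) (8 / 10 ^ 7 * k ^ 2) := by
  refine ((h.bW2 q).cmul (sm_W2 h.sU h.sS) q.abs_t).mono ?_
  have := q.small
  nlinarith [sq_nonneg k]

theorem Sol.bH22 (q : Par k m ρ γ N) (h : Sol k m ρ γ N U S) :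
    Bd (fun p => H22 (m * k ^ 2) ρ U S p - 1) (2 / 10 ^ 7) := by
  have sU := h.sU
  have := sm_W1 h.sU h.sS ρ
  refine ((h.bYY.add (h.bκW q) (by smo) (by smo)).congr fun p _ => ?_).mono ?_
  · unfold H22; ring
  · have := q.γ1; have := q.k2; linarith

theorem Sol.bH11 (q : Par k m ρ γ N) (h : Sol k m ρ γ N U S) :
    Bd (H11 (m * ρ * k ^ 2) ρ U S) (2 * γ) := by
  have sU := h.sU
  have := sm_W1 h.sU h.sS ρ
  refine (h.bXX.sub (h.btW q) (by smo) (by smo)).mono ?_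
  have := q.γ0; have := q.k2; nlinarith

theorem Sol.bH12 (q : Par k m ρ γ N) (h : Sol k m ρ γ N U S) :
    Bd (H12 (m * ρ * k ^ 2) U S) (2 / 10 ^ 7) := by
  have sU := h.sU
  have := sm_W2 h.sU h.sS
  refine (h.bXY.sub (h.btW' q) (by smo) (by smo)).mono ?_
  have := q.γ1; have := q.k2; linarith

theorem bd_L0 : Bd (fun p => p.1 ^ 2 + p.2 ^ 2 - 1) 8 := fun p hp => by
  have a := abs_fst_le hp
  have b := abs_snd_le hp
  dexp
  have a' := abs_le.1 a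
  have b' := abs_le.1 b
  refine ⟨?_, ?_, ?_⟩ <;> rw [abs_le] <;> constructor <;> nlinarith

theorem Sol.bLe (q : Par k m ρ γ N) (h : Sol k m ρ γ N U S) :
    Bd (fun p => LL ρ S p + (p.1 ^ 2 + p.2 ^ 2 - 1)) (2 / 10 ^ 7) := by
  have sS := h.sS
  refine ((h.bL.add (h.bSYY.cmul (by smo) q.abs_ρ) (by smo) (by smo)).congr fun p _ => ?_).mono ?_
  · unfold LL; ring
  · have := q.γ1; have := q.Nγ; linarith

theorem Sol.bLL (q : Par k m ρ γ N) (h : Sol k m ρ γ N U S) : Bd (LL ρ S) 9 := by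
  have := sm_LL h.sS ρ
  refine (((h.bLe q).sub bd_L0 (by smo) (by smo)).congr fun p _ => ?_).mono (by norm_num)
  ring

theorem Sol.b2t (q : Par k m ρ γ N) (h : Sol k m ρ γ N U S) :
    Bd (fun p => 2 * (m * ρ * k ^ 2) * S p) (1 / 10 ^ 7) := by
  refine (h.bS.cmul h.sS (abs_mul_le (le_of_eq abs_two) q.abs_t)).mono ?_
  have := q.small; have := q.k2
  have : 0 ≤ N ^ 2 * γ := mul_nonneg (sq_nonneg _) q.γ0
  nlinarith

theorem Sol.bTh (q : Par k m ρ γ N) (h : Sol k m ρ γ N U S) :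
    Bd (fun p => Th (m * ρ * k ^ 2) m ρ U S p - 1) (23 / 10 ^ 7) := by
  have sU := h.sU
  have sS := h.sS
  refine (((((h.b2t q).exp_sub_one (by smo) (by norm_num)).sub
    (((h.bX.mul h.bX (by smo) (by smo)).add ((h.bY.mul h.bY (by smo) (by smo)).cmul (by smo)
      q.abs_ρ) (by smo) (by smo)).cmul (by smo) q.abs_m) (by smo) (by smo))).congr
      fun p _ => ?_).mono ?_
  · unfold Th; ring
  · have := q.Nγ; have := q.γ1; have := q.γ0; have := q.N1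
    have : 0 ≤ N * γ := by positivity
    nlinarith

theorem Sol.bdet (q : Par k m ρ γ N) (h : Sol k m ρ γ N U S) :
    Bd (fun p => H11 (m * ρ * k ^ 2) ρ U S p * H22 (m * k ^ 2) ρ U S p
      - H12 (m * ρ * k ^ 2) U S p ^ 2 - k ^ 2 * (p.1 ^ 2 + p.2 ^ 2 - 1)) (416 / 10 ^ 7 * k ^ 2) := by
  have := sm_LL h.sS ρ
  have := sm_Th h.sU h.sS (m * ρ * k ^ 2) m ρ
  refine ((((((h.bLL q).mul (h.bTh q) (by smo) (by smo)).add (h.bLe q) (by smo) (by smo)).cmul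
    (by smo) (le_of_eq (abs_of_nonneg (sq_nonneg k)))).neg).congr fun p hp => ?_).mono ?_
  · rw [h.eq p hp]; ring
  · exact le_of_eq (by ring)

theorem Bd.half {f g : P → ℝ} {a : ℝ} (hf : Bd f a) (hg : Bd g a) (sf : Sm f) (sg : Sm g) :
    Bd (fun p => (f p + g p) / 2) a := by
  refine (((hf.add hg sf sg).cmul (by smo) (by norm_num : |(1 / 2 : ℝ)| ≤ 1 / 2)).congr
    fun p _ => by ring).mono (le_of_eq (by ring))

theorem abs_exp_sub_exp {a b : ℝ} (ha : |a| ≤ 1 / 2) (hb : |b| ≤ 1 / 2) :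
    |Real.exp a - Real.exp b| ≤ 6 * |a - b| := by
  have e : Real.exp a - Real.exp b = Real.exp b * (Real.exp (a - b) - 1) := by
    rw [mul_sub, ← Real.exp_add]; simp
  have h1 : |Real.exp b| ≤ 3 := by
    rw [abs_of_pos (Real.exp_pos _)]
    have : b ≤ 1 := (le_abs_self _).trans (hb.trans (by norm_num))
    exact (Real.exp_le_exp.2 this).trans (Real.exp_one_lt_d9.le.trans (by norm_num))
  have h2 := Real.abs_exp_sub_one_le (x := a - b) ((abs_sub_le' ha hb).trans (by norm_num))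
  rw [e]
  exact (abs_mul_le h1 h2).trans (le_of_eq (by ring))

theorem nonlin_to_lin (q : Par k m ρ γ N) {U1 S1 U2 S2 φ : P → ℝ} (h1 : Sol k m ρ γ N U1 S1)
    (h2 : Sol k m ρ γ N U2 S2) (hφ : φ = fun p => S1 p - S2 p)
    (cl : ∀ p : P, ‖p‖ ≤ 2 → |dX (dX U1) p - dX (dX U2) p| ≤ k ^ 2 / 10 ^ 7 ∧
      |dX (dY U1) p - dX (dY U2) p| ≤ k ^ 2 / 10 ^ 7 ∧
      |dY (dY U1) p - dY (dY U2) p| ≤ k ^ 2 / 10 ^ 7) :
    ∃ A C E w f : P → ℝ, Lin k A C E w (fun p => U1 p - U2 p) f ∧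
      (∀ p : P, ‖p‖ ≤ 2 → |f p + k ^ 2 * LL ρ φ p| ≤
        k ^ 2 * (|dX φ p| + |dY φ p| + |φ p| + ‖p‖ * |LL ρ φ p|)) ∧
      ∀ p, φ p = 0 → dX φ p = 0 → dY φ p = 0 → LL ρ φ p = 0 → f p = 0 := by
  set t := m * ρ * k ^ 2 with ht
  set κ := m * k ^ 2 with hκ
  have sU1 := h1.sU
  have sU2 := h2.sU
  have sS1 := h1.sS
  have sS2 := h2.sS
  have sφ : Sm φ := by rw [hφ]; smo
  have a1 := sm_H11 sU1 sS1 t ρ
  have a2 := sm_H11 sU2 sS2 t ρ
  have b1 := sm_H22 sU1 sS1 κ ρ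
  have b2 := sm_H22 sU2 sS2 κ ρ
  have c1 := sm_H12 sU1 sS1 t
  have c2 := sm_H12 sU2 sS2 t
  have w1 := sm_W1 sU1 sS1 ρ
  have w2 := sm_W1 sU2 sS2 ρ
  have w1' := sm_W2 sU1 sS1
  have w2' := sm_W2 sU2 sS2
  have l1 := sm_LL sS1 ρ
  have lφ := sm_LL sφ ρ
  have th2 := sm_Th sU2 sS2 t m ρ
  have k2 := q.k2
  have γ0 := q.γ0
  have γ1 := q.γ1
  have Nγ := q.Nγ
  have N1 := q.N1
  have hsm := q.small
  have hk : 0 < k ^ 2 := by have := q.k0; positivity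
  have dd : ∀ {g h : P → ℝ}, Sm g → Sm h → ∀ e, D e (fun p => g p - h p) =
      fun p => D e g p - D e h p := fun hg hh e => funext fun p => D_sub e (hg.diff p) (hh.diff p)
  have φx : ∀ p, dX φ p = dX S1 p - dX S2 p := fun p => by rw [hφ, dd sS1 sS2]
  have φy : ∀ p, dY φ p = dY S1 p - dY S2 p := fun p => by rw [hφ, dd sS1 sS2]
  have φL : ∀ p, LL ρ φ p = LL ρ S1 p - LL ρ S2 p := fun p => by
    unfold LL
    rw [hφ, dd sS1 sS2, dd sS1 sS2, dd (Sm.D sS1 _) (Sm.D sS2 _), dd (Sm.D sS1 _) (Sm.D sS2 _)]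
    ring
  set A : P → ℝ := fun p => (H22 κ ρ U1 S1 p + H22 κ ρ U2 S2 p) / 2 with hA
  set C : P → ℝ := fun p => -((H12 t U1 S1 p + H12 t U2 S2 p) / 2) with hC
  set E : P → ℝ := fun p => (H11 t ρ U1 S1 p + H11 t ρ U2 S2 p) / 2 with hE
  set w : P → ℝ := fun p => (dY U1 p + dY U2 p) / 2 with hw
  set f : P → ℝ := fun p => (t * A p - κ * E p) * (dX U2 p * dX φ p - ρ * (dY U2 p * dY φ p))
    + 2 * t * C p * (dX U2 p * dY φ p + dY U2 p * dX φ p)
    - k ^ 2 * (LL ρ φ p * Th t m ρ U2 S2 p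
      + LL ρ S1 p * (Real.exp (2 * t * S1 p) - Real.exp (2 * t * S2 p))) with hf
  have sA : Sm A := by rw [hA]; smo
  have sC : Sm C := by rw [hC]; smo
  have sE : Sm E := by rw [hE]; smo
  have sf : Sm f := by rw [hf]; smo
  have bA : Bd (fun p => A p - 1) (2 / 10 ^ 7) :=
    ((h1.bH22 q).half (h2.bH22 q) (by smo) (by smo)).congr fun p _ => by rw [hA]; ring
  have bC : Bd C (2 / 10 ^ 7) := ((h1.bH12 q).half (h2.bH12 q) c1 c2).neg
  have bE : Bd E (2 * γ) := (h1.bH11 q).half (h2.bH11 q) a1 a2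
  have hAE : ∀ p : P, ‖p‖ ≤ 2 → |t * A p - κ * E p| ≤ 4 * (N * γ) * k ^ 2 := by
    intro p hp
    have hA2 : |A p| ≤ 2 := by
      have := abs_le.1 (bA p hp).1
      rw [abs_le]; constructor <;> linarith
    exact (abs_sub_le' (abs_mul_le q.abs_t hA2) (abs_mul_le q.abs_κ (bE p hp).1)).trans
      (le_of_eq (by ring))
  have htC : ∀ p : P, ‖p‖ ≤ 2 → |2 * t * C p| ≤ N * γ * k ^ 2 := by
    intro p hp
    refine (abs_mul_le (abs_mul_le (le_of_eq abs_two) q.abs_t) (bC p hp).1).trans ?_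
    have : 0 ≤ N * γ * k ^ 2 := by positivity
    linarith
  refine ⟨A, C, E, w, f, ⟨sA, sC, sE, by rw [hw]; smo, by smo, sf.cont, q.k0, q.k1,
    bA.mono (by norm_num), bC.mono (by norm_num), bE.mono (by linarith), ?_, ?_, ?_, ?_, ?_, ?_,
    ?_⟩, ?_, ?_⟩
  · -- the determinant
    have δ11 : Bd (fun p => H11 t ρ U1 S1 p - H11 t ρ U2 S2 p) 1 :=
      ((h1.bH11 q).sub (h2.bH11 q) a1 a2).mono (by linarith)
    have δ22 : Bd (fun p => H22 κ ρ U1 S1 p - H22 κ ρ U2 S2 p) 1 :=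
      (((h1.bH22 q).sub (h2.bH22 q) (by smo) (by smo)).congr fun p _ => by ring).mono
        (by norm_num)
    have δ12 : Bd (fun p => H12 t U1 S1 p - H12 t U2 S2 p) 1 :=
      ((h1.bH12 q).sub (h2.bH12 q) c1 c2).mono (by norm_num)
    have hγk : γ * k ^ 2 ≤ 1 / 10 ^ 7 * k ^ 2 := by gcongr
    have v11 : ∀ p : P, ‖p‖ ≤ 2 → |H11 t ρ U1 S1 p - H11 t ρ U2 S2 p| ≤ 17 / 10 ^ 7 * k ^ 2 := by
      intro p hp
      have := abs_sub_le' (cl p hp).1 (abs_sub_le' (h1.btW q p hp).1 (h2.btW q p hp).1)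
      refine le_trans (le_of_eq ?_) (this.trans (by linarith))
      unfold H11; congr 1; ring
    have v22 : ∀ p : P, ‖p‖ ≤ 2 → |H22 κ ρ U1 S1 p - H22 κ ρ U2 S2 p| ≤ 17 / 10 ^ 7 * k ^ 2 := by
      intro p hp
      have := abs_add_le' (cl p hp).2.2 (abs_sub_le' (h1.bκW q p hp).1 (h2.bκW q p hp).1)
      refine le_trans (le_of_eq ?_) (this.trans (by linarith))
      unfold H22; congr 1; ring
    have v12 : ∀ p : P, ‖p‖ ≤ 2 → |H12 t U1 S1 p - H12 t U2 S2 p| ≤ 17 / 10 ^ 7 * k ^ 2 := by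
      intro p hp
      have := abs_sub_le' (cl p hp).2.1 (abs_sub_le' (h1.btW' q p hp).1 (h2.btW' q p hp).1)
      refine le_trans (le_of_eq ?_) (this.trans (by linarith))
      unfold H12; congr 1; ring
    have dδ := ((δ11.mul' δ22 (by smo) (by smo) v11 v22).sub
      (δ12.mul' δ12 (by smo) (by smo) v12 v12) (by smo) (by smo)).cmul (by smo)
      (by norm_num : |(1 / 4 : ℝ)| ≤ 1 / 4)
    refine ((((h1.bdet q).half (h2.bdet q) (by smo) (by smo)).sub dδ (by smo) (by smo)).congr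
      fun p _ => ?_).mono (by linarith)
    simp only [hA, hC, hE]; ring
  · intro p hp
    have e : dX A p + dY C p = (dX (fun p => κ * W1 ρ U1 S1 p) p + dX (fun p => κ * W1 ρ U2 S2 p) p
        + (dY (fun p => t * W2 U1 S1 p) p + dY (fun p => t * W2 U2 S2 p) p)) / 2 := by
      have := w1.diff; have := w2.diff; have := w1'.diff; have := w2'.diff
      rw [hA, hC]
      unfold H22 H12
      dexp
      rw [D_comm (Sm.D sU1 (0, 1)) (0, 1) (1, 0), D_comm (Sm.D sU2 (0, 1)) (0, 1) (1, 0)]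
      ring
    have := abs_add_le' (abs_add_le' (h1.bκW q p hp).2.1 (h2.bκW q p hp).2.1)
      (abs_add_le' (h1.btW' q p hp).2.2 (h2.btW' q p hp).2.2)
    rw [e, abs_div, abs_two]; linarith
  · intro p hp
    have e : dX C p + dY E p = (dX (fun p => t * W2 U1 S1 p) p + dX (fun p => t * W2 U2 S2 p) p
        - (dY (fun p => t * W1 ρ U1 S1 p) p + dY (fun p => t * W1 ρ U2 S2 p) p)) / 2 := by
      have := w1.diff; have := w2.diff; have := w1'.diff; have := w2'.diff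
      rw [hE, hC]
      unfold H11 H12
      dexp
      rw [D_comm (Sm.D sU1 (1, 0)) (0, 1) (1, 0), D_comm (Sm.D sU2 (1, 0)) (0, 1) (1, 0),
        D_comm' sU1 (0, 1) (1, 0), D_comm' sU2 (0, 1) (1, 0)]
      ring
    have := abs_sub_le' (abs_add_le' (h1.btW' q p hp).2.1 (h2.btW' q p hp).2.1)
      (abs_add_le' (h1.btW q p hp).2.2 (h2.btW q p hp).2.2)
    have hγk : γ * k ^ 2 ≤ 1 / 10 ^ 7 * k ^ 2 := by gcongr
    rw [e, abs_div, abs_two]; linarith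
  · intro p hp
    have e : dX w p + C p = (t * W2 U1 S1 p + t * W2 U2 S2 p) / 2 := by
      rw [hw, hC]
      unfold H12
      dexp
      ring
    have := abs_add_le' (h1.btW' q p hp).1 (h2.btW' q p hp).1
    rw [e, abs_div, abs_two]; linarith
  · intro p hp
    have e : dY w p - A p = -(κ * W1 ρ U1 S1 p + κ * W1 ρ U2 S2 p) / 2 := by
      rw [hw, hA]
      unfold H22
      dexp
      ring
    have := abs_add_le' (h1.bκW q p hp).1 (h2.bκW q p hp).1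
    rw [e, abs_div, abs_two, abs_neg]; linarith
  · simp [hw, h1.y0, h2.y0]
  · intro p hp
    rw [dd sU1 sU2, dd sU1 sU2, dd (Sm.D sU1 _) (Sm.D sU2 _), dd (Sm.D sU1 _) (Sm.D sU2 _),
      dd (Sm.D sU1 _) (Sm.D sU2 _)]
    simp only
    set x := dX U1 p - dX U2 p with hx
    set y := dY U1 p - dY U2 p with hy
    have e : A p * (dX (dX U1) p - dX (dX U2) p) + 2 * C p * (dX (dY U1) p - dX (dY U2) p)
        + E p * (dY (dY U1) p - dY (dY U2) p) - f p =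
        (t * A p - κ * E p) * (dX S1 p * x - ρ * dY S1 p * y)
        + 2 * t * C p * (dY S1 p * x + dX S1 p * y)
        + k ^ 2 * m * LL ρ S1 p * ((dX U1 p + dX U2 p) * x + ρ * (dY U1 p + dY U2 p) * y) := by
      have e1 := h1.eq p (by linarith)
      have e2 := h2.eq p (by linarith)
      rw [← ht, ← hκ] at e1 e2
      simp only [hf, φx, φy, φL, hA, hC, hE, hx, hy]
      unfold H11 H22 H12 Th W1 W2 at *
      linear_combination e1 - e2
    rw [e]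
    have x0 := abs_nonneg x
    have y0 := abs_nonneg y
    have := abs_add_le' (abs_add_le'
      (abs_mul_le (hAE p hp) (abs_sub_le' (abs_mul_le (h1.bSX p hp).1 (le_refl |x|))
        (abs_mul_le (abs_mul_le (q.abs_ρ.trans (by linarith : γ ≤ 1)) (h1.bSY p hp).1)
          (le_refl |y|))))
      (abs_mul_le (htC p hp) (abs_add_le' (abs_mul_le (h1.bSY p hp).1 (le_refl |x|))
        (abs_mul_le (h1.bSX p hp).1 (le_refl |y|)))))
      (abs_mul_le (abs_mul_le (abs_mul_le (le_of_eq (abs_of_pos hk)) q.abs_m) (h1.bLL q p hp).1)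
        (abs_add_le' (abs_mul_le (abs_add_le' (h1.bX p hp).1 (h2.bX p hp).1) (le_refl |x|))
          (abs_mul_le (abs_mul_le q.abs_ρ (abs_add_le' (h1.bY p hp).1 (h2.bY p hp).1))
            (le_refl |y|))))
    refine this.trans ?_
    have s0 : 0 ≤ k ^ 2 * |x| := by positivity
    have s1 : 0 ≤ k ^ 2 * |y| := by positivity
    have u1 : N ^ 2 * γ * (k ^ 2 * |x|) ≤ 1 / 10 ^ 7 * (k ^ 2 * |x|) := by gcongr
    have u2 : N ^ 2 * γ * (k ^ 2 * |y|) ≤ 1 / 10 ^ 7 * (k ^ 2 * |y|) := by gcongr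
    have u3 : N * γ * (k ^ 2 * |x|) ≤ 1 / 10 ^ 7 * (k ^ 2 * |x|) := by gcongr
    have u4 : N * γ * (k ^ 2 * |y|) ≤ 1 / 10 ^ 7 * (k ^ 2 * |y|) := by gcongr
    nlinarith
  · intro p hp
    have e : f p + k ^ 2 * LL ρ φ p =
        (t * A p - κ * E p) * (dX U2 p * dX φ p - ρ * (dY U2 p * dY φ p))
        + 2 * t * C p * (dX U2 p * dY φ p + dY U2 p * dX φ p)
        - k ^ 2 * (((Th t m ρ U2 S2 p - 1) - (Th t m ρ U2 S2 0 - 1)) * LL ρ φ p
          + LL ρ S1 p * (Real.exp (2 * t * S1 p) - Real.exp (2 * t * S2 p))) := by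
      have : Th t m ρ U2 S2 0 = 1 := by simp [Th, h2.x0, h2.y0, h2.s0]
      rw [this, hf]; ring
    have lip := (h2.bTh q).lip (by smo) hp (q := 0) (by simp)
    have ee := abs_exp_sub_exp ((h1.b2t q p hp).1.trans (by norm_num))
      ((h2.b2t q p hp).1.trans (by norm_num))
    have e3 : 2 * t * S1 p - 2 * t * S2 p = 2 * t * φ p := by rw [hφ]; ring
    rw [← ht, e3] at ee
    have ee' := ee.trans (mul_le_mul_of_nonneg_left
      (abs_mul_le (abs_mul_le (le_of_eq abs_two) q.abs_t) (le_refl |φ p|)) (by norm_num))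
    rw [sub_zero] at lip
    have := abs_sub_le' (abs_add_le'
      (abs_mul_le (hAE p hp) (abs_sub_le' (abs_mul_le (h2.bX p hp).1 (le_refl |dX φ p|))
        (abs_mul_le q.abs_ρ (abs_mul_le (h2.bY p hp).1 (le_refl |dY φ p|)))))
      (abs_mul_le (htC p hp) (abs_add_le' (abs_mul_le (h2.bX p hp).1 (le_refl |dY φ p|))
        (abs_mul_le (h2.bY p hp).1 (le_refl |dX φ p|)))))
      (abs_mul_le (le_of_eq (abs_of_pos hk)) (abs_add_le' (abs_mul_le lip (le_refl |LL ρ φ p|))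
        (abs_mul_le (h1.bLL q p hp).1 ee')))
    rw [e]
    refine this.trans ?_
    have x0 : 0 ≤ k ^ 2 * |dX φ p| := by positivity
    have y0 : 0 ≤ k ^ 2 * |dY φ p| := by positivity
    have z0 : 0 ≤ k ^ 2 * |φ p| := by positivity
    have z1 : 0 ≤ k ^ 2 * (‖p‖ * |LL ρ φ p|) := by positivity
    have Nγ0 : 0 ≤ N * γ := by positivity
    have Nγγ : N * γ * γ ≤ 1 / 10 ^ 7 := by nlinarith
    have Nγk : N * γ * k ^ 2 ≤ 1 / 10 ^ 7 := by nlinarith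
    have u1 : N * γ * γ * (k ^ 2 * |dX φ p|) ≤ 1 / 10 ^ 7 * (k ^ 2 * |dX φ p|) := by gcongr
    have u2 : N * γ * γ * (k ^ 2 * |dY φ p|) ≤ 1 / 10 ^ 7 * (k ^ 2 * |dY φ p|) := by gcongr
    have u3 : N * γ * (k ^ 2 * |dX φ p|) ≤ 1 / 10 ^ 7 * (k ^ 2 * |dX φ p|) := by gcongr
    have u4 : N * γ * k ^ 2 * (k ^ 2 * |φ p|) ≤ 1 / 10 ^ 7 * (k ^ 2 * |φ p|) := by gcongr
    nlinarith
  · intro p p0 px py pL
    have : S1 p = S2 p := by rw [hφ] at p0; simpa [sub_eq_zero] using p0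
    simp [hf, px, py, pL, this]

end Crest.Agent.R220
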