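import Crest.Agent.R220.Scaled

/-! Counting and the choice of parameters. -/

set_option autoImplicit false
open scoped ContDiff
open MeasureTheory Set Filter

namespace Crest.Agent.R220

theorem pigeon {α ι : Type*} [Fintype α] [Fintype ι] (f : α → ι → ℝ) {V η : ℝ} (hη : 0 < η)
    (hV : ∀ a i, |f a i| ≤ V) (hcard : (2 * ⌈V / η⌉₊ + 1) ^ Fintype.card ι < Fintype.card α) :
    ∃ a b, a ≠ b ∧ ∀ i, |f a i - f b i| ≤ η := by
  classical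
  set m := ⌈V / η⌉₊ with hm
  have hmV : V / η ≤ m := Nat.le_ceil _
  obtain ⟨a, -, b, -, hab, he⟩ := Finset.exists_ne_map_eq_of_card_lt_of_maps_to
    (s := (Finset.univ : Finset α)) (t := Fintype.piFinset fun _ : ι => Finset.Icc (-(m : ℤ)) m)
    (f := fun a i => ⌊f a i / η⌋) (by
      rw [Fintype.card_piFinset, Finset.prod_const, Int.card_Icc, Finset.card_univ,
        Finset.card_univ]
      convert hcard using 2
      omega) (by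
      intro a _
      simp only [Finset.mem_coe, Fintype.mem_piFinset, Finset.mem_Icc]
      intro i
      have h := abs_le.1 (hV a i)
      constructor
      · rw [Int.le_floor]
        push_cast
        have : -V / η ≤ f a i / η := by gcongr; exact h.1
        rw [neg_div] at this
        linarith
      · have : f a i / η ≤ V / η := by gcongr; exact h.2
        have h2 : (⌊f a i / η⌋ : ℝ) ≤ (m : ℤ) := by
          push_cast; linarith [Int.floor_le (f a i / η)]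
        exact_mod_cast h2)
  refine ⟨a, b, hab, fun i => ?_⟩
  have := Int.abs_sub_lt_one_of_floor_eq_floor (congrFun he i)
  rw [← sub_div, abs_div, abs_of_pos hη, div_lt_one hη] at this
  exact this.le

theorem card_ineq {M : ℝ} (hM : 1 ≤ M) {J : ℕ} (hJ : 35 * M ≤ J) :
    (2 * ⌈16 * M / (1 / 2 ^ J)⌉₊ + 1) ^ (J ^ 2 * J ^ 2 * 4) < 2 ^ (J ^ 6) := by
  have h1 : (J : ℝ) ≤ 2 ^ J := by exact_mod_cast (Nat.lt_two_pow_self (n := J)).le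
  have h2 : (1 : ℝ) ≤ 2 ^ J := one_le_pow₀ (by norm_num)
  have h3 : 2 * ⌈16 * M / (1 / 2 ^ J)⌉₊ + 1 ≤ 2 ^ (2 * J) := by
    have a := (Nat.ceil_lt_add_one (a := 16 * M / (1 / 2 ^ J)) (by positivity)).le
    have b : 16 * M / (1 / 2 ^ J) = 16 * M * 2 ^ J := by field_simp
    have : ((2 * ⌈16 * M / (1 / 2 ^ J)⌉₊ + 1 : ℕ) : ℝ) ≤ ((2 ^ (2 * J) : ℕ) : ℝ) := by
      push_cast
      rw [two_mul J, pow_add]
      nlinarith
    exact_mod_cast this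
  have h4 : 9 ≤ J := by
    have : (9 : ℝ) ≤ J := by linarith
    exact_mod_cast this
  calc _ ≤ (2 ^ (2 * J)) ^ (J ^ 2 * J ^ 2 * 4) := Nat.pow_le_pow_left h3 _
    _ = 2 ^ (8 * J ^ 5) := by rw [← pow_mul]; congr 1; ring
    _ < 2 ^ (J ^ 6) := by
      apply Nat.pow_lt_pow_right (by norm_num)
      have : 0 < J ^ 5 := by positivity
      calc 8 * J ^ 5 < J * J ^ 5 := by gcongr; omega
        _ = J ^ 6 := by ring

theorem num_final {k0 ρ B M : ℝ} (hk0 : 0 < k0) (hρ : 0 < ρ) (hB : 1 ≤ B) (hM : 1 ≤ M) (N : ℕ) :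
    ∀ᶠ J : ℕ in atTop, ∀ k l R δ : ℝ, k0 ≤ k → l = 1 / (J : ℝ) ^ 66 → R = 1 / (J : ℝ) ^ 33 →
      δ = l ^ N →
      70000 * B0 ^ 2 * (R ^ 3 / l + l / R) * (400 / k ^ 2 *
        (400 * l * ((8 * ((J ^ 6 : ℕ) : ℝ) + 1) * l) ^ 3 *
          (7 * k ^ 2 * (δ * ((J ^ 6 : ℕ) : ℝ) * (B / l ^ 2))) ^ 2 / k ^ 2 +
          288 * B0 * (16 * 37 / 4 ^ J + 16 * 10 ^ 9 * B0 ^ 2 * J ^ 2 * (M * (1 / 2 ^ J)) ^ 2 / k ^ 4)))
        < (k ^ 2 * δ * ρ) ^ 2 := by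
  have B0p := B0_pos
  set K1 : ℝ := 70000 * B0 ^ 2 * 2 * 400 * 19600 * 729 * B ^ 2 with hK1
  set K2 : ℝ := 70000 * B0 ^ 2 * 2 * (400 / k0 ^ 2) *
    (288 * B0 * (592 + 16 * 10 ^ 9 * B0 ^ 2 * M ^ 2 / k0 ^ 4)) with hK2
  have K1p : 0 < K1 := by positivity
  have K2p : 0 < K2 := by positivity
  set c : ℝ := k0 ^ 4 * ρ ^ 2 / 2 with hc
  have cp : 0 < c := by positivity
  have t1 := (tendsto_pow_const_div_const_pow_of_one_lt (2 + 132 * N)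
    (by norm_num : (1 : ℝ) < 4)).eventually (gt_mem_nhds (div_pos cp K2p))
  have t2 := (tendsto_natCast_atTop_atTop (R := ℝ)).eventually_ge_atTop (K1 / c)
  have t3 := (tendsto_natCast_atTop_atTop (R := ℝ)).eventually_ge_atTop 1
  filter_upwards [t1, t2, t3] with J h1 h2 h3 k l R δ hk hl hR hδ
  set x : ℝ := (J : ℝ) with hx
  have x0 : 0 < x := by linarith
  have kp : 0 < k := hk0.trans_le hk
  have l0 : 0 < l := by rw [hl]; positivity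
  have δ0 : 0 < δ := by rw [hδ]; positivity
  push_cast
  have e1 : R ^ 3 / l + l / R = 2 / x ^ 33 := by rw [hR, hl]; field_simp; norm_num
  have e2 : 400 * l * ((8 * x ^ 6 + 1) * l) ^ 3 * (7 * k ^ 2 * (δ * x ^ 6 * (B / l ^ 2))) ^ 2 / k ^ 2
      ≤ 19600 * 729 * k ^ 2 * B ^ 2 * δ ^ 2 * x ^ 30 := by
    have : 1 ≤ x ^ 6 := one_le_pow₀ h3
    calc _ = 19600 * k ^ 2 * B ^ 2 * δ ^ 2 * x ^ 12 * (8 * x ^ 6 + 1) ^ 3 := by field_simp; ring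
      _ ≤ 19600 * k ^ 2 * B ^ 2 * δ ^ 2 * x ^ 12 * (9 * x ^ 6) ^ 3 := by gcongr; linarith
      _ = _ := by ring
  have e3 : 16 * 37 / 4 ^ J + 16 * 10 ^ 9 * B0 ^ 2 * x ^ 2 * (M * (1 / 2 ^ J)) ^ 2 / k ^ 4 ≤
      (592 + 16 * 10 ^ 9 * B0 ^ 2 * M ^ 2 / k0 ^ 4) * (x ^ 2 / 4 ^ J) := by
    have f4 : ((2 : ℝ) ^ J) ^ 2 = 4 ^ J := by rw [← pow_mul, mul_comm, pow_mul]; norm_num
    have : 1 ≤ x ^ 2 := one_le_pow₀ h3
    calc _ = 592 * (1 / 4 ^ J) + 16 * 10 ^ 9 * B0 ^ 2 * M ^ 2 / k ^ 4 * (x ^ 2 / 4 ^ J) := by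
          rw [← f4]; field_simp; ring
      _ ≤ 592 * (x ^ 2 / 4 ^ J) + 16 * 10 ^ 9 * B0 ^ 2 * M ^ 2 / k0 ^ 4 * (x ^ 2 / 4 ^ J) := by
          gcongr
      _ = _ := by ring
  have e4 : K1 / x ^ 3 ≤ c := by
    rw [div_le_iff₀ cp] at h2
    rw [div_le_iff₀ (by positivity)]
    have : x ≤ x ^ 3 := le_self_pow₀ h3 (by norm_num)
    nlinarith
  have e5 : K2 * (x ^ 2 / 4 ^ J) < c * δ ^ 2 := by
    rw [lt_div_iff₀ K2p] at h1
    have : δ ^ 2 = 1 / x ^ (132 * N) := by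
      rw [hδ, hl, ← pow_mul, one_div_pow, ← pow_mul]; congr 2; ring
    rw [this, mul_one_div, lt_div_iff₀ (by positivity)]
    calc _ = x ^ (2 + 132 * N) / 4 ^ J * K2 := by rw [pow_add]; ring
      _ < c := h1
  have x33 : 1 ≤ x ^ 33 := one_le_pow₀ h3
  rw [e1]
  calc _ ≤ 70000 * B0 ^ 2 * (2 / x ^ 33) * (400 / k ^ 2 *
        (19600 * 729 * k ^ 2 * B ^ 2 * δ ^ 2 * x ^ 30 + 288 * B0 *
          ((592 + 16 * 10 ^ 9 * B0 ^ 2 * M ^ 2 / k0 ^ 4) * (x ^ 2 / 4 ^ J)))) := by gcongr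
    _ = K1 / x ^ 3 * δ ^ 2 + 70000 * B0 ^ 2 * (2 / x ^ 33) * (400 / k ^ 2) *
          (288 * B0 * (592 + 16 * 10 ^ 9 * B0 ^ 2 * M ^ 2 / k0 ^ 4)) * (x ^ 2 / 4 ^ J) := by
        rw [hK1]; field_simp
    _ ≤ c * δ ^ 2 + K2 * (x ^ 2 / 4 ^ J) := by
        rw [hK2]
        gcongr
        exact div_le_self (by norm_num) x33
    _ < c * δ ^ 2 + c * δ ^ 2 := by gcongr
    _ = (k0 ^ 2 * δ * ρ) ^ 2 := by rw [hc]; ring
    _ ≤ _ := by gcongr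

end Crest.Agent.R220
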