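import Crest.Agent.R220.Energy

/-! Poincaré inequality on grid cells and the iteration on frames. -/

set_option autoImplicit false
open scoped ContDiff
open MeasureTheory Set

namespace Crest.Agent.R220

theorem hasDerivAt_X {F : Type*} [NormedAddCommGroup F] [NormedSpace ℝ F] {v : P → F}
    (hv : Differentiable ℝ v) (x y : ℝ) : HasDerivAt (fun t => v (t, y)) (dX v (x, y)) x := by
  have h : HasDerivAt (fun t : ℝ => ((t, y) : P)) (1, 0) x :=
    (hasDerivAt_id x).prodMk (hasDerivAt_const x y)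
  exact (hv (x, y)).hasFDerivAt.comp_hasDerivAt x h

theorem hasDerivAt_Y {F : Type*} [NormedAddCommGroup F] [NormedSpace ℝ F] {v : P → F}
    (hv : Differentiable ℝ v) (x y : ℝ) : HasDerivAt (fun t => v (x, t)) (dY v (x, y)) y := by
  have h : HasDerivAt (fun t : ℝ => ((x, t) : P)) (0, 1) y :=
    (hasDerivAt_const y x).prodMk (hasDerivAt_id y)
  exact (hv (x, y)).hasFDerivAt.comp_hasDerivAt y h

theorem integrableOn_Ico_of_cont {g : ℝ → ℝ} (hg : Continuous g) (a b : ℝ) :
    IntegrableOn g (Ico a b) :=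
  (hg.continuousOn.integrableOn_compact isCompact_Icc).mono_set Ico_subset_Icc_self

theorem osc_le {g g' : ℝ → ℝ} (hd : ∀ t, HasDerivAt g (g' t) t) (hc : Continuous g') {a b x y : ℝ}
    (hx : x ∈ Ico a b) (hy : y ∈ Ico a b) : |g x - g y| ≤ ∫ t in Ico a b, |g' t| := by
  wlog hxy : y ≤ x generalizing x y
  · rw [abs_sub_comm]; exact this hy hx (le_of_not_ge hxy)
  rw [← intervalIntegral.integral_eq_sub_of_hasDerivAt (fun t _ => hd t)
    (hc.intervalIntegrable _ _)]
  refine (intervalIntegral.abs_integral_le_integral_abs hxy).trans ?_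
  rw [intervalIntegral.integral_of_le hxy]
  refine setIntegral_mono_set (integrableOn_Ico_of_cont hc.abs a b)
    (Filter.Eventually.of_forall fun t => abs_nonneg _) (LE.le.eventuallyLE ?_)
  intro t ht
  exact ⟨hy.1.trans ht.1.le, ht.2.trans_lt hx.2⟩

/-- a grid cell -/
def Cell (a b s : ℝ) : Set P := Ico a (a + s) ×ˢ Ico b (b + s)

theorem measurableSet_Cell (a b s : ℝ) : MeasurableSet (Cell a b s) :=
  measurableSet_Ico.prod measurableSet_Ico

theorem integrableOn_Cell {g : P → ℝ} (hg : Continuous g) (a b s : ℝ) :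
    IntegrableOn g (Cell a b s) :=
  (hg.continuousOn.integrableOn_compact (isCompact_Icc.prod isCompact_Icc)).mono_set
    (prod_mono Ico_subset_Icc_self Ico_subset_Icc_self)

/-- average over the left edge of a cell -/
noncomputable def avg (v : P → ℝ) (a b s : ℝ) : ℝ := (∫ y in Ico b (b + s), v (a, y)) / s

theorem cell_poincare {v : P → ℝ} (hv : Sm v) {a b s η : ℝ} (hs : 0 < s)
    (hm : |avg v a b s| ≤ η) :
    ∫ p in Cell a b s, v p ^ 2 ≤ 3 * s ^ 2 * η ^ 2 + 3 * s ^ 2 * ∫ p in Cell a b s, gr v p := by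
  set μ : Measure ℝ := volume.restrict (Ico a (a + s)) with hμ
  set ν : Measure ℝ := volume.restrict (Ico b (b + s)) with hν
  have hprod : (volume : Measure P).restrict (Cell a b s) = μ.prod ν := by
    rw [hμ, hν, Measure.prod_restrict]; rfl
  have hμ1 : μ.real univ = s := by
    rw [hμ, measureReal_restrict_apply_univ, Real.volume_real_Ico_of_le (by linarith)]; ring
  have hν1 : ν.real univ = s := by
    rw [hν, measureReal_restrict_apply_univ, Real.volume_real_Ico_of_le (by linarith)]; ring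
  have int2 : ∀ {g : P → ℝ}, Continuous g → Integrable g (μ.prod ν) := fun hg => by
    rw [← hprod]; exact integrableOn_Cell hg a b s
  have cx : Continuous (dX v) := by fun_prop
  have cy : Continuous (dY v) := by fun_prop
  have cv := hv.cont
  have hμν : (μ.prod ν).real univ = s ^ 2 := by
    rw [← univ_prod_univ, measureReal_prod_prod, hμ1, hν1]; ring
  set IX := ∫ p, dX v p ^ 2 ∂(μ.prod ν) with hIX
  have pt : ∀ p ∈ Cell a b s, v p ^ 2 ≤
      3 * η ^ 2 + 3 * IX + 3 * s * ∫ t, dY v (p.1, t) ^ 2 ∂ν := by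
    rintro ⟨x, y⟩ ⟨hx, hy⟩
    simp only at hx hy ⊢
    set α := ∫ t, |dY v (x, t)| ∂ν with hα
    set Γ := ∫ p, |dX v p| ∂(μ.prod ν) with hΓ
    have cyx : Continuous fun t => dY v (x, t) := by fun_prop
    have h1 : ∀ y' ∈ Ico b (b + s), |v (x, y) - v (a, y')| ≤ α + ∫ t, |dX v (t, y')| ∂μ := by
      intro y' hy'
      have e1 := osc_le (fun t => hasDerivAt_Y hv.diff x t) cyx hy hy'
      have e2 := osc_le (fun t => hasDerivAt_X hv.diff t y') (by fun_prop) hx
        (⟨le_rfl, by linarith⟩ : a ∈ Ico a (a + s))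
      have := abs_add_le' e1 e2
      simpa using this
    have i1 : Integrable (fun y' => ∫ t, |dX v (t, y')| ∂μ) ν :=
      (int2 cx.abs).integral_prod_right
    have i2 : Integrable (fun y' => v (a, y')) ν := integrableOn_Ico_of_cont (by fun_prop) _ _
    have h2 : |s * v (x, y) - ∫ y', v (a, y') ∂ν| ≤ s * α + Γ := by
      have e : s * v (x, y) - ∫ y', v (a, y') ∂ν = ∫ y', (v (x, y) - v (a, y')) ∂ν := by
        rw [integral_sub (integrable_const _) i2, integral_const, hν1, smul_eq_mul]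
      have e' : s * α + Γ = ∫ y', (α + ∫ t, |dX v (t, y')| ∂μ) ∂ν := by
        rw [integral_add (integrable_const _) i1, integral_const, hν1, smul_eq_mul, hΓ,
          integral_prod_symm _ (int2 cx.abs)]
      rw [e, e', ← Real.norm_eq_abs]
      refine norm_integral_le_of_norm_le ((integrable_const _).add i1) ?_
      rw [hν, ae_restrict_iff' measurableSet_Ico]
      exact Filter.Eventually.of_forall h1
    have h3 : α ^ 2 ≤ s * ∫ t, dY v (x, t) ^ 2 ∂ν := by
      have := sq_integral_le ν (g := fun t => |dY v (x, t)|)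
        (integrableOn_Ico_of_cont cyx.abs _ _) (integrableOn_Ico_of_cont (cyx.abs.pow 2) _ _)
      simpa [hν1, sq_abs] using this
    have h4 : Γ ^ 2 ≤ s ^ 2 * IX := by
      have := sq_integral_le (μ.prod ν) (g := fun p => |dX v p|) (int2 cx.abs) (int2 (cx.abs.pow 2))
      simpa [hμν, sq_abs] using this
    have h5 : |v (x, y)| ≤ η + α + Γ / s := by
      have hm' : |∫ y', v (a, y') ∂ν| ≤ s * η := by
        unfold avg at hm
        rw [abs_div, abs_of_pos hs, div_le_iff₀ hs] at hm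
        linarith
      have := abs_add_le' h2 hm'
      rw [sub_add_cancel, abs_mul, abs_of_pos hs] at this
      have e : η + α + Γ / s = (s * α + Γ + s * η) / s := by field_simp; ring
      rw [e, le_div_iff₀ hs]; linarith
    have h6 : (Γ / s) ^ 2 ≤ IX := by
      rw [div_pow, div_le_iff₀ (by positivity)]; linarith
    have h7 := pow_le_pow_left₀ (abs_nonneg _) h5 2
    rw [sq_abs] at h7
    nlinarith [sq_nonneg (η - α), sq_nonneg (η - Γ / s), sq_nonneg (α - Γ / s)]
  have i3 : Integrable (fun x => ∫ t, dY v (x, t) ^ 2 ∂ν) μ :=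
    (int2 (cy.pow 2)).integral_prod_left
  have i4 : Integrable (fun p : P => ∫ t, dY v (p.1, t) ^ 2 ∂ν) (μ.prod ν) :=
    i3.comp_fst ν
  have main : ∫ p in Cell a b s, v p ^ 2 ≤
      ∫ p in Cell a b s, (3 * η ^ 2 + 3 * IX + 3 * s * ∫ t, dY v (p.1, t) ^ 2 ∂ν) := by
    refine setIntegral_mono_on (integrableOn_Cell (cv.pow 2) a b s) ?_ (measurableSet_Cell a b s) pt
    unfold IntegrableOn
    rw [hprod]
    exact (integrable_const _).add (i4.const_mul _)
  refine main.trans (le_of_eq ?_)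
  rw [hprod, integral_add (integrable_const _) (i4.const_mul _), integral_const, hμν,
    integral_const_mul, integral_prod _ i4]
  simp only [integral_const, hν1, smul_eq_mul, integral_const_mul]
  rw [← integral_prod (fun p => dY v p ^ 2) (int2 (cy.pow 2))]
  unfold gr
  rw [integral_add (f := fun p => dX v p ^ 2) (g := fun p => dY v p ^ 2)
    (int2 (cx.pow 2)) (int2 (cy.pow 2))]
  ring

/-- grid coordinate -/
noncomputable def gc (n : ℕ) (i : Fin n) : ℝ := -2 + (i : ℕ) * (4 / n)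

theorem exists_gc {n : ℕ} (hn : 0 < n) {x : ℝ} (hx : |x| < 2) :
    ∃ i : Fin n, x ∈ Ico (gc n i) (gc n i + 4 / n) := by
  have hn' : (0 : ℝ) < n := by exact_mod_cast hn
  have hs : (0 : ℝ) < 4 / n := by positivity
  rw [abs_lt] at hx
  have h0 : 0 ≤ (x + 2) / (4 / n) := div_nonneg (by linarith) hs.le
  have h1 : ⌊(x + 2) / (4 / n)⌋₊ < n := by
    rw [Nat.floor_lt h0, div_lt_iff₀ hs]
    have : (n : ℝ) * (4 / n) = 4 := by field_simp
    linarith
  refine ⟨⟨_, h1⟩, ?_, ?_⟩
  · have := Nat.floor_le h0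
    rw [le_div_iff₀ hs] at this
    simp only [gc]; linarith
  · have := Nat.lt_floor_add_one ((x + 2) / (4 / n))
    rw [div_lt_iff₀ hs] at this
    simp only [gc]; linarith

theorem gc_unique {n : ℕ} (hn : 0 < n) {x : ℝ} {i j : Fin n}
    (hi : x ∈ Ico (gc n i) (gc n i + 4 / n)) (hj : x ∈ Ico (gc n j) (gc n j + 4 / n)) : i = j := by
  have hn' : (0 : ℝ) < n := by exact_mod_cast hn
  have hs : (0 : ℝ) < 4 / n := by positivity
  have key : ∀ i j : Fin n, x ∈ Ico (gc n i) (gc n i + 4 / n) →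
      x ∈ Ico (gc n j) (gc n j + 4 / n) → (i : ℕ) < (j : ℕ) + 1 := by
    intro i j hi hj
    have h1 : ((i : ℕ) : ℝ) * (4 / n) < ((j : ℕ) + 1) * (4 / n) := by
      have := hi.1; have := hj.2
      simp only [gc] at *; linarith
    have := lt_of_mul_lt_mul_right h1 hs.le
    exact_mod_cast this
  have := key i j hi hj
  have := key j i hj hi
  ext; omega

theorem gc_mem {n : ℕ} (hn : 0 < n) (i : Fin n) : |gc n i| ≤ 2 ∧ gc n i + 4 / n ≤ 2 := by
  have hn' : (0 : ℝ) < n := by exact_mod_cast hn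
  have hs : (0 : ℝ) < 4 / n := by positivity
  have h1 : (((i : ℕ) : ℝ) + 1) ≤ n := by exact_mod_cast i.2
  have h2 : (((i : ℕ) : ℝ) + 1) * (4 / n) ≤ n * (4 / n) := by gcongr
  have h3 : (n : ℝ) * (4 / n) = 4 := by field_simp
  have h4 : 0 ≤ ((i : ℕ) : ℝ) * (4 / n) := by positivity
  simp only [gc, abs_le]
  refine ⟨⟨by linarith, by linarith⟩, by linarith⟩

theorem integrableOn_Fr {g : P → ℝ} (hg : Continuous g) (c : ℝ) : IntegrableOn g (Fr c) :=
  hg.continuousOn.integrableOn_compact (isCompact_Fr c)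

theorem frame_poincare {v : P → ℝ} (hv : Sm v) {n : ℕ} (hn : 0 < n) {η c : ℝ} (hc : c ≤ 1 / 8)
    (hm : ∀ i j : Fin n, |avg v (gc n i) (gc n j) (4 / n)| ≤ η) :
    ∫ p in Fr c, v p ^ 2 ≤ 48 * η ^ 2 + 3 * (4 / n) ^ 2 * ∫ p in Fr (c + 4 / n), gr v p := by
  classical
  have hn' : (0 : ℝ) < n := by exact_mod_cast hn
  have hs : (0 : ℝ) < 4 / n := by positivity
  set Q : Fin n × Fin n → Set P := fun ij => Cell (gc n ij.1) (gc n ij.2) (4 / n) with hQ
  set I : Finset (Fin n × Fin n) := Finset.univ.filter fun ij => (Q ij ∩ Fr c).Nonempty with hI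
  have hdisj : Set.Pairwise (↑I) (Function.onFun Disjoint Q) := by
    intro a _ b _ hab
    rw [Function.onFun, Set.disjoint_left]
    intro p hpa hpb
    exact hab (Prod.ext (gc_unique hn hpa.1 hpb.1) (gc_unique hn hpa.2 hpb.2))
  have hsum : ∀ {g : P → ℝ}, Continuous g →
      ∫ p in ⋃ ij ∈ I, Q ij, g p = ∑ ij ∈ I, ∫ p in Q ij, g p := fun hg =>
    integral_biUnion_finset I (fun _ _ => measurableSet_Cell _ _ _) hdisj
      fun _ _ => integrableOn_Cell hg _ _ _
  have sub1 : Fr c ⊆ ⋃ ij ∈ I, Q ij := by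
    intro p hp
    have h2 : ‖p‖ ≤ 3 / 2 := by linarith [hp.2]
    obtain ⟨i, hi⟩ := exists_gc hn (x := p.1) (by linarith [abs_fst_le h2])
    obtain ⟨j, hj⟩ := exists_gc hn (x := p.2) (by linarith [abs_snd_le h2])
    simp only [mem_iUnion]
    exact ⟨(i, j), by simp only [hI, Finset.mem_filter, Finset.mem_univ, true_and]
                      exact ⟨p, ⟨hi, hj⟩, hp⟩, hi, hj⟩
  have sub2 : (⋃ ij ∈ I, Q ij) ⊆ Fr (c + 4 / n) := by
    intro p hp
    simp only [mem_iUnion] at hp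
    obtain ⟨ij, hij, hp⟩ := hp
    simp only [hI, Finset.mem_filter, Finset.mem_univ, true_and] at hij
    obtain ⟨q, hq, hq'⟩ := hij
    have hd : ‖p - q‖ ≤ 4 / n := by
      apply norm_le_of_abs
      · rw [abs_le]; simp only [Prod.fst_sub]
        constructor <;> linarith [hp.1.1, hp.1.2, hq.1.1, hq.1.2]
      · rw [abs_le]; simp only [Prod.snd_sub]
        constructor <;> linarith [hp.2.1, hp.2.2, hq.2.1, hq.2.2]
    have := abs_le.1 ((abs_norm_sub_norm_le p q).trans hd)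
    constructor <;> linarith [hq'.1, hq'.2]
  have cv2 : Continuous fun p => v p ^ 2 := hv.cont.pow 2
  calc ∫ p in Fr c, v p ^ 2 ≤ ∫ p in ⋃ ij ∈ I, Q ij, v p ^ 2 :=
        setIntegral_mono_set ((integrableOn_Fr cv2 _).mono_set sub2)
          (Filter.Eventually.of_forall fun _ => sq_nonneg _) (LE.le.eventuallyLE sub1)
    _ = ∑ ij ∈ I, ∫ p in Q ij, v p ^ 2 := hsum cv2
    _ ≤ ∑ ij ∈ I, (3 * (4 / n) ^ 2 * η ^ 2 + 3 * (4 / n) ^ 2 * ∫ p in Q ij, gr v p) :=
        Finset.sum_le_sum fun ij _ => cell_poincare hv hs (hm ij.1 ij.2)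
    _ = I.card * (3 * (4 / n) ^ 2 * η ^ 2) + 3 * (4 / n) ^ 2 * ∫ p in ⋃ ij ∈ I, Q ij, gr v p := by
        rw [Finset.sum_add_distrib, Finset.sum_const, nsmul_eq_mul, ← Finset.mul_sum,
          hsum (continuous_gr hv)]
    _ ≤ 48 * η ^ 2 + 3 * (4 / n) ^ 2 * ∫ p in Fr (c + 4 / n), gr v p := by
        gcongr ?_ + _ * ?_
        · have : (I.card : ℝ) ≤ n * n := by
            have := Finset.card_le_univ I
            simp only [Fintype.card_prod, Fintype.card_fin] at this
            exact_mod_cast this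
          calc (I.card : ℝ) * (3 * (4 / n) ^ 2 * η ^ 2) ≤ n * n * (3 * (4 / n) ^ 2 * η ^ 2) := by
                gcongr
            _ = 48 * η ^ 2 := by field_simp; ring
        · exact setIntegral_mono_set (integrableOn_Fr (continuous_gr hv) _)
            (Filter.Eventually.of_forall fun _ => gr_nonneg _ _) (LE.le.eventuallyLE sub2)

theorem Fr_mono {c d : ℝ} (h : c ≤ d) : Fr c ⊆ Fr d := fun p hp =>
  ⟨by linarith [hp.1], by linarith [hp.2]⟩

theorem Lin.frame_small {k : ℝ} {A C E w v f : P → ℝ} (h : Lin k A C E w v f)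
    (hs : ∀ p : P, 1 < ‖p‖ → f p = 0) {n J : ℕ} (hJ : 0 < J) {η V : ℝ}
    (hn : 220000 * B0 * J / k ^ 2 ≤ n) (hm : ∀ i j : Fin n, |avg v (gc n i) (gc n j) (4 / n)| ≤ η)
    (hV : ∀ p : P, ‖p‖ ≤ 2 → gr v p ≤ V) :
    ∫ p in Fr 0, gr v p ≤ 16 * V / 4 ^ J + 16 * 10 ^ 9 * B0 ^ 2 * J ^ 2 * η ^ 2 / k ^ 4 := by
  have k0 := h.k0
  have k2 := h.k2
  have B1 := one_le_B0
  have hJ' : (1 : ℝ) ≤ J := by exact_mod_cast hJ
  have hk : 0 < k ^ 2 := by positivity
  have hn0 : (0 : ℝ) < n := lt_of_lt_of_le (by positivity) hn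
  have hn1 : 0 < n := by exact_mod_cast hn0
  set Δ : ℝ := 1 / (16 * J) with hΔ
  have Δ0 : 0 < Δ := by positivity
  have hsn : 4 / (n : ℝ) ≤ k ^ 2 * Δ / (3400 * B0) := by
    rw [div_le_iff₀ hk] at hn
    rw [hΔ, div_le_div_iff₀ hn0 (by positivity)]
    have : k ^ 2 * (1 / (16 * J)) * n = n * k ^ 2 / (16 * J) := by field_simp
    rw [this, le_div_iff₀ (by positivity)]
    nlinarith
  have hsΔ : 4 / (n : ℝ) ≤ Δ := by
    refine hsn.trans ?_
    rw [div_le_iff₀ (by positivity)]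
    nlinarith
  set K : ℝ := 80 * 11560 * B0 ^ 2 / (k ^ 4 * Δ ^ 2) with hK
  have K0 : 0 < K := by positivity
  have hKs : K * (3 * (4 / n) ^ 2) ≤ 1 / 4 := by
    calc K * (3 * (4 / n) ^ 2) ≤ K * (3 * (k ^ 2 * Δ / (3400 * B0)) ^ 2) := by gcongr
      _ = 80 * 11560 * 3 / 3400 ^ 2 := by rw [hK]; field_simp
      _ ≤ 1 / 4 := by norm_num
  set e : ℝ → ℝ := fun c => ∫ p in Fr c, gr v p with he
  have e0 : ∀ c, 0 ≤ e c := fun c => integral_nonneg fun p => gr_nonneg v p
  have emono : ∀ c d, c ≤ d → e c ≤ e d := fun c d hcd =>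
    setIntegral_mono_set (integrableOn_Fr (continuous_gr h.sv) _)
      (Filter.Eventually.of_forall fun _ => gr_nonneg _ _) (LE.le.eventuallyLE (Fr_mono hcd))
  have step : ∀ c, 0 ≤ c → c + 2 * Δ ≤ 1 / 8 → e c ≤ 48 * K * η ^ 2 + e (c + 2 * Δ) / 4 := by
    intro c c0 c1
    have a1 := h.cacc c0 Δ0 (by linarith) hs
    have a2 := frame_poincare h.sv hn1 (c := c + Δ) (by linarith) hm
    have a3 : e c ≤ K * ∫ p in Fr (c + Δ), v p ^ 2 := by
      have : K * ∫ p in Fr (c + Δ), v p ^ 2 =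
          80 / k ^ 2 * (11560 * B0 ^ 2 / (k ^ 2 * Δ ^ 2) * ∫ p in Fr (c + Δ), v p ^ 2) := by
        rw [hK]; field_simp
      rw [this]
      calc e c = 80 / k ^ 2 * (k ^ 2 / 80 * e c) := by field_simp
        _ ≤ _ := by gcongr
    have a4 := emono (c + Δ + 4 / n) (c + 2 * Δ) (by linarith)
    have a5 := e0 (c + Δ + 4 / n)
    calc e c ≤ K * (48 * η ^ 2 + 3 * (4 / n) ^ 2 * e (c + Δ + 4 / n)) := a3.trans (by gcongr)
      _ = 48 * K * η ^ 2 + K * (3 * (4 / n) ^ 2) * e (c + Δ + 4 / n) := by ring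
      _ ≤ 48 * K * η ^ 2 + 1 / 4 * e (c + 2 * Δ) := by gcongr
      _ = _ := by ring
  have ind : ∀ j : ℕ, j ≤ J → e (1 / 8 - 2 * Δ * j) ≤ e (1 / 8) / 4 ^ j + 64 * K * η ^ 2 := by
    intro j
    induction j with
    | zero => intro _; simp; positivity
    | succ j ih =>
      intro hj
      have hj' : ((j : ℝ) + 1) ≤ J := by exact_mod_cast hj
      have h1 : 2 * Δ * ((j : ℝ) + 1) ≤ 1 / 8 := by
        calc 2 * Δ * ((j : ℝ) + 1) ≤ 2 * Δ * J := by gcongr
          _ = 1 / 8 := by rw [hΔ]; field_simp; norm_num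
      have h2 : 0 ≤ 2 * Δ * (j : ℝ) := by positivity
      have := step (1 / 8 - 2 * Δ * ((j + 1 : ℕ) : ℝ)) (by push_cast; linarith)
        (by push_cast; linarith)
      have e' : 1 / 8 - 2 * Δ * ((j + 1 : ℕ) : ℝ) + 2 * Δ = 1 / 8 - 2 * Δ * j := by
        push_cast; ring
      rw [e'] at this
      have ih' := ih (by omega)
      have : e (1 / 8) / 4 ^ (j + 1) = e (1 / 8) / 4 ^ j / 4 := by rw [pow_succ]; field_simp
      linarith
  have fin := ind J le_rfl
  have e1 : 1 / 8 - 2 * Δ * J = 0 := by rw [hΔ]; field_simp; norm_num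
  rw [e1] at fin
  have hV0 : 0 ≤ V := (gr_nonneg v 0).trans (hV 0 (by simp))
  have e2 : e (1 / 8) ≤ 16 * V := by
    have sub : Fr (1 / 8) ⊆ Rec 2 2 := fun p hp =>
      mem_Rec.2 ⟨abs_fst_le (by linarith [hp.2]), abs_snd_le (by linarith [hp.2])⟩
    calc e (1 / 8) ≤ ∫ p in Rec 2 2, gr v p :=
          setIntegral_mono_set
            ((continuous_gr h.sv).continuousOn.integrableOn_compact (isCompact_Rec _ _))
            (Filter.Eventually.of_forall fun _ => gr_nonneg _ _) (LE.le.eventuallyLE sub)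
      _ ≤ ∫ p in Rec 2 2, V := by
          refine setIntegral_mono_on
            ((continuous_gr h.sv).continuousOn.integrableOn_compact (isCompact_Rec _ _))
            (continuous_const.continuousOn.integrableOn_compact (isCompact_Rec _ _))
            (isCompact_Rec _ _).measurableSet fun p hp => hV p ?_
          exact norm_le_of_abs (mem_Rec.1 hp).1 (mem_Rec.1 hp).2
      _ = 16 * V := by
          rw [setIntegral_const, volume_Rec (by norm_num) (by norm_num), smul_eq_mul]; ring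
  refine fin.trans (add_le_add (by gcongr) ?_)
  have : 64 * K * η ^ 2 = 64 * 80 * 11560 * 256 * (B0 ^ 2 * J ^ 2 * η ^ 2 / k ^ 4) := by
    rw [hK, hΔ]; field_simp; ring
  rw [this]
  have t : 0 ≤ B0 ^ 2 * J ^ 2 * η ^ 2 / k ^ 4 := by positivity
  have : 16 * 10 ^ 9 * B0 ^ 2 * J ^ 2 * η ^ 2 / k ^ 4 =
      16 * 10 ^ 9 * (B0 ^ 2 * J ^ 2 * η ^ 2 / k ^ 4) := by ring
  rw [this]
  nlinarith

end Crest.Agent.R220
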