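import Crest.Agent.R220.Bump

/-! The key inequality for two close solutions with different bump patterns. -/

set_option autoImplicit false
open scoped ContDiff
open MeasureTheory Set

namespace Crest.Agent.R220

theorem Nb.LL {g : P → ℝ} {b ρ : ℝ} (h : Nb g 2 b) (sg : Sm g) (hρ : |ρ| ≤ 1) (p : P) :
    |LL ρ g p| ≤ 2 * b := by
  unfold R220.LL
  have := abs_add_le' (((h.dx sg).dx (Sm.D sg _)).val p)
    (abs_mul_le hρ (((h.dy sg).dy (Sm.D sg _)).val p))
  linarith

theorem scaled_ineq {k m ρ γ N : ℝ} (q : Par k m ρ γ N) {U1 U2 : P → ℝ} {mm : ℕ}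
    {l δ B η R : ℝ} {c1 c2 : Fin mm → ℝ}
    (h1 : Sol k m ρ γ N U1 fun p => Sig0 p + pert l δ c1 p)
    (h2 : Sol k m ρ γ N U2 fun p => Sig0 p + pert l δ c2 p)
    (hc : ∀ j, |c1 j - c2 j| ≤ 1) {j0 : Fin mm} (hj : |c1 j0 - c2 j0| = 1)
    (hl : 0 < l) (hδ : 0 < δ) (hB : 1 ≤ B) (hb : ∀ y0, ∀ i ≤ 2, Nb (bmp l y0) i (B / l ^ i))
    (cl : ∀ p : P, ‖p‖ ≤ 2 → |dX (dX U1) p - dX (dX U2) p| ≤ k ^ 2 / 10 ^ 7 ∧
      |dX (dY U1) p - dX (dY U2) p| ≤ k ^ 2 / 10 ^ 7 ∧
      |dY (dY U1) p - dY (dY U2) p| ≤ k ^ 2 / 10 ^ 7)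
    {n J : ℕ} (hJ : 0 < J) (hn : 220000 * B0 * J / k ^ 2 ≤ n)
    (hm : ∀ i j : Fin n, |avg (fun p => U1 p - U2 p) (gc n i) (gc n j) (4 / n)| ≤ η)
    (hR : (8 * mm + 1) * l ≤ R) (hR1 : R ≤ 1 / 4) (hρ : 252 * B * ((8 * mm + 1) * l) ≤ ρ) :
    (k ^ 2 * δ * ρ) ^ 2 ≤
      70000 * B0 ^ 2 * (R ^ 3 / l + l / R) * (400 / k ^ 2 *
        (400 * l * ((8 * mm + 1) * l) ^ 3 * (7 * k ^ 2 * (δ * mm * (B / l ^ 2))) ^ 2 / k ^ 2 +
          288 * B0 * (16 * 37 / 4 ^ J + 16 * 10 ^ 9 * B0 ^ 2 * J ^ 2 * η ^ 2 / k ^ 4))) := by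
  set hh := (8 * mm + 1) * l with hhh
  have hlh : l ≤ hh := by
    have : (0 : ℝ) ≤ mm := by positivity
    rw [hhh]; nlinarith
  have hl1 : l ≤ 1 := by linarith
  have k0 := q.k0
  have hk : 0 < k ^ 2 := by positivity
  have ρ1 : |ρ| ≤ 1 := q.abs_ρ.trans (q.γ1.trans (by norm_num))
  set c : Fin mm → ℝ := fun j => c1 j - c2 j with hcdef
  have hφ : pert l δ c = fun p => (Sig0 p + pert l δ c1 p) - (Sig0 p + pert l δ c2 p) := by
    funext p
    simp only [pert, hcdef, sub_mul, Finset.sum_sub_distrib]; ring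
  obtain ⟨A, C, E, w, f, lin, est, van⟩ := nonlin_to_lin q h1 h2 hφ cl
  set φ := pert l δ c with hφd
  have sφ : Sm φ := pert_smooth _ _ _
  have hcl : IsClosed (Rec l hh) := (isCompact_Rec _ _).isClosed
  have hoff : ∀ p ∉ Rec l hh, φ p = 0 := pert_off hl c
  have hs : ∀ p ∉ Rec l hh, f p = 0 := fun p hp =>
    van p (hoff p hp) (D_eq_zero_off hcl hoff _ p hp) (D_eq_zero_off hcl hoff _ p hp)
      (LL_off hcl hoff p hp)
  have nφ : Nb φ 2 (δ * mm * (B / l ^ 2)) := Nb_pert hδ.le hc fun y0 => hb y0 2 le_rfl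
  have hΦ : ∀ p, |f p| ≤ 7 * k ^ 2 * (δ * mm * (B / l ^ 2)) := by
    intro p
    by_cases hp : p ∈ Rec l hh
    · have hn : ‖p‖ ≤ 1 := (norm_le_of_abs ((mem_Rec.1 hp).1.trans hlh) (mem_Rec.1 hp).2).trans
        (by linarith)
      have e := est p (by linarith)
      have a1 : |dX φ p| ≤ _ := (nφ.dx sφ).val p
      have a2 : |dY φ p| ≤ _ := (nφ.dy sφ).val p
      have a3 : |φ p| ≤ _ := nφ.val p
      have a4 := nφ.LL sφ ρ1 p
      have a5 : ‖p‖ * |LL ρ φ p| ≤ 1 * (2 * (δ * mm * (B / l ^ 2))) := by gcongr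
      have a6 := abs_sub_le' e (abs_mul_le (le_of_eq (abs_of_pos hk)) a4)
      rw [add_sub_cancel_right] at a6
      refine a6.trans ?_
      nlinarith
    · rw [hs p hp, abs_zero]; positivity
  have hV : ∀ p : P, ‖p‖ ≤ 2 → gr (fun p => U1 p - U2 p) p ≤ 37 := by
    intro p hp
    unfold gr
    rw [D_sub _ (h1.sU.diff p) (h2.sU.diff p), D_sub _ (h1.sU.diff p) (h2.sU.diff p)]
    have a := abs_sub_le' (h1.bX p hp).1 (h2.bX p hp).1
    have b := abs_sub_le' (h1.bY p hp).1 (h2.bY p hp).1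
    have := q.γ1
    have a' : |dX U1 p - dX U2 p| ≤ 1 := by linarith
    have := pow_le_pow_left₀ (abs_nonneg _) a' 2
    have := pow_le_pow_left₀ (abs_nonneg _) b 2
    simp only [sq_abs] at *
    linarith
  obtain ⟨τ, hτ, fin⟩ := lin.final hl hlh (by linarith) hΦ hs hJ hn hm hV
  have ball := ball_sub_Rec (m := mm) hl j0
  have hy : |yc l j0| ≤ R := by
    have := (mem_Rec.1 (ball (Metric.mem_closedBall_self hl.le))).2
    simp only at this
    linarith
  refine le_trans ?_ (fin R (yc l j0) (hlh.trans hR) hR1 hy)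
  set y0 := yc l j0 with hy0
  set z := zt τ R l y0 with hz
  have sz : Sm z := zt_smooth _ _ _ _
  set b := bmp l y0 with hbd
  have sb : Sm b := bmp_smooth _ _
  set K := Metric.closedBall ((0, y0) : P) l with hK
  have Kc : IsCompact K := isCompact_closedBall _ _
  have boff : ∀ p ∉ K, b p = 0 := bmp_off hl
  have hδc : |δ * c j0| = δ := by rw [abs_mul, hj, abs_of_pos hδ, mul_one]
  have pt : ∀ p, ‖z p * f p + k ^ 2 * (δ * c j0) * (z p * LL ρ b p)‖ ≤
      K.indicator (fun _ => 9 * (k ^ 2 * (δ * B * (5 * hh + 2 * l) / l ^ 2))) p := by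
    intro p
    have r0 : 0 ≤ K.indicator (fun _ => 9 * (k ^ 2 * (δ * B * (5 * hh + 2 * l) / l ^ 2))) p :=
      indicator_nonneg (fun _ _ => by have := hl.trans_le hlh; positivity) p
    by_cases hp : ∀ i, i ≠ j0 → p ∉ Metric.closedBall ((0, yc l i) : P) l
    · have loc : φ =ᶠ[nhds p] fun q => δ * c j0 * b q := pert_local hl c j0 hp
      have e0 : φ p = δ * c j0 * b p := loc.self_of_nhds
      have e1 : dX φ p = δ * c j0 * dX b p := by rw [D_congr loc, D_const_mul _ _ (sb.diff p)]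
      have e2 : dY φ p = δ * c j0 * dY b p := by rw [D_congr loc, D_const_mul _ _ (sb.diff p)]
      have e3 : LL ρ φ p = δ * c j0 * LL ρ b p := by rw [LL_congr loc, LL_cmul sb]
      by_cases hq : p ∈ K
      · rw [indicator_of_mem hq, Real.norm_eq_abs]
        have hr := mem_Rec.1 (ball hq)
        have hn : ‖p‖ ≤ hh := norm_le_of_abs (hr.1.trans hlh) hr.2
        have e := est p (by linarith)
        have : z p * f p + k ^ 2 * (δ * c j0) * (z p * LL ρ b p) =
            z p * (f p + k ^ 2 * LL ρ φ p) := by rw [e3]; ring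
        rw [this]
        refine abs_mul_le (abs_zt_le _ _ _ _ _) (e.trans ?_)
        rw [e0, e1, e2, e3]
        have a1 : |δ * c j0 * dX b p| ≤ δ * (B / l ^ 1) :=
          abs_mul_le hδc.le (((hb y0 1 (by norm_num)).dx sb).val p)
        have a2 : |δ * c j0 * dY b p| ≤ δ * (B / l ^ 1) :=
          abs_mul_le hδc.le (((hb y0 1 (by norm_num)).dy sb).val p)
        have a3 : |δ * c j0 * b p| ≤ δ * (B / l ^ 1) :=
          abs_mul_le hδc.le ((hb y0 1 (by norm_num)).val p)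
        have a4 : |δ * c j0 * LL ρ b p| ≤ δ * (2 * (B / l ^ 2)) :=
          abs_mul_le hδc.le ((hb y0 2 le_rfl).LL sb ρ1 p)
        have a5 : ‖p‖ * |δ * c j0 * LL ρ b p| ≤ hh * (δ * (2 * (B / l ^ 2))) := by
          gcongr
        gcongr
        have t1 : δ * B * (5 * hh + 2 * l) / l ^ 2 = 3 * (δ * (B / l ^ 1))
            + hh * (δ * (2 * (B / l ^ 2))) + δ * B * (3 * hh - l) / l ^ 2 := by
          field_simp; ring
        have t2 : 0 ≤ δ * B * (3 * hh - l) / l ^ 2 := by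
          have : 0 ≤ 3 * hh - l := by linarith
          positivity
        linarith
      · have z0 := boff p hq
        have z1 := D_eq_zero_off Kc.isClosed boff (1, 0) p hq
        have z2 := D_eq_zero_off Kc.isClosed boff (0, 1) p hq
        have z3 := LL_off (ρ := ρ) Kc.isClosed boff p hq
        rw [van p (by rw [e0, z0, mul_zero]) (by rw [e1, z1, mul_zero]) (by rw [e2, z2, mul_zero])
          (by rw [e3, z3, mul_zero]), z3]
        simpa using r0
    · push Not at hp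
      obtain ⟨i, hi, hp⟩ := hp
      have : z p = 0 := zt_other hτ hl (fun h => hi (Fin.ext h)) hp
      rw [this]
      simpa using r0
  have m1 := norm_integral_le_of_norm_le
    (integrable_indicator_compact Kc continuous_const) (Filter.Eventually.of_forall pt)
  have i1 : Integrable fun p => z p * f p :=
    (sz.cont.mul lin.cf).integrable_of_hasCompactSupport
      (HasCompactSupport.intro (isCompact_Rec l hh) fun p hp => by simp [hs p hp])
  have i2 : Integrable fun p => z p * LL ρ b p :=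
    (sz.cont.mul (sm_LL sb ρ).cont).integrable_of_hasCompactSupport
      (HasCompactSupport.intro Kc fun p hp => by simp [LL_off Kc.isClosed boff p hp])
  rw [integral_add i1 (i2.const_mul _), integral_const_mul, integral_indicator Kc.measurableSet,
    setIntegral_const, hK, volume_ball _ hl.le, hz, hbd, integral_zt_LL hτ hl (hlh.trans hR),
    Real.norm_eq_abs, smul_eq_mul] at m1
  have m2 := integral_bmp_ge (y0 := y0) hl
  set I := ∫ p, bmp l y0 p
  set T := ∫ p, zt τ R l y0 p * f p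
  have ρ0 := q.ρ0
  have m3 : 2 * ρ ≤ 2 * (τ ^ 2 + ρ) / l ^ 2 * I := by
    calc 2 * ρ = 2 * (0 + ρ) / l ^ 2 * l ^ 2 := by field_simp; ring
      _ ≤ _ := by gcongr; positivity
  have m4 : k ^ 2 * δ * (2 * ρ) ≤ |k ^ 2 * (δ * c j0) * (2 * (τ ^ 2 + ρ) / l ^ 2 * I)| := by
    rw [abs_mul, abs_mul, hδc, abs_of_pos hk]
    gcongr
    exact m3.trans (le_abs_self _)
  have m5 : 4 * l ^ 2 * (9 * (k ^ 2 * (δ * B * (5 * hh + 2 * l) / l ^ 2))) ≤ k ^ 2 * δ * ρ := by
    calc _ = k ^ 2 * δ * (36 * B * (5 * hh + 2 * l)) := by field_simp; ring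
      _ ≤ k ^ 2 * δ * (36 * B * (5 * hh + 2 * hh)) := by gcongr
      _ ≤ _ := by gcongr; linarith
  have m6 := abs_sub_le' m1 (le_refl |T|)
  rw [add_sub_cancel_left] at m6
  have m7 : k ^ 2 * δ * ρ ≤ |T| := by linarith
  rw [← sq_abs T]
  gcongr

end Crest.Agent.R220
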